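import Crest.Agent.R254.Defs

/-! Row 254: binning lemma. -/

set_option autoImplicit false
namespace Crest.Agent.R254

theorem bin (B : Type*) : BinStmt B := by
  classical
  intro S f h k Λ hh hS hΛ
  rcases S.eq_empty_or_nonempty with rfl | hne
  · simp
  obtain ⟨x0, hx0, hmin⟩ := S.exists_min_image f hne
  have hmap : ∀ x ∈ S, ⌊(f x - f x0) / h⌋₊ ∈ Finset.range (k + 1) := by
    intro x hx
    rw [Finset.mem_range, Nat.lt_succ_iff]
    apply Nat.floor_le_of_le
    rw [div_le_iff₀ hh]
    exact (le_abs_self _).trans (hS x hx x0 hx0)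
  have := Finset.card_le_mul_card_image_of_maps_to hmap Λ (fun b _ => by
    refine hΛ _ (Finset.filter_subset _ _) fun x hx y hy => ?_
    obtain ⟨hx1, hx2⟩ := Finset.mem_filter.1 hx
    obtain ⟨hy1, hy2⟩ := Finset.mem_filter.1 hy
    have a0 : 0 ≤ (f x - f x0) / h := div_nonneg (sub_nonneg.2 (hmin x hx1)) hh.le
    have b0 : 0 ≤ (f y - f x0) / h := div_nonneg (sub_nonneg.2 (hmin y hy1)) hh.le
    have a1 := Nat.floor_le a0
    have a2 := Nat.lt_floor_add_one ((f x - f x0) / h)
    have b1 := Nat.floor_le b0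
    have b2 := Nat.lt_floor_add_one ((f y - f x0) / h)
    rw [hx2] at a1 a2
    rw [hy2] at b1 b2
    rw [le_div_iff₀ hh] at a1 b1
    rw [div_lt_iff₀ hh] at a2 b2
    rw [abs_le]
    constructor <;> nlinarith)
  rw [Finset.card_range, mul_comm] at this
  exact this

end Crest.Agent.R254
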