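import Crest.Agent.R114.BDR

/-! Row 254: triangular Dvoretzky-Rogers frame. -/

set_option autoImplicit false

namespace Crest.Agent.R254

open Crest.Agent.R114

namespace Frame

variable {E : Type} [NormedAddCommGroup E] [InnerProductSpace ℝ E]
  [FiniteDimensional ℝ E] {Z : Type*} [NormedAddCommGroup Z] [NormedSpace ℝ Z]

theorem fresh (u0 : E →ₗ[ℝ] Z) (hinj : Function.Injective u0) :
    ∃ u : E →ₗ[ℝ] Z, (∀ v, ‖u v‖ ≤ ‖v‖) ∧ ∀ V : Submodule ℝ E,
      2 * Module.finrank ℝ V < Module.finrank ℝ E → ∃ w ∈ Vᗮ, ‖w‖ = 1 ∧ 1 / 4 ≤ ‖u w‖ := by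
  haveI : CompleteSpace E := FiniteDimensional.complete ℝ E
  obtain ⟨A, hA, hpos, hmax⟩ := dr_max u0 hinj
  set u : E →ₗ[ℝ] Z := u0 ∘ₗ (A : E →ₗ[ℝ] E) with hu
  have hu1 : ∀ v, ‖u v‖ ≤ ‖v‖ := hA
  refine ⟨u, hu1, fun V hV => ?_⟩
  have hsum := V.finrank_add_finrank_orthogonal
  by_contra hcon
  have hsmall : ∀ w ∈ Vᗮ, ‖u w‖ ≤ ‖w‖ / 4 := by
    intro w hw
    by_cases hw0 : w = 0
    · simp [hw0]
    by_contra hlt
    push Not at hlt
    have hn : 0 < ‖w‖ := norm_pos_iff.2 hw0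
    apply hcon
    refine ⟨(‖w‖⁻¹ : ℝ) • w, Submodule.smul_mem _ _ hw, ?_, ?_⟩
    · rw [norm_smul, Real.norm_eq_abs, abs_of_pos (inv_pos.2 hn), inv_mul_cancel₀ hn.ne']
    · rw [map_smul, norm_smul, Real.norm_eq_abs, abs_of_pos (inv_pos.2 hn), le_inv_mul_iff₀ hn]
      linarith
  obtain ⟨T, hT, hdet⟩ := dr_T Vᗮ
  have hB : ∀ v, ‖u0 ((A ∘L LinearMap.toContinuousLinearMap T) v)‖ ≤ ‖v‖ := by
    intro v
    have h1 : u0 ((A ∘L LinearMap.toContinuousLinearMap T) v) = u (T v) := rfl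
    rw [h1, hT, map_add, map_smul, map_smul]
    have h2 := hsmall _ (Vᗮ.starProjection_apply_mem v)
    have h3 : ‖Vᗮ.starProjection v‖ ≤ ‖v‖ := Vᗮ.norm_starProjection_apply_le v
    have h4 := hu1 v
    calc _ ≤ ‖(2⁻¹ : ℝ) • u v‖ + ‖(2 : ℝ) • u (Vᗮ.starProjection v)‖ := norm_add_le _ _
      _ = 2⁻¹ * ‖u v‖ + 2 * ‖u (Vᗮ.starProjection v)‖ := by
        rw [norm_smul, norm_smul, norm_inv]; simp
      _ ≤ ‖v‖ := by linarith
  have h5 := hmax _ hB
  have h6 : (A ∘L LinearMap.toContinuousLinearMap T).det = A.det * LinearMap.det T := by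
    unfold ContinuousLinearMap.det
    rw [← LinearMap.det_comp]; rfl
  rw [h6, norm_mul, hdet, Submodule.orthogonal_orthogonal] at h5
  have h7 : (1 : ℝ) < (5 / 2 : ℝ) ^ (Module.finrank ℝ Vᗮ) * (2⁻¹ : ℝ) ^ (Module.finrank ℝ V) := by
    have : Module.finrank ℝ Vᗮ =
        (Module.finrank ℝ Vᗮ - Module.finrank ℝ V) + Module.finrank ℝ V := by omega
    rw [this, pow_add, mul_assoc, ← mul_pow]
    have h8 : (1 : ℝ) < (5 / 2 : ℝ) ^ (Module.finrank ℝ Vᗮ - Module.finrank ℝ V) :=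
      one_lt_pow₀ (by norm_num) (by omega)
    have h9 : (1 : ℝ) ≤ (5 / 2 * 2⁻¹ : ℝ) ^ (Module.finrank ℝ V) := one_le_pow₀ (by norm_num)
    nlinarith
  nlinarith

theorem tri (u : E →ₗ[ℝ] Z) (m : ℕ) (hE : 4 * m < Module.finrank ℝ E)
    (hf : ∀ V : Submodule ℝ E, 2 * Module.finrank ℝ V < Module.finrank ℝ E →
      ∃ w ∈ Vᗮ, ‖w‖ = 1 ∧ 1 / 4 ≤ ‖u w‖) :
    ∀ k, k ≤ m → ∃ (e : Fin k → E) (φ : Fin k → StrongDual ℝ Z), Orthonormal ℝ e ∧
      (∀ i, ‖φ i‖ ≤ 1) ∧ (∀ i, 1 / 4 ≤ φ i (u (e i))) ∧ ∀ i j, j < i → φ i (u (e j)) = 0 := by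
  haveI : CompleteSpace E := FiniteDimensional.complete ℝ E
  intro k
  induction k with
  | zero =>
    exact fun _ => ⟨fun i => i.elim0, fun i => i.elim0, Orthonormal.of_isEmpty _,
      fun i => i.elim0, fun i => i.elim0, fun i => i.elim0⟩
  | succ k ih =>
    intro hk
    obtain ⟨e, φ, he, hφ, hd, ht⟩ := ih (by omega)
    set r : Fin k → E := fun i => (InnerProductSpace.toDual ℝ E).symm
      ((φ i) ∘L LinearMap.toContinuousLinearMap u) with hr
    set V : Submodule ℝ E := Submodule.span ℝ (Set.range (Sum.elim e r)) with hV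
    have hVd : Module.finrank ℝ V ≤ k + k := by
      have := finrank_range_le_card (R := ℝ) (Sum.elim e r)
      simpa [Set.finrank] using this
    obtain ⟨w, hw, hw1, hw2⟩ := hf V (by omega)
    obtain ⟨ψ, hψ1, hψ2⟩ := exists_dual_vector'' ℝ (u w)
    have hwe : ∀ i, inner ℝ w (e i) = 0 := fun i =>
      Submodule.inner_left_of_mem_orthogonal
        (Submodule.subset_span (Set.mem_range_self (Sum.inl i : Fin k ⊕ Fin k))) hw
    have hwr : ∀ i, φ i (u w) = 0 := fun i => by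
      have h1 : inner ℝ (r i) w = 0 := Submodule.inner_right_of_mem_orthogonal
        (Submodule.subset_span (Set.mem_range_self (Sum.inr i : Fin k ⊕ Fin k))) hw
      rw [hr] at h1
      simpa using h1
    refine ⟨Matrix.vecCons w e, Matrix.vecCons ψ φ, ?_, ?_, ?_, ?_⟩
    · rw [orthonormal_vecCons_iff]
      exact ⟨hw1, hwe, he⟩
    · intro i
      refine Fin.cases ?_ (fun j => ?_) i
      · simpa using hψ1
      · simpa using hφ j
    · intro i
      refine Fin.cases ?_ (fun j => ?_) i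
      · simp only [Matrix.cons_val_zero]
        rw [hψ2]; simpa using hw2
      · simpa using hd j
    · intro i j
      refine Fin.cases ?_ (fun i' => ?_) i
      · intro h; exact absurd h (Fin.not_lt_zero _)
      · refine Fin.cases ?_ (fun j' => ?_) j
        · intro _; simpa using hwr i'
        · intro h; simpa using ht i' j' (Fin.succ_lt_succ_iff.1 h)

end Frame

/-- triangular Dvoretzky-Rogers frame -/
theorem frame (B : Type*) [NormedAddCommGroup B] [NormedSpace ℝ B] (h : ¬ FiniteDimensional ℝ B)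
    (m : ℕ) : ∃ T : EuclideanSpace ℝ (Fin m) →L[ℝ] B, (∀ x, ‖T x‖ ≤ ‖x‖) ∧
      ∀ (i : Fin m) (x : EuclideanSpace ℝ (Fin m)), (∀ j, i < j → x j = 0) → |x i| / 4 ≤ ‖T x‖ := by
  have hrank : ((4 * m + 1 : ℕ) : Cardinal) ≤ Module.rank ℝ B := by
    have h1 : Cardinal.aleph0 ≤ Module.rank ℝ B := by
      by_contra h'
      exact h (Module.rank_lt_aleph0_iff.1 (not_le.1 h'))
    exact (Cardinal.natCast_le_aleph0).trans h1
  obtain ⟨f, hf0⟩ := Module.le_rank_iff_exists_linearMap.1 hrank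
  set u0 : EuclideanSpace ℝ (Fin (4 * m + 1)) →ₗ[ℝ] B :=
    f ∘ₗ (WithLp.linearEquiv 2 ℝ (Fin (4 * m + 1) → ℝ)).toLinearMap with hu0
  have hinj : Function.Injective u0 :=
    hf0.comp (WithLp.linearEquiv 2 ℝ (Fin (4 * m + 1) → ℝ)).injective
  obtain ⟨u, hu1, hf⟩ := Frame.fresh u0 hinj
  obtain ⟨e, φ, he, hφ, hd, ht⟩ := Frame.tri u m (by simp) hf m le_rfl
  set S : EuclideanSpace ℝ (Fin m) →ₗ[ℝ] EuclideanSpace ℝ (Fin (4 * m + 1)) :=
    (Fintype.linearCombination ℝ e) ∘ₗ (WithLp.linearEquiv 2 ℝ (Fin m → ℝ)).toLinearMap with hS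
  have hSx : ∀ x, S x = ∑ i, x i • e i := fun x => by
    simp [hS, Fintype.linearCombination_apply]
  have hSn : ∀ x, ‖S x‖ = ‖x‖ := fun x => by
    have h1 : ‖S x‖ ^ 2 = ‖x‖ ^ 2 := by
      rw [hSx, ← real_inner_self_eq_norm_sq, he.inner_sum, EuclideanSpace.norm_sq_eq]
      refine Finset.sum_congr rfl fun i _ => ?_
      simp [sq]
    exact (pow_left_inj₀ (norm_nonneg _) (norm_nonneg _) two_ne_zero).1 h1
  refine ⟨LinearMap.toContinuousLinearMap (u ∘ₗ S), fun x => (hu1 _).trans (hSn x).le, ?_⟩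
  intro i x hx
  have h1 : φ i (u (S x)) = x i * φ i (u (e i)) := by
    rw [hSx, map_sum, map_sum, Finset.sum_eq_single i]
    · simp
    · intro j _ hj
      rcases lt_or_gt_of_ne hj with h2 | h2
      · simp [ht i j h2]
      · simp [hx j h2]
    · simp
  have h2 : |φ i (u (S x))| ≤ ‖u (S x)‖ := by
    have := (φ i).le_opNorm (u (S x))
    rw [Real.norm_eq_abs] at this
    nlinarith [hφ i, norm_nonneg (u (S x))]
  have h3 : |x i| / 4 ≤ |φ i (u (S x))| := by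
    rw [h1, abs_mul, abs_of_nonneg (by linarith [hd i] : 0 ≤ φ i (u (e i)))]
    nlinarith [hd i, abs_nonneg (x i)]
  exact h3.trans h2

end Crest.Agent.R254
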