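import Crest.Agent.R254.Glue
import Crest.Agent.R254.Frame

/-! Row 254: online game, its lift to nested time gadgets; statements of the tasks. -/

set_option autoImplicit false
noncomputable section
namespace Crest.Agent.R254

abbrev Eu (d : ℕ) := EuclideanSpace ℝ (Fin d)

variable {B : Type*} [NormedAddCommGroup B] [NormedSpace ℝ B]

/-- `G` expands and is `L`-Lipschitz on `Y` -/
def BL {d : ℕ} (L : ℝ) (Y : Finset B) (G : B → Eu d) : Prop :=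
  ∀ x ∈ Y, ∀ y ∈ Y, ‖x - y‖ ≤ ‖G x - G y‖ ∧ ‖G x - G y‖ ≤ L * ‖x - y‖

/-- `ε`-robust winning strategy tree of depth `R`, branching `b`; node = list of moves (head = last
move), `Y l` = points inserted so far, `W l G` = the adversary is winning against the answers `G`. -/
structure Win (d : ℕ) (L : ℝ) (b R : ℕ) (ε : ℝ) (Y : List (Fin b) → Finset B)
    (W : List (Fin b) → (B → Eu d) → Prop) : Prop where
  bpos : 0 < b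
  epos : 0 < ε
  zero : (0 : B) ∈ Y []
  mono : ∀ c l, Y l ⊆ Y (c :: l)
  root : ∀ G, BL L (Y []) G → W [] G
  step : ∀ l : List (Fin b), l.length < R → ∀ G, BL L (Y l) G → W l G → ∃ c, ∀ G',
    BL L (Y (c :: l)) G' → (∀ y ∈ Y l, ‖G' y - G y‖ ≤ ε) → W (c :: l) G'
  stop : ∀ l : List (Fin b), l.length = R → ∀ G, BL L (Y l) G → ¬ W l G

/-- gadget property of the cells `Yc 0, …, Yc (N-1)` (cell `i` = time interval `[i, i+1]`). -/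
def GadC (d : ℕ) (L : ℝ) (N : ℕ) (γ τ : ℝ) (Yc : ℕ → Finset B) : Prop :=
  ∀ (H : ℕ → B → Eu d) (S : ℝ), 0 ≤ S → S ≤ L →
    (∀ i, i < N → BL L (Yc i) (H i) ∧ BL L (Yc i) (H (i + 1))) →
    (∀ i, i < N → ∀ y ∈ Yc i, ‖H (i + 1) y - H i y‖ ≤ S * τ) →
    (1 + γ) * ‖H N 0 - H 0 0‖ ≤ S * τ * N

/-- nested gadgets on the time edge `[0, u]` -/
def KK (u : B) (N : ℕ) (κ : ℝ) (Yc : ℕ → Finset B) : ℕ → Set B
  | 0 => {0, u}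
  | j + 1 => {x | ∃ i, i < N ∧ ∃ y ∈ Yc i, ∃ z ∈ KK u N κ Yc j,
      x = ((i : ℝ) / N) • u + κ • y + ((1 : ℝ) / N) • z}

theorem KK_zero (u : B) (N : ℕ) (κ : ℝ) (Yc : ℕ → Finset B) : KK u N κ Yc 0 = {0, u} := rfl
theorem KK_succ (u : B) (N : ℕ) (κ : ℝ) (Yc : ℕ → Finset B) (j : ℕ) (x : B) :
    x ∈ KK u N κ Yc (j + 1) ↔ ∃ i, i < N ∧ ∃ y ∈ Yc i, ∃ z ∈ KK u N κ Yc j,
      x = ((i : ℝ) / N) • u + κ • y + ((1 : ℝ) / N) • z := Iff.rfl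

/-- EN. `|w-V|² ≤ σ²+|V|²-2⟨w,V⟩`, `σ²-|V|² ≤ 2γΛ²`. Base line: sum over `i<N` is `≤ 1/N`, so
`|P i - P 0 - iV| ≤ 1` (Cauchy-Schwarz); then `⟨Q (a+n) - Q a, V⟩ ≥ n|V|² - (2Δ+2)Λ`. -/
def EnStmt : Prop :=
  ∀ (d N : ℕ) (σ Λ γ Δ : ℝ) (P Q : ℕ → Eu d) (V : Eu d) (a n : ℕ), 0 < N → 0 ≤ σ → σ ≤ Λ → 0 < γ →
    0 ≤ Δ → 2 * γ * Λ ^ 2 * (N : ℝ) ^ 2 ≤ 1 → (N : ℝ) • V = P N - P 0 → σ ≤ (1 + γ) * ‖V‖ →
    (∀ i, i < N → ‖P (i + 1) - P i‖ ≤ σ) → a + n ≤ N →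
    (∀ i, i < n → ‖Q (a + i + 1) - Q (a + i)‖ ≤ σ) → ‖Q a - P a‖ ≤ Δ → ‖Q (a + n) - P (a + n)‖ ≤ Δ →
    ∑ i ∈ Finset.range n, ‖Q (a + i + 1) - Q (a + i) - V‖ ^ 2 ≤ 1 + 4 * (Δ + 1) * Λ

/-- TREE. Induction on the height `h` of a node `l` (`l.length + h = R`): there are `n>0` and cells
`c : ℕ → List` (all extensions of `l`, length `≤ R`) such that the two hypotheses on `[0,n]` and
`∀ i ≤ n, W l (G i)` give `False`. Height 0: `n=1`, `c=l`. Step: window = concatenation of the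
blocks of the `b` children (length `w`), repeated `M ≥ w * card (Y l) * C0 / ε²` times; some window has
energy `≤ card * C0 / M`, so `G i` is `ε`-static on `Y l` there (Cauchy-Schwarz); `step` at its start
picks the child; shift time to the block of that child. -/
def TreeStmt (B : Type*) [NormedAddCommGroup B] [NormedSpace ℝ B] : Prop :=
  ∀ (d : ℕ) (L : ℝ) (b R : ℕ) (ε : ℝ) (Y : List (Fin b) → Finset B)
    (W : List (Fin b) → (B → Eu d) → Prop), Win d L b R ε Y W → ∀ C0 : ℝ, 0 ≤ C0 →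
    ∃ n : ℕ, 0 < n ∧ ∃ c : ℕ → List (Fin b), (∀ i, (c i).length ≤ R) ∧ ∀ G : ℕ → B → Eu d,
      (∀ i, i < n → BL L (Y (c i)) (G i) ∧ BL L (Y (c i)) (G (i + 1))) →
      (∀ (a k : ℕ) (y : B), a + k ≤ n → (∀ i, i < k → y ∈ Y (c (a + i))) →
        ∑ i ∈ Finset.range k, ‖G (a + i + 1) y - G (a + i) y‖ ^ 2 ≤ C0) → False

/-- BND. finitely many lists of length `≤ R` (`List.finite_length_le`). -/
def BndStmt (B : Type*) [NormedAddCommGroup B] : Prop :=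
  ∀ (b R : ℕ) (Y : List (Fin b) → Finset B), ∃ D μ : ℝ, 0 < D ∧ 0 < μ ∧
    ∀ l : List (Fin b), l.length ≤ R → (∀ y ∈ Y l, ‖y‖ ≤ D) ∧
      ∀ y ∈ Y l, ∀ y' ∈ Y l, y ≠ y' → μ ≤ ‖y - y'‖

/-- GAD (from EN, TREE, BND). `Λ = Lτ`, `Δ = L D`, `C0 = 1+4(Δ+1)Λ`, `N = max n N0`,
`γ = 1/(2Λ²N²+1)`; by contradiction, `V = (H N 0 - H 0 0)/N`, `G i y = H i y - i • V`. -/
def GadStmt (B : Type*) [NormedAddCommGroup B] [NormedSpace ℝ B] : Prop :=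
  ∀ (d : ℕ) (L : ℝ) (b R : ℕ) (ε : ℝ) (Y : List (Fin b) → Finset B)
    (W : List (Fin b) → (B → Eu d) → Prop), Win d L b R ε Y W → 0 ≤ L → ∀ τ : ℝ, 0 < τ → ∀ N0 : ℕ,
    ∃ N : ℕ, N0 ≤ N ∧ 0 < N ∧ ∃ γ : ℝ, 0 < γ ∧ ∃ c : ℕ → List (Fin b), (∀ i, (c i).length ≤ R) ∧
      GadC d L N γ τ (fun i => Y (c i))

/-- NEST. `KK j` is finite and contains `0, u`; induction: every `f` expanding and `L`-Lipschitz on
`KK j` has `(1+γ)^j |f u - f 0| ≤ L` (rescale the copy at `(i,y)` by `N`; `H i y = κ⁻¹ • f (i/N u+κ y)`). -/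
def NestStmt (B : Type*) [NormedAddCommGroup B] [NormedSpace ℝ B] : Prop :=
  ∀ (d : ℕ) (L : ℝ) (N : ℕ) (γ τ κ : ℝ) (u : B) (Yc : ℕ → Finset B), 0 ≤ L → 0 < N → 0 < γ → 0 < κ →
    τ * κ * N = 1 → 1 / 4 ≤ ‖u‖ → ‖u‖ ≤ 1 → (∀ i, (0 : B) ∈ Yc i) → GadC d L N γ τ Yc →
    ∃ j, (KK u N κ Yc j).Finite ∧ NoEmb (KK u N κ Yc j) d L

/-- BIN. bins `⌊(f x - min f)/h⌋ ∈ {0..k}`. -/
def BinStmt (B : Type*) : Prop :=
  ∀ (S : Finset B) (f : B → ℝ) (h : ℝ) (k Λ : ℕ), 0 < h → (∀ x ∈ S, ∀ y ∈ S, |f x - f y| ≤ k * h) →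
    (∀ S' : Finset B, S' ⊆ S → (∀ x ∈ S', ∀ y ∈ S', |f x - f y| ≤ h) → S'.card ≤ Λ) →
    S.card ≤ (k + 1) * Λ

/-- PACK (from BIN). `δ=κD`; on `KK j`: `φ x ∈ [0,1]`, `|x - φ x • u| ≤ 2δ`. `|φ x - φ x'| ≤ 16 r` on `S`.
(a) `r ≥ 8δ`: bins `h=r/2`, one point each, `≤ 33`. (b) `r<8δ`: at most two adjacent cells.
(b1) `r ≥ κμ/40`: in a cell bins `h=r/4`, `x ↦ y` is `r/(2κ)`-separated of diameter `≤ 9 r/(2κ)`: `≤ 65Λ`.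
(b2) `r<κμ/40`: in a cell all `y` agree, rescale by `N`. Induct first for END-ANCHORED `S` (all
`φ x ≤ 16r`, or all `φ x ≥ 1-16r`; then one cell; bound `130Λ+33`), then for all `S` (one cell: same
claim; two cells: both parts are end-anchored after rescaling). -/
def PackStmt (B : Type*) [NormedAddCommGroup B] [NormedSpace ℝ B] : Prop :=
  ∀ (N : ℕ) (κ D μ : ℝ) (u : B) (φ : B →L[ℝ] ℝ) (Yc : ℕ → Finset B) (Λ : ℕ), 2 ≤ N → 0 < κ → 0 < D →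
    0 < μ → 128 * κ * D * N ≤ 1 → 640 * D ≤ μ * N → ‖u‖ ≤ 1 → φ u = 1 → (∀ x, |φ x| ≤ 4 * ‖x‖) →
    (∀ i, ∀ y ∈ Yc i, φ y = 0 ∧ ‖y‖ ≤ D) → (∀ i, ∀ y ∈ Yc i, ∀ y' ∈ Yc i, y ≠ y' → μ ≤ ‖y - y'‖) →
    (∀ i, Pk (↑(Yc i) : Set B) 9 Λ) → ∀ j, Pk (KK u N κ Yc j) 4 (260 * Λ + 66)

/-- triangular frame -/
def Fr {m : ℕ} (T : Eu m →L[ℝ] B) : Prop :=
  (∀ x, ‖T x‖ ≤ ‖x‖) ∧ ∀ (i : Fin m) (x : Eu m), (∀ j, i < j → x j = 0) → |x i| / 4 ≤ ‖T x‖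

/-- PHI. `frame` in dimension `m+1`, `u` = image of the last basis vector, Hahn-Banach. -/
def PhiStmt (B : Type*) [NormedAddCommGroup B] [NormedSpace ℝ B] : Prop :=
  ¬ FiniteDimensional ℝ B → ∀ m : ℕ, ∃ (T : Eu m →L[ℝ] B) (u : B) (φ : B →L[ℝ] ℝ), Fr T ∧
    ‖u‖ ≤ 1 ∧ φ u = 1 ∧ (∀ x, |φ x| ≤ 4 * ‖x‖) ∧ ∀ x, φ (T x) = 0

/-- GAME (helper28's game, board 1936) with universal packing constant `Λ`. -/
def GameStmt (B : Type*) [NormedAddCommGroup B] [NormedSpace ℝ B] (Λ : ℕ) : Prop :=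
  ∀ (d : ℕ) (L : ℝ), 1 ≤ L → ∃ m : ℕ, ∀ T : Eu m →L[ℝ] B, Fr T →
    ∃ (b R : ℕ) (ε : ℝ) (Y : List (Fin b) → Finset B) (W : List (Fin b) → (B → Eu d) → Prop),
      Win d L b R ε Y W ∧ (∀ l, ∀ y ∈ Y l, ∃ x, y = T x) ∧
      ∀ l : List (Fin b), l.length ≤ R → Pk (↑(Y l) : Set B) 9 Λ

end Crest.Agent.R254
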