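import Crest.Agent.R254.Defs

/-! Row 254, task EN: energy bound along an alive time line. -/

set_option autoImplicit false
noncomputable section
namespace Crest.Agent.R254
open Finset

namespace EnAux

theorem sq_le {d : ℕ} (w V : Eu d) (σ : ℝ) (h : ‖w‖ ≤ σ) :
    ‖w - V‖ ^ 2 ≤ σ ^ 2 + ‖V‖ ^ 2 - 2 * inner ℝ w V := by
  rw [@norm_sub_sq_real]
  have : ‖w‖ ^ 2 ≤ σ ^ 2 := pow_le_pow_left₀ (norm_nonneg _) h 2
  linarith

theorem sum_le {d : ℕ} (R : ℕ → Eu d) (V : Eu d) (σ : ℝ) (n : ℕ)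
    (h : ∀ i, i < n → ‖R (i + 1) - R i‖ ≤ σ) :
    ∑ i ∈ range n, ‖R (i + 1) - R i - V‖ ^ 2 ≤
      n * (σ ^ 2 + ‖V‖ ^ 2) - 2 * inner ℝ (R n - R 0) V := by
  induction n with
  | zero => simp
  | succ n ih =>
    rw [sum_range_succ]
    have h1 := ih fun i hi => h i (by omega)
    have h2 := sq_le (R (n + 1) - R n) V σ (h n (by omega))
    have h3 : inner ℝ (R (n + 1) - R 0) V = inner ℝ (R n - R 0) V + inner ℝ (R (n + 1) - R n) V := by
      rw [← inner_add_left]; congr 1; abel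
    rw [h3]; push_cast; linarith

theorem tele {d : ℕ} (R : ℕ → Eu d) (V : Eu d) (n : ℕ) :
    R n - R 0 - (n : ℝ) • V = ∑ i ∈ range n, (R (i + 1) - R i - V) := by
  induction n with
  | zero => simp
  | succ n ih =>
    rw [sum_range_succ, ← ih]; push_cast; rw [add_smul, one_smul]; abel

theorem norm_le {d : ℕ} (R : ℕ → Eu d) (σ : ℝ) (n : ℕ)
    (h : ∀ i, i < n → ‖R (i + 1) - R i‖ ≤ σ) : ‖R n - R 0‖ ≤ n * σ := by
  induction n with
  | zero => simp
  | succ n ih =>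
    have h1 := ih fun i hi => h i (by omega)
    have h2 := h n (by omega)
    have h3 : R (n + 1) - R 0 = (R n - R 0) + (R (n + 1) - R n) := by abel
    rw [h3]
    refine (norm_add_le _ _).trans ?_
    push_cast; linarith

end EnAux

open EnAux in
theorem en : EnStmt := by
  intro d N σ Λ γ Δ P Q V a n hN hσ hσΛ hγ hΔ hγΛ hV hσV hP han hQ hQa hQn
  have hN' : (1 : ℝ) ≤ N := by exact_mod_cast hN
  have hv0 : 0 ≤ ‖V‖ := norm_nonneg _
  have hvσ : ‖V‖ ≤ σ := by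
    have h1 := norm_le P σ N hP
    rw [← hV, norm_smul, Real.norm_natCast] at h1
    exact le_of_mul_le_mul_left h1 (by linarith)
  have hΛ : 0 ≤ Λ := hσ.trans hσΛ
  have hgap : σ ^ 2 - ‖V‖ ^ 2 ≤ 2 * γ * Λ ^ 2 := by
    have h1 : σ - ‖V‖ ≤ γ * Λ := by nlinarith
    have h2 : σ + ‖V‖ ≤ 2 * Λ := by linarith
    have h3 : (σ - ‖V‖) * (σ + ‖V‖) ≤ (γ * Λ) * (2 * Λ) :=
      mul_le_mul h1 h2 (by linarith) (by positivity)
    nlinarith
  have hg0 : 0 ≤ 2 * γ * Λ ^ 2 := by positivity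
  -- base line energy
  have hbase : ∑ i ∈ range N, ‖P (i + 1) - P i - V‖ ^ 2 ≤ N * (2 * γ * Λ ^ 2) := by
    have h1 := sum_le P V σ N hP
    rw [← hV, real_inner_smul_left, real_inner_self_eq_norm_sq] at h1
    nlinarith
  have hdev : ∀ i, i ≤ N → ‖P i - P 0 - (i : ℝ) • V‖ ≤ 1 := by
    intro i hi
    rw [tele]
    refine (norm_sum_le _ _).trans ?_
    have h1 : (∑ j ∈ range i, ‖P (j + 1) - P j - V‖) ^ 2 ≤
        (range i).card * ∑ j ∈ range i, ‖P (j + 1) - P j - V‖ ^ 2 := sq_sum_le_card_mul_sum_sq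
    have h2 : ∑ j ∈ range i, ‖P (j + 1) - P j - V‖ ^ 2 ≤ ∑ j ∈ range N, ‖P (j + 1) - P j - V‖ ^ 2 :=
      sum_le_sum_of_subset_of_nonneg (range_subset_range.2 hi) fun _ _ _ => by positivity
    have h3 : ((range i).card : ℝ) ≤ N := by rw [card_range]; exact_mod_cast hi
    have h4 : ((range i).card : ℝ) * ∑ j ∈ range i, ‖P (j + 1) - P j - V‖ ^ 2 ≤
        N * (N * (2 * γ * Λ ^ 2)) :=
      mul_le_mul h3 (h2.trans hbase) (sum_nonneg fun _ _ => by positivity) (by linarith)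
    have h5 : (∑ j ∈ range i, ‖P (j + 1) - P j - V‖) ^ 2 ≤ 1 := by nlinarith
    exact (sq_le_one_iff₀ (sum_nonneg fun _ _ => norm_nonneg _)).1 h5
  have hsum := sum_le (fun i => Q (a + i)) V σ n (fun i hi => hQ i hi)
  simp only [add_zero] at hsum
  set e : Eu d := Q (a + n) - Q a - (n : ℝ) • V with he
  have hen : ‖e‖ ≤ 2 * Δ + 2 := by
    have h1 := hdev (a + n) han
    have h2 := hdev a (by omega)
    have h3 : e = (Q (a + n) - P (a + n)) - (Q a - P a) +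
        ((P (a + n) - P 0 - ((a + n : ℕ) : ℝ) • V) - (P a - P 0 - (a : ℝ) • V)) := by
      rw [he]; push_cast; rw [add_smul]; abel
    rw [h3]
    refine (norm_add_le _ _).trans ?_
    have h4 := norm_sub_le (Q (a + n) - P (a + n)) (Q a - P a)
    have h5 := norm_sub_le (P (a + n) - P 0 - ((a + n : ℕ) : ℝ) • V) (P a - P 0 - (a : ℝ) • V)
    linarith
  have hin : inner ℝ (Q (a + n) - Q a) V = n * ‖V‖ ^ 2 + inner ℝ e V := by
    have : Q (a + n) - Q a = (n : ℝ) • V + e := by rw [he]; abel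
    rw [this, inner_add_left, real_inner_smul_left, real_inner_self_eq_norm_sq]
  have hie : -((2 * Δ + 2) * Λ) ≤ inner ℝ e V := by
    have h1 := abs_real_inner_le_norm e V
    have h2 : ‖e‖ * ‖V‖ ≤ (2 * Δ + 2) * Λ :=
      mul_le_mul hen (hvσ.trans hσΛ) hv0 (by linarith)
    have h3 := neg_abs_le (inner ℝ e V)
    linarith
  have hn : (n : ℝ) ≤ N := by exact_mod_cast (by omega : n ≤ N)
  have hn0 : (0 : ℝ) ≤ n := Nat.cast_nonneg _
  have h6 : (n : ℝ) * (σ ^ 2 - ‖V‖ ^ 2) ≤ N * (2 * γ * Λ ^ 2) :=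
    (mul_le_mul_of_nonneg_left hgap hn0).trans (mul_le_mul_of_nonneg_right hn hg0)
  have h7 : (N : ℝ) * (2 * γ * Λ ^ 2) ≤ 1 := by nlinarith
  have h8 : ∀ i, Q (a + (i + 1)) = Q (a + i + 1) := fun i => rfl
  simp only [h8] at hsum
  rw [hin] at hsum
  nlinarith

end Crest.Agent.R254
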