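import Crest.Agent.R254.GDefs

/-! Row 254: assembly of the game from the task statements of `GDefs`. -/

set_option autoImplicit false
noncomputable section
namespace Crest.Agent.R254.G

open Crest.Agent.R254.S
open scoped Classical

theorem game_of (Λ : ℕ) (Y : Type*) [NormedAddCommGroup Y] [NormedSpace ℝ Y]
    (hFr : FrProp Y) (hR : RoundProp) (hHI : HIProp Y Λ) (hC : CandProp Y) (hI : InvProp Y)
    (hS : SepProp Y) (hCn : CntProp Y) (hSt : StepProp Y) (hStop : StopProp Y) :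
    GameProp Λ Y := by
  intro hY d L hL
  obtain ⟨M, hM⟩ : ∃ M : ℕ, L ≤ M := ⟨⌈L⌉₊, Nat.le_ceil L⟩
  obtain ⟨N, l0, hN, hl0, hRP⟩ := hR d (50 * (M : ℝ) ^ 2 + 1) (by positivity)
  obtain ⟨R, hRdef⟩ : ∃ R : ℕ, R = 100 * M ^ 2 * l0 ^ 2 := ⟨_, rfl⟩
  obtain ⟨F⟩ := hFr hY (R * N + N + 1)
  obtain ⟨HI, hok⟩ := hHI
  have hl0pos : 0 < l0 := by omega
  have hl0R : (20 : ℝ) ≤ l0 := by exact_mod_cast (by omega : 20 ≤ l0)
  have hl0R' : (0 : ℝ) < l0 := by linarith
  have hRR : (R : ℝ) / (2 * (l0 : ℝ) ^ 2) = 50 * (M : ℝ) ^ 2 := by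
    rw [hRdef]; push_cast; field_simp; ring
  have main : ∀ ρ r : ℕ, r + ρ = R → ∀ (P : Finset Y) (a b : Y), Inv F N l0 r P a b →
      HI P a b (len F a b / l0) →
      Win (d := d) L (Good Λ) P (Str F a b (1 / 8 + r / (2 * (l0 : ℝ) ^ 2))) := by
    intro ρ
    induction ρ with
    | zero =>
      intro r hr P a b hinv hhi
      have hrR : r = R := by omega
      subst hrR
      refine Win.stop _ _ ⟨hinv.h0, hinv.nP, ?_⟩ ?_
      · exact hok.pk P a b _ hhi (div_pos hinv.hl hl0R')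
      · refine hStop _ d F N l0 M P a b L _ hl0pos hL hM ?_ (hRdef ▸ hinv) ?_
        · rw [← hRdef]; omega
        · rw [hRR]; linarith
    | succ ρ ih =>
      intro r hr P a b hinv hhi
      have hrR : r ≤ R := by omega
      have hrn : r * N + N < R * N + N + 1 := by
        have := Nat.mul_le_mul_right N hrR
        omega
      have hs1 : (0 : ℝ) ≤ r / (2 * (l0 : ℝ) ^ 2) := by positivity
      have hs2 : (r : ℝ) / (2 * (l0 : ℝ) ^ 2) ≤ 50 * (M : ℝ) ^ 2 := by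
        rw [← hRR]
        exact div_le_div_of_nonneg_right (by exact_mod_cast hrR) (by positivity)
      refine hSt _ d F N l0 r P a b L _ _ _ hN hl0 hrn hRP hinv (by linarith) (by linarith) ?_
      intro j k hj hjk hk c hc
      have hpar : Par (R * N + N + 1) N l0 r j k := ⟨hN, hl0, hrn, hj, hjk, hk⟩
      obtain ⟨-, -, c3, c4, c5, c6⟩ := hC _ F N l0 r j k P a b hpar hinv c hc
      obtain ⟨s1, s2, -⟩ := hS _ F N l0 r j k P a b hpar hinv
      have hinv' := hI _ F N l0 r j k P a b hpar hinv c hc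
      have hhi' : HI (P ∪ Rd F N l0 r a b j k) c.1 c.2 (len F c.1 c.2 / l0) := by
        refine hok.step P _ a b c.1 c.2 _ _ hhi (div_pos hinv.hl hl0R') s1 s2
          (hCn _ F N l0 r j k P a b hpar hinv) c5 c6 (div_pos hinv'.hl hl0R') ?_
        rw [← mul_div_assoc]
        exact div_le_div_of_nonneg_right c4 hl0R'.le
      have := ih (r + 1) (by omega) _ _ _ hinv' hhi'
      have e : (1 / 8 + ((r + 1 : ℕ) : ℝ) / (2 * (l0 : ℝ) ^ 2)) =
          1 / 8 + r / (2 * (l0 : ℝ) ^ 2) + 1 / (2 * (l0 : ℝ) ^ 2) := by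
        push_cast; ring
      rwa [e] at this
  have hlen : len F 0 ((1 / 2 : ℝ) • F.e) = 1 / 2 := by
    simp [len, F.χe]
  have hne : ‖(1 / 2 : ℝ) • F.e‖ ≤ 1 / 2 := by
    rw [norm_smul, Real.norm_eq_abs, abs_of_pos (by norm_num : (0 : ℝ) < 1 / 2)]
    have := F.ne
    linarith
  have hu : (1 / 2 : ℝ) / l0 ≤ 1 / 40 := by
    rw [div_le_iff₀ hl0R']; linarith
  have hinv0 : Inv F N l0 0 {0, (1 / 2 : ℝ) • F.e} 0 ((1 / 2 : ℝ) • F.e) := by
    refine ⟨by simp, by simp, by simp, by rw [hlen]; norm_num, ⟨fun _ => 0, ?_, by simp⟩,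
      ?_, ?_, ?_, ?_⟩
    · rw [hlen]; simp
    · intro y hy j _ hj
      rcases Finset.mem_insert.1 hy with rfl | hy
      · simp
      · rw [Finset.mem_singleton.1 hy, map_smul, F.ψe j hj, smul_zero]
    · intro y hy
      rcases Finset.mem_insert.1 hy with rfl | hy
      · simp
      · rw [Finset.mem_singleton.1 hy]; linarith
    · rw [hlen, norm_zero]; linarith
    · rw [hlen]; linarith
  have hW0 := main R 0 (by omega) _ _ _ hinv0
    (hok.init _ _ _ (div_pos hinv0.hl hl0R'))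
  refine Win.step _ _ 0 (fun _ => {0, (1 / 2 : ℝ) • F.e})
    (fun _ => Str F 0 ((1 / 2 : ℝ) • F.e) (1 / 8 + (0 : ℕ) / (2 * (l0 : ℝ) ^ 2))) 1 one_pos
    (fun _ => by simp) (fun _ => hW0) ?_
  intro G _ _
  refine ⟨0, fun G' _ hBL => ?_⟩
  have h1 := (hBL 0 (by simp) ((1 / 2 : ℝ) • F.e) (by simp)).1
  have h2 := F.nχ ((1 / 2 : ℝ) • F.e)
  rw [map_smul, F.χe, smul_eq_mul, mul_one, abs_of_pos (by norm_num : (0 : ℝ) < 1 / 2)] at h2
  rw [zero_sub, norm_neg] at h1
  unfold Str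
  rw [hlen, dist_eq_norm]
  simp only [Nat.cast_zero, zero_div, add_zero]
  linarith

end Crest.Agent.R254.G
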