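import Crest.Agent.R254.GDefs

/-! Row 254: candidate segments. -/

set_option autoImplicit false
noncomputable section
namespace Crest.Agent.R254.G

open Crest.Agent.R254.S
open scoped Classical

namespace Cand

variable {Y : Type*} [NormedAddCommGroup Y] [NormedSpace ℝ Y] {n : ℕ}

theorem chi_pt (F : Fr Y n) (N l0 r : ℕ) (a b : Y) (x : ℝ) (i : ℕ) (hl : (0 : ℝ) < l0)
    (hi : r * N + i < n) :
    F.χ (pt F N l0 r a b x i) = F.χ a + ((l0 : ℝ) / 2 + x) * (len F a b / l0) := by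
  simp only [pt, map_add, map_smul, F.χv _ hi, smul_eq_mul, mul_zero, add_zero, len]
  field_simp

theorem chi_b (F : Fr Y n) (l0 : ℕ) (a b : Y) (hl : (0 : ℝ) < l0) :
    F.χ b = F.χ a + l0 * (len F a b / l0) := by
  simp only [len, map_sub]
  field_simp
  ring

theorem tube_pt (F : Fr Y n) (N l0 r : ℕ) (a b : Y) (x : ℝ) (i : ℕ) (hl : (0 : ℝ) < l0)
    (hi : r * N + i < n) (hlen : 0 < len F a b) (h1 : -(l0 : ℝ) / 2 ≤ x) (h2 : x ≤ (l0 : ℝ) / 2) :
    pt F N l0 r a b x i ∈ Tube a b (len F a b / l0) := by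
  refine ⟨a + (1 / 2 + x / l0) • (b - a), ?_, ?_⟩
  · rw [segment_eq_image']
    refine ⟨1 / 2 + x / l0, ⟨?_, ?_⟩, rfl⟩
    · have : -(1 / 2 : ℝ) ≤ x / l0 := by rw [le_div_iff₀ hl]; linarith
      linarith
    · have : x / l0 ≤ 1 / 2 := by rw [div_le_iff₀ hl]; linarith
      linarith
  · have hu : 0 ≤ len F a b / l0 := (div_pos hlen hl).le
    rw [dist_eq_norm, pt, add_sub_cancel_left, norm_smul, Real.norm_of_nonneg hu]
    exact mul_le_of_le_one_right hu (F.nv1 _ hi)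

end Cand

open Cand in
theorem candp (Y : Type*) [NormedAddCommGroup Y] [NormedSpace ℝ Y] : CandProp Y := by
  intro n F N l0 r j k P a b hP hI c hc
  have hN := hP.hN
  have hl0 := hP.hl0
  have hn := hP.hn
  have hj := hP.hj
  have hjk := hP.hjk
  have hk := hP.hk
  have hNr : (2 : ℝ) ≤ N := by exact_mod_cast hN
  have hlr : (10 : ℝ) * N ≤ l0 := by exact_mod_cast hl0
  have hl : (0 : ℝ) < l0 := by linarith
  have hlen := hI.hl
  have hu : 0 < len F a b / l0 := div_pos hlen hl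
  have hlu : len F a b = l0 * (len F a b / l0) := by field_simp
  have ta : a ∈ Tube a b (len F a b / l0) := ⟨a, left_mem_segment ℝ a b, by simpa using hu.le⟩
  have tb : b ∈ Tube a b (len F a b / l0) := ⟨b, right_mem_segment ℝ a b, by simpa using hu.le⟩
  have ma : a ∈ P ∪ Rd F N l0 r a b j k := Finset.mem_union_left _ hI.ha
  have mb : b ∈ P ∪ Rd F N l0 r a b j k := Finset.mem_union_left _ hI.hb
  have mA : ∀ i, 1 ≤ i → i ≤ N → pt F N l0 r a b (-(i : ℝ)) i ∈ P ∪ Rd F N l0 r a b j k :=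
    fun i h1 h2 => Finset.mem_union_right _ (Finset.mem_union_left _ (Finset.mem_union_left _
      (Finset.mem_image.2 ⟨i, Finset.mem_Icc.2 ⟨h1, h2⟩, rfl⟩)))
  have mB : ∀ i, 1 ≤ i → i ≤ N → pt F N l0 r a b (i : ℝ) i ∈ P ∪ Rd F N l0 r a b j k :=
    fun i h1 h2 => Finset.mem_union_right _ (Finset.mem_union_left _ (Finset.mem_union_right _
      (Finset.mem_image.2 ⟨i, Finset.mem_Icc.2 ⟨h1, h2⟩, rfl⟩)))
  have hb := chi_b F l0 a b hl
  have key : ∀ i : ℕ, 1 ≤ i → i ≤ N → (1 : ℝ) ≤ i ∧ (i : ℝ) ≤ N ∧ r * N + i < n := fun i h1 h2 =>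
    ⟨by exact_mod_cast h1, by exact_mod_cast h2, by omega⟩
  have L : ∀ p q : Y, len F p q = F.χ q - F.χ p := fun p q => by simp only [len, map_sub]
  generalize hU : len F a b / l0 = u at *
  rcases Finset.mem_union.1 hc with hc | hc
  · obtain ⟨i, hi, hc⟩ := Finset.mem_biUnion.1 hc
    obtain ⟨h1, h2⟩ := Finset.mem_Icc.1 hi
    obtain ⟨i1, i2, i3⟩ := key i h1 h2
    have e1 := chi_pt F N l0 r a b (-(i : ℝ)) i hl i3
    have e2 := chi_pt F N l0 r a b (i : ℝ) i hl i3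
    have t1 := tube_pt F N l0 r a b (-(i : ℝ)) i hl i3 hI.hl (by linarith) (by linarith)
    have t2 := tube_pt F N l0 r a b (i : ℝ) i hl i3 hI.hl (by linarith) (by linarith)
    rw [hU] at e1 e2 t1 t2
    simp only [Finset.mem_insert, Finset.mem_singleton] at hc
    rcases hc with rfl | rfl | rfl | rfl
    · refine ⟨ma, mA i h1 h2, ?_, ?_, ta, t1⟩
      · rw [L, e1]; nlinarith
      · rw [L, e1, hlu]; nlinarith
    · refine ⟨mA i h1 h2, mb, ?_, ?_, t1, tb⟩
      · rw [L, e1, hb]; nlinarith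
      · rw [L, e1, hb, hlu]; nlinarith
    · refine ⟨ma, mB i h1 h2, ?_, ?_, ta, t2⟩
      · rw [L, e2]; nlinarith
      · rw [L, e2, hlu]; nlinarith
    · refine ⟨mB i h1 h2, mb, ?_, ?_, t2, tb⟩
      · rw [L, e2, hb]; nlinarith
      · rw [L, e2, hb, hlu]; nlinarith
  · obtain ⟨i, hi, hc⟩ := Finset.mem_biUnion.1 hc
    have hi' : i = j ∨ i = k := by simpa using hi
    have h1 : 1 ≤ i := by omega
    have h2 : i ≤ N := by omega
    obtain ⟨i1, i2, i3⟩ := key i h1 h2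
    have mM : pt F N l0 r a b 0 i ∈ P ∪ Rd F N l0 r a b j k := by
      refine Finset.mem_union_right _ (Finset.mem_union_right _ ?_)
      rcases hi' with rfl | rfl <;> simp
    have e0 := chi_pt F N l0 r a b 0 i hl i3
    have e1 := chi_pt F N l0 r a b (-(i : ℝ)) i hl i3
    have e2 := chi_pt F N l0 r a b (i : ℝ) i hl i3
    have t0 := tube_pt F N l0 r a b 0 i hl i3 hI.hl (by linarith) (by linarith)
    have t1 := tube_pt F N l0 r a b (-(i : ℝ)) i hl i3 hI.hl (by linarith) (by linarith)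
    have t2 := tube_pt F N l0 r a b (i : ℝ) i hl i3 hI.hl (by linarith) (by linarith)
    rw [hU] at e0 e1 e2 t0 t1 t2
    simp only [Finset.mem_insert, Finset.mem_singleton] at hc
    rcases hc with rfl | rfl
    · refine ⟨mA i h1 h2, mM, ?_, ?_, t1, t0⟩
      · rw [L, e1, e0]; nlinarith
      · rw [L, e1, e0, hlu]; nlinarith
    · refine ⟨mM, mB i h1 h2, ?_, ?_, t0, t2⟩
      · rw [L, e2, e0]; nlinarith
      · rw [L, e2, e0, hlu]; nlinarith

end Crest.Agent.R254.G
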