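import Crest.Agent.R254.GDefs

/-! Row 254: counting hypothesis for one round. -/

set_option autoImplicit false
noncomputable section
namespace Crest.Agent.R254.G

open scoped Classical

theorem cnt_chi {Y : Type*} [NormedAddCommGroup Y] [NormedSpace ℝ Y] {n : ℕ} (F : Fr Y n)
    (N l0 r : ℕ) (a b : Y) (x : ℝ) (i : ℕ) (hl : 0 < l0) (hi : r * N + i < n) :
    F.χ (pt F N l0 r a b x i) = F.χ a + len F a b / 2 + x * (len F a b / l0) := by
  have : (l0 : ℝ) ≠ 0 := by positivity
  simp only [pt, map_add, map_smul, smul_eq_mul, F.χv _ hi]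
  unfold len
  field_simp
  ring

theorem cntp (Y : Type*) [NormedAddCommGroup Y] [NormedSpace ℝ Y] : CntProp Y := by
  intro n F N l0 r j k P a b hp hI D S hS hD
  have hl : 0 < l0 := by have := hp.hN; have := hp.hl0; omega
  have hu : 0 < len F a b / l0 := div_pos hI.hl (by exact_mod_cast hl)
  set g : ℤ → Y := fun z => pt F N l0 r a b (z : ℝ) z.natAbs with hg
  set T : Finset ℤ := (Finset.Icc (-(N : ℤ)) N).filter (fun z => g z ∈ S) with hT
  have h1 : S ⊆ T.image g ∪ {pt F N l0 r a b 0 j, pt F N l0 r a b 0 k} := by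
    intro x hx
    rcases Finset.mem_union.1 (hS hx) with h | h
    · refine Finset.mem_union_left _ ?_
      rcases Finset.mem_union.1 h with h | h
      · obtain ⟨i, hi, e⟩ := Finset.mem_image.1 h
        have hi' := Finset.mem_Icc.1 hi
        have e' : g (-(i : ℤ)) = x := by rw [← e]; simp [hg]
        exact Finset.mem_image.2 ⟨-(i : ℤ), Finset.mem_filter.2
          ⟨Finset.mem_Icc.2 ⟨by omega, by omega⟩, e' ▸ hx⟩, e'⟩
      · obtain ⟨i, hi, e⟩ := Finset.mem_image.1 h
        have hi' := Finset.mem_Icc.1 hi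
        have e' : g (i : ℤ) = x := by rw [← e]; simp [hg]
        exact Finset.mem_image.2 ⟨(i : ℤ), Finset.mem_filter.2
          ⟨Finset.mem_Icc.2 ⟨by omega, by omega⟩, e' ▸ hx⟩, e'⟩
    · exact Finset.mem_union_right _ h
  have h2 : ∀ z ∈ T, ∀ w ∈ T, z ≤ w + 4 * D := by
    intro z hz w hw
    obtain ⟨z1, z2⟩ := Finset.mem_filter.1 hz
    obtain ⟨w1, w2⟩ := Finset.mem_filter.1 hw
    have z3 := Finset.mem_Icc.1 z1
    have w3 := Finset.mem_Icc.1 w1
    have hn := hp.hn
    have e1 := cnt_chi F N l0 r a b (z : ℝ) z.natAbs hl (by omega)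
    have e2 := cnt_chi F N l0 r a b (w : ℝ) w.natAbs hl (by omega)
    have e3 := hD _ z2 _ w2
    have e4 := F.nχ (g z - g w)
    rw [map_sub] at e4
    rw [dist_eq_norm] at e3
    have e5 := (abs_le.1 e4).2
    simp only [hg] at e5 e3
    rw [e1, e2] at e5
    have e6 : ((z : ℝ) - w) * (len F a b / l0) ≤ (4 * D) * (len F a b / l0) := by linarith
    have e7 := le_of_mul_le_mul_right e6 hu
    have e8 : (z : ℝ) ≤ w + 4 * D := by linarith
    exact_mod_cast e8
  have h3 : T.card ≤ 4 * D + 1 := by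
    rcases T.eq_empty_or_nonempty with he | hne
    · rw [he]; simp
    · have : T ⊆ Finset.Icc (T.min' hne) (T.min' hne + 4 * D) := fun z hz =>
        Finset.mem_Icc.2 ⟨T.min'_le z hz, h2 z hz _ (T.min'_mem hne)⟩
      refine (Finset.card_le_card this).trans ?_
      rw [Int.card_Icc]
      omega
  have h4 := (Finset.card_le_card h1).trans (Finset.card_union_le _ _)
  have h5 : (T.image g).card ≤ T.card := Finset.card_image_le
  have h6 : ({pt F N l0 r a b 0 j, pt F N l0 r a b 0 k} : Finset Y).card ≤ 2 := Finset.card_le_two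
  omega

end Crest.Agent.R254.G
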