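import Crest.Agent.R254.SDefs

/-! Row 254: the adversary strategy for `S.GameProp`.  Definitions and task statements.

A segment `(a,b)` has horizontal length `len = χ (b-a)`, unit `u = len / l0`.  Round `r` uses the
fresh directions `v (r*N+k)`, `1 ≤ k ≤ N`; `pt x k = a + (1/2 + x/l0)(b-a) + u v_(rN+k)`;
`a_k = pt (-k) k`, `b_k = pt k k`, `m_k = pt 0 k`.  `η = 1/l0^2`. -/

set_option autoImplicit false
noncomputable section
namespace Crest.Agent.R254.G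

open Crest.Agent.R254.S
open scoped Classical

/-- triangular frame with functionals -/
structure Fr (Y : Type*) [NormedAddCommGroup Y] [NormedSpace ℝ Y] (n : ℕ) where
  e : Y
  v : ℕ → Y
  χ : Y →L[ℝ] ℝ
  ψ : ℕ → Y →L[ℝ] ℝ
  ne : ‖e‖ ≤ 1
  nv : ∀ (m : ℕ) (θ : ℕ → ℝ), m ≤ n →
    ‖∑ i ∈ Finset.range m, θ i • v i‖ ^ 2 ≤ ∑ i ∈ Finset.range m, θ i ^ 2
  nv1 : ∀ i, i < n → ‖v i‖ ≤ 1
  nχ : ∀ y, |χ y| ≤ 4 * ‖y‖
  nψ : ∀ i y, |ψ i y| ≤ 20 * ‖y‖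
  χe : χ e = 1
  χv : ∀ i, i < n → χ (v i) = 0
  ψe : ∀ i, i < n → ψ i e = 0
  ψv : ∀ i, i < n → ψ i (v i) = 1
  ψv' : ∀ i j, j < i → i < n → ψ i (v j) = 0

variable {Y : Type*} [NormedAddCommGroup Y] [NormedSpace ℝ Y] {n d : ℕ}

/-- horizontal length -/
def len (F : Fr Y n) (a b : Y) : ℝ := F.χ (b - a)

/-- inserted point of round `r` with longitudinal offset `x` and fresh index `k` -/
def pt (F : Fr Y n) (N l0 r : ℕ) (a b : Y) (x : ℝ) (k : ℕ) : Y :=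
  a + (1 / 2 + x / l0) • (b - a) + (len F a b / l0) • F.v (r * N + k)

/-- first move of a round : all `a_k`, `b_k` -/
def AB (F : Fr Y n) (N l0 r : ℕ) (a b : Y) : Finset Y :=
  (Finset.Icc 1 N).image (fun k : ℕ => pt F N l0 r a b (-(k : ℝ)) k) ∪
    (Finset.Icc 1 N).image (fun k : ℕ => pt F N l0 r a b (k : ℝ) k)

/-- all points of a round with chosen pair `(j,k)` -/
def Rd (F : Fr Y n) (N l0 r : ℕ) (a b : Y) (j k : ℕ) : Finset Y :=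
  AB F N l0 r a b ∪ {pt F N l0 r a b 0 j, pt F N l0 r a b 0 k}

/-- candidate segments of the next round -/
def cand (F : Fr Y n) (N l0 r : ℕ) (a b : Y) (j k : ℕ) : Finset (Y × Y) :=
  (Finset.Icc 1 N).biUnion (fun i : ℕ =>
    {(a, pt F N l0 r a b (-(i : ℝ)) i), (pt F N l0 r a b (-(i : ℝ)) i, b),
      (a, pt F N l0 r a b (i : ℝ) i), (pt F N l0 r a b (i : ℝ) i, b)}) ∪
  ({j, k} : Finset ℕ).biUnion (fun i : ℕ =>
    {(pt F N l0 r a b (-(i : ℝ)) i, pt F N l0 r a b 0 i),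
      (pt F N l0 r a b 0 i, pt F N l0 r a b (i : ℝ) i)})

/-- invariant at the start of round `r` (`P` = all points so far, `(a,b)` current segment) -/
structure Inv (F : Fr Y n) (N l0 r : ℕ) (P : Finset Y) (a b : Y) : Prop where
  ha : a ∈ P
  hb : b ∈ P
  h0 : (0 : Y) ∈ P
  hl : 0 < len F a b
  tilt : ∃ θ : ℕ → ℝ, b - a = len F a b • (F.e + ∑ i ∈ Finset.range (r * N + 1), θ i • F.v i) ∧
    ∑ i ∈ Finset.range (r * N + 1), θ i ^ 2 ≤ 7 * r / (l0 : ℝ) ^ 2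
  fresh : ∀ y ∈ P, ∀ j, r * N < j → j < n → F.ψ j y = 0
  nP : ∀ y ∈ P, ‖y‖ ≤ 1
  na : ‖a‖ + 3 * (len F a b / l0) ≤ 1
  nb : ‖b‖ + 3 * (len F a b / l0) ≤ 1

/-- standing assumptions on the parameters of round `r` with pair `(j,k)` -/
structure Par (n N l0 r j k : ℕ) : Prop where
  hN : 2 ≤ N
  hl0 : 10 * N ≤ l0
  hn : r * N + N < n
  hj : 1 ≤ j
  hjk : j < k
  hk : k ≤ N

def Tube (p q : Y) (δ : ℝ) : Set Y := {z | ∃ y ∈ segment ℝ p q, dist z y ≤ δ}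

/-- abstract history-packing invariant (helper5's `HPack`) -/
structure HIok (Λ : ℕ) (HI : Finset Y → Y → Y → ℝ → Prop) : Prop where
  init : ∀ (p q : Y) (u : ℝ), 0 < u → HI {p, q} p q u
  step : ∀ (P A : Finset Y) (p q p2 q2 : Y) (u u2 : ℝ), HI P p q u → 0 < u →
    (∀ a ∈ A, a ∈ Tube p q u) → (∀ a ∈ A, ∀ z ∈ P ∪ A, z ≠ a → u / 20 ≤ dist a z) →
    (∀ (D : ℕ) (S : Finset Y), S ⊆ A → (∀ x ∈ S, ∀ y ∈ S, dist x y ≤ D * u) →
      S.card ≤ 4 * D + 3) →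
    p2 ∈ Tube p q u → q2 ∈ Tube p q u → 0 < u2 → u2 ≤ 3 / 5 * u → HI (P ∪ A) p2 q2 u2
  pk : ∀ (P : Finset Y) (p q : Y) (u : ℝ), HI P p q u → 0 < u → Pk (↑P : Set Y) 24 Λ

/-- stretch condition -/
def Str (F : Fr Y n) (a b : Y) (s : ℝ) (G : Y → Eu d) : Prop := s * len F a b ≤ dist (G a) (G b)

/-- conclusion of helper19's `round` for given `N l0` -/
def RoundP (d : ℕ) (S : ℝ) (N l0 : ℕ) : Prop :=
  ∀ (u s : ℝ) (A B : Eu d) (P Q : ℕ → Eu d), 0 < u → 0 ≤ s → s ≤ S → s * (l0 * u) ≤ dist A B →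
    (∀ k : ℕ, 1 ≤ k → k ≤ N →
      dist A (P k) ≤ (s + 1 / (l0 : ℝ) ^ 2) * (((l0 : ℝ) / 2 - k) * u) ∧
      dist (P k) B ≤ (s + 1 / (l0 : ℝ) ^ 2) * (((l0 : ℝ) / 2 + k) * u) ∧
      dist A (Q k) ≤ (s + 1 / (l0 : ℝ) ^ 2) * (((l0 : ℝ) / 2 + k) * u) ∧
      dist (Q k) B ≤ (s + 1 / (l0 : ℝ) ^ 2) * (((l0 : ℝ) / 2 - k) * u)) →
    ∃ j k : ℕ, 1 ≤ j ∧ j < k ∧ k ≤ N ∧ ∀ Pj Qj Pk Qk Mj Mk : Eu d,
      dist Pj (P j) ≤ u / l0 → dist Qj (Q j) ≤ u / l0 → dist Pk (P k) ≤ u / l0 →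
      dist Qk (Q k) ≤ u / l0 →
      dist Pj Mj ≤ (s + 1 / (l0 : ℝ) ^ 2) * (j * u) → dist Mj Qj ≤ (s + 1 / (l0 : ℝ) ^ 2) * (j * u) →
      dist Pk Mk ≤ (s + 1 / (l0 : ℝ) ^ 2) * (k * u) → dist Mk Qk ≤ (s + 1 / (l0 : ℝ) ^ 2) * (k * u) →
      dist Mj Mk ≤ u / 40

section tasks
variable (Y : Type*) [NormedAddCommGroup Y] [NormedSpace ℝ Y]

/-- **GFR** (from `Frame.fresh`/`Frame.tri` with `k = n+1`, `e` = TOP index `n`, `v i = u (e i)`,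
`χ = φ n / φ n (u (e n))`, `ψ i = φ' i - φ' i e • χ` with `φ' i = φ i / φ i (u (e i))`). -/
def FrProp : Prop := ¬ FiniteDimensional ℝ Y → ∀ n, Nonempty (Fr Y n)

/-- **GROUND** (helper19's `round` with `v = 0`). -/
def RoundProp : Prop := ∀ (d : ℕ) (S : ℝ), 0 ≤ S → ∃ N l0 : ℕ, 2 ≤ N ∧ 10 * N ≤ l0 ∧ RoundP d S N l0

/-- **GHI** (helper5's `HPack`; `Λ` must not depend on `Y`). -/
def HIProp (Λ : ℕ) : Prop := ∃ HI : Finset Y → Y → Y → ℝ → Prop, HIok Λ HI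

/-- **GLEN** exact horizontal lengths (`χ (v i) = 0`). -/
def LenProp : Prop := ∀ (n : ℕ) (F : Fr Y n) (N l0 r : ℕ) (a b : Y) (x y : ℝ) (i : ℕ),
  0 < l0 → r * N + i < n →
  len F a (pt F N l0 r a b x i) = ((l0 : ℝ) / 2 + x) * (len F a b / l0) ∧
  len F (pt F N l0 r a b x i) b = ((l0 : ℝ) / 2 - x) * (len F a b / l0) ∧
  len F (pt F N l0 r a b x i) (pt F N l0 r a b y i) = (y - x) * (len F a b / l0)

/-- **GCAND** candidates : endpoints are alive, lengths between `u` and `3/5 len`, in the tube. -/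
def CandProp : Prop := ∀ (n : ℕ) (F : Fr Y n) (N l0 r j k : ℕ) (P : Finset Y) (a b : Y),
  Par n N l0 r j k → Inv F N l0 r P a b → ∀ c ∈ cand F N l0 r a b j k,
    c.1 ∈ P ∪ Rd F N l0 r a b j k ∧ c.2 ∈ P ∪ Rd F N l0 r a b j k ∧
    len F a b / l0 ≤ len F c.1 c.2 ∧ len F c.1 c.2 ≤ 3 / 5 * len F a b ∧
    c.1 ∈ Tube a b (len F a b / l0) ∧ c.2 ∈ Tube a b (len F a b / l0)

/-- **GINV** the invariant is preserved (new tilt coefficient `± u / len c`, `len c ≥ 2/5 len`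
for the four long types, `0` for the two midpoint types; may use `LenProp`, `CandProp`). -/
def InvProp : Prop := ∀ (n : ℕ) (F : Fr Y n) (N l0 r j k : ℕ) (P : Finset Y) (a b : Y),
  Par n N l0 r j k → Inv F N l0 r P a b → ∀ c ∈ cand F N l0 r a b j k,
    Inv F N l0 (r + 1) (P ∪ Rd F N l0 r a b j k) c.1 c.2

/-- **GSEP** tube and separation hypotheses of `HIok.step` (use `ψ` of the larger index, or `χ`). -/
def SepProp : Prop := ∀ (n : ℕ) (F : Fr Y n) (N l0 r j k : ℕ) (P : Finset Y) (a b : Y),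
  Par n N l0 r j k → Inv F N l0 r P a b →
    (∀ x ∈ Rd F N l0 r a b j k, x ∈ Tube a b (len F a b / l0)) ∧
    (∀ x ∈ Rd F N l0 r a b j k, ∀ z ∈ P ∪ Rd F N l0 r a b j k, z ≠ x →
      len F a b / l0 / 20 ≤ dist x z) ∧
    len F a b / l0 / 20 ≤ ‖pt F N l0 r a b 0 j - pt F N l0 r a b 0 k‖

/-- **GCNT** counting hypothesis of `HIok.step` (`χ (pt x i) = χ a + len/2 + x u`, `x ∈ ℤ`,
offsets differ by at most `4 D`, only offset `0` is used twice). -/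
def CntProp : Prop := ∀ (n : ℕ) (F : Fr Y n) (N l0 r j k : ℕ) (P : Finset Y) (a b : Y),
  Par n N l0 r j k → Inv F N l0 r P a b → ∀ (D : ℕ) (S : Finset Y), S ⊆ Rd F N l0 r a b j k →
    (∀ x ∈ S, ∀ y ∈ S, dist x y ≤ D * (len F a b / l0)) → S.card ≤ 4 * D + 3

/-- **GSTEP** one round = three `Win.step`s (insert `AB`, loss `η/8`; choose the pair via `RoundP`
at `s - η/8`; choose the candidate).  May use `LenProp`, `CandProp`, `SepProp`. -/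
def StepProp : Prop := ∀ (n d : ℕ) (F : Fr Y n) (N l0 r : ℕ) (P : Finset Y) (a b : Y) (L S s : ℝ)
  (Good : Finset Y → Prop), 2 ≤ N → 10 * N ≤ l0 → r * N + N < n → RoundP d S N l0 →
  Inv F N l0 r P a b → 1 / 8 ≤ s → s ≤ S →
  (∀ j k, 1 ≤ j → j < k → k ≤ N → ∀ c ∈ cand F N l0 r a b j k,
    Win (d := d) L Good (P ∪ Rd F N l0 r a b j k) (Str F c.1 c.2 (s + 1 / (2 * (l0 : ℝ) ^ 2)))) →
  Win (d := d) L Good P (Str F a b s)

/-- **GSTOP** after `R = 100 M² l0²` rounds : `‖b-a‖ ≤ (1 + 27 M) len`, so stretch `≤ 28 M²`. -/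
def StopProp : Prop := ∀ (n d : ℕ) (F : Fr Y n) (N l0 M : ℕ) (P : Finset Y) (a b : Y) (L s : ℝ),
  0 < l0 → 1 ≤ L → L ≤ M → 100 * M ^ 2 * l0 ^ 2 * N < n →
  Inv F N l0 (100 * M ^ 2 * l0 ^ 2) P a b → 50 * (M : ℝ) ^ 2 ≤ s →
  ∀ G : Y → Eu d, Str F a b s G → ¬ BL L G P

end tasks

end Crest.Agent.R254.G
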