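import Crest.Agent.R254.GDefs
import Crest.Agent.R254.Frame

/-! Row 254: existence of the triangular frame with functionals (task GFR). -/

set_option autoImplicit false
noncomputable section
namespace Crest.Agent.R254.G

theorem frp (Y : Type*) [NormedAddCommGroup Y] [NormedSpace ℝ Y] : FrProp Y := by
  intro h n
  have hrank : ((4 * (n + 1) + 1 : ℕ) : Cardinal) ≤ Module.rank ℝ Y := by
    have h1 : Cardinal.aleph0 ≤ Module.rank ℝ Y := by
      by_contra h'
      exact h (Module.rank_lt_aleph0_iff.1 (not_le.1 h'))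
    exact (Cardinal.natCast_le_aleph0).trans h1
  obtain ⟨f, hf0⟩ := Module.le_rank_iff_exists_linearMap.1 hrank
  set u0 : EuclideanSpace ℝ (Fin (4 * (n + 1) + 1)) →ₗ[ℝ] Y :=
    f ∘ₗ (WithLp.linearEquiv 2 ℝ (Fin (4 * (n + 1) + 1) → ℝ)).toLinearMap with hu0
  have hinj : Function.Injective u0 :=
    hf0.comp (WithLp.linearEquiv 2 ℝ (Fin (4 * (n + 1) + 1) → ℝ)).injective
  obtain ⟨u, hu1, hf⟩ := Frame.fresh u0 hinj
  obtain ⟨e, φ, he, hφ, hd, ht⟩ := Frame.tri u (n + 1) (by simp) hf (n + 1) le_rfl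
  set φ' : Fin (n + 1) → Y →L[ℝ] ℝ := fun i => (φ i (u (e i)))⁻¹ • φ i with hφ'
  have hφ1 : ∀ i, φ' i (u (e i)) = 1 := fun i => by
    have : φ i (u (e i)) ≠ 0 := by linarith [hd i] |> fun (h : 0 < φ i (u (e i))) => h.ne'
    simp only [hφ', ContinuousLinearMap.smul_apply, smul_eq_mul]
    exact inv_mul_cancel₀ this
  have hφ0 : ∀ i j, j < i → φ' i (u (e j)) = 0 := fun i j hji => by
    simp only [hφ', ContinuousLinearMap.smul_apply, smul_eq_mul, ht i j hji, mul_zero]
  have hφn : ∀ i y, |φ' i y| ≤ 4 * ‖y‖ := fun i y => by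
    have hp : 0 < φ i (u (e i)) := by linarith [hd i]
    have h1 : |φ i y| ≤ ‖y‖ := by
      have := (φ i).le_opNorm y
      rw [Real.norm_eq_abs] at this
      nlinarith [hφ i, norm_nonneg y]
    have h2 : (φ i (u (e i)))⁻¹ ≤ 4 := by
      rw [inv_le_comm₀ hp (by norm_num)]
      linarith [hd i]
    simp only [hφ', ContinuousLinearMap.smul_apply, smul_eq_mul, abs_mul]
    rw [abs_of_pos (inv_pos.2 hp)]
    exact mul_le_mul h2 h1 (abs_nonneg _) (by norm_num)
  have hen : ∀ i, ‖u (e i)‖ ≤ 1 := fun i => (hu1 _).trans (he.1 i).le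
  set ee : ℕ → EuclideanSpace ℝ (Fin (4 * (n + 1) + 1)) :=
    fun i => if h : i < n + 1 then e ⟨i, h⟩ else 0 with hee
  have hee1 : ∀ i (h : i < n + 1), ee i = e ⟨i, h⟩ := fun i h => by simp only [hee, dif_pos h]
  have hsum : ∀ (θ : ℕ → ℝ) (m : ℕ), m ≤ n →
      ‖∑ i ∈ Finset.range m, θ i • ee i‖ ^ 2 = ∑ i ∈ Finset.range m, θ i ^ 2 := by
    intro θ m
    induction m with
    | zero => intro _; simp
    | succ m ih =>
      intro hm
      rw [Finset.sum_range_succ, Finset.sum_range_succ, norm_add_sq_real, ih (by omega)]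
      have h1 : inner ℝ (∑ i ∈ Finset.range m, θ i • ee i) (θ m • ee m) = 0 := by
        rw [sum_inner]
        refine Finset.sum_eq_zero fun i hi => ?_
        have hi' := Finset.mem_range.1 hi
        rw [inner_smul_left, inner_smul_right, hee1 i (by omega), hee1 m (by omega),
          he.2 (by simp [Fin.ext_iff]; omega)]
        simp
      have h2 : ‖θ m • ee m‖ ^ 2 = θ m ^ 2 := by
        rw [norm_smul, hee1 m (by omega), he.1, mul_one, Real.norm_eq_abs, sq_abs]
      rw [h1, h2]; ring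
  set E0 : Y := u (e (Fin.last n)) with hE0
  set χ : Y →L[ℝ] ℝ := φ' (Fin.last n) with hχ
  have hχv : ∀ i, i < n → χ (u (ee i)) = 0 := fun i hi => by
    rw [hee1 i (by omega)]
    exact hφ0 _ _ (by simp [Fin.lt_def]; omega)
  have hχe : χ E0 = 1 := hφ1 _
  refine ⟨⟨E0, fun i => u (ee i), χ,
    fun i => if h : i < n + 1 then φ' ⟨i, h⟩ - (φ' ⟨i, h⟩ E0) • χ else 0,
    hen _, ?_, ?_, hφn _, ?_, hχe, hχv, ?_, ?_, ?_⟩⟩
  · intro m θ hm
    rw [← hsum θ m hm]
    have h1 : ∑ i ∈ Finset.range m, θ i • u (ee i) = u (∑ i ∈ Finset.range m, θ i • ee i) := by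
      simp [map_sum]
    rw [h1]
    exact pow_le_pow_left₀ (norm_nonneg _) (hu1 _) 2
  · intro i hi
    rw [hee1 i (by omega)]
    exact hen _
  · intro i y
    by_cases hi : i < n + 1
    · simp only [dif_pos hi, ContinuousLinearMap.sub_apply, ContinuousLinearMap.smul_apply,
        smul_eq_mul]
      have h1 := hφn ⟨i, hi⟩ y
      have h2 : |φ' ⟨i, hi⟩ E0| ≤ 4 := by
        have := hφn ⟨i, hi⟩ E0
        have h3 : ‖E0‖ ≤ 1 := hen _
        linarith
      have h3 : |χ y| ≤ 4 * ‖y‖ := hφn _ y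
      have h4 : |φ' ⟨i, hi⟩ E0 * χ y| ≤ 4 * (4 * ‖y‖) := by
        rw [abs_mul]
        exact mul_le_mul h2 h3 (abs_nonneg _) (by norm_num)
      have h5 := abs_sub (φ' ⟨i, hi⟩ y) (φ' ⟨i, hi⟩ E0 * χ y)
      linarith
    · simp only [dif_neg hi, ContinuousLinearMap.zero_apply, abs_zero]
      positivity
  · intro i hi
    have hi' : i < n + 1 := by omega
    simp only [dif_pos hi', ContinuousLinearMap.sub_apply, ContinuousLinearMap.smul_apply,
      smul_eq_mul, hχe]
    ring
  · intro i hi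
    have hi' : i < n + 1 := by omega
    simp only [dif_pos hi', ContinuousLinearMap.sub_apply, ContinuousLinearMap.smul_apply,
      smul_eq_mul, hχv i hi]
    rw [hee1 i hi', hφ1]
    ring
  · intro i j hji hi
    have hi' : i < n + 1 := by omega
    simp only [dif_pos hi', ContinuousLinearMap.sub_apply, ContinuousLinearMap.smul_apply,
      smul_eq_mul, hχv j (by omega)]
    rw [hee1 j (by omega), hφ0 _ _ (by simp [Fin.lt_def]; omega)]
    ring

end Crest.Agent.R254.G
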