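import Crest.Agent.R254.GDefs
import Crest.Agent.R254.Frame

/-! Row 254: task FR (second proof), existence of the triangular frame with functionals. -/

set_option autoImplicit false
noncomputable section
namespace Crest.Agent.R254.G

open Crest.Agent.R254.S

theorem frp2 (Y : Type*) [NormedAddCommGroup Y] [NormedSpace ℝ Y] : FrProp Y := by
  intro h n
  have hrank : ((4 * (n + 1) + 1 : ℕ) : Cardinal) ≤ Module.rank ℝ Y := by
    have h1 : Cardinal.aleph0 ≤ Module.rank ℝ Y := by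
      by_contra h'
      exact h (Module.rank_lt_aleph0_iff.1 (not_le.1 h'))
    exact (Cardinal.natCast_le_aleph0).trans h1
  obtain ⟨f, hf0⟩ := Module.le_rank_iff_exists_linearMap.1 hrank
  set u0 : EuclideanSpace ℝ (Fin (4 * (n + 1) + 1)) →ₗ[ℝ] Y :=
    f ∘ₗ (WithLp.linearEquiv 2 ℝ (Fin (4 * (n + 1) + 1) → ℝ)).toLinearMap with hu0
  have hinj : Function.Injective u0 :=
    hf0.comp (WithLp.linearEquiv 2 ℝ (Fin (4 * (n + 1) + 1) → ℝ)).injective
  obtain ⟨u, hu1, hf⟩ := Frame.fresh u0 hinj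
  obtain ⟨e, φ, he, hφ, hd, ht⟩ := Frame.tri u (n + 1) (by simp) hf (n + 1) le_rfl
  set φ' : Fin (n + 1) → Y →L[ℝ] ℝ := fun i => (φ i (u (e i)))⁻¹ • φ i with hφ'
  have p1 : ∀ i, φ' i (u (e i)) = 1 := fun i => by
    have : φ i (u (e i)) ≠ 0 := by linarith [hd i] |> fun (h : 0 < φ i (u (e i))) => h.ne'
    simp [hφ', this]
  have p2 : ∀ i j, j < i → φ' i (u (e j)) = 0 := fun i j hij => by simp [hφ', ht i j hij]
  have p3 : ∀ i y, |φ' i y| ≤ 4 * ‖y‖ := fun i y => by
    have h0 : 0 < φ i (u (e i)) := by linarith [hd i]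
    have h1 : |φ i y| ≤ ‖y‖ := by
      have := (φ i).le_opNorm y
      rw [Real.norm_eq_abs] at this
      nlinarith [hφ i, norm_nonneg y]
    have h2 : (φ i (u (e i)))⁻¹ ≤ 4 := by
      rw [inv_le_comm₀ h0 (by norm_num)]; linarith [hd i]
    have h3 : φ' i y = (φ i (u (e i)))⁻¹ * φ i y := rfl
    rw [h3, abs_mul, abs_of_pos (inv_pos.2 h0)]
    exact mul_le_mul h2 h1 (abs_nonneg _) (by norm_num)
  have n1 : ∀ i, ‖u (e i)‖ ≤ 1 := fun i => (hu1 _).trans (he.1 i).le
  set ι : ℕ → Fin (n + 1) := fun i => ⟨min i n, by omega⟩ with hι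
  have hιlt : ∀ i, i < n → ι i < Fin.last n := fun i hi => by
    simp only [hι, Fin.lt_def, Fin.val_last]; omega
  refine ⟨⟨u (e (Fin.last n)), fun i => u (e (ι i)), φ' (Fin.last n),
    fun i => φ' (ι i) - (φ' (ι i) (u (e (Fin.last n)))) • φ' (Fin.last n), n1 _, ?_,
    fun i _ => n1 _, p3 _, ?_, p1 _, fun i hi => p2 _ _ (hιlt i hi), ?_, ?_, ?_⟩⟩
  · intro m θ hm
    have e1 : ∑ i ∈ Finset.range m, θ i • u (e (ι i)) =
        u (∑ i : Fin m, θ i • e (ι i)) := by
      rw [map_sum, Finset.sum_range]; simp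
    have ho : Orthonormal ℝ (fun i : Fin m => e (ι i)) := by
      refine he.comp (fun i : Fin m => ι i) fun i j hij => ?_
      have := congrArg Fin.val hij
      simp only [hι] at this
      have hi := i.2
      have hj := j.2
      ext; omega
    have e2 : ‖∑ i : Fin m, θ i • e (ι i)‖ ^ 2 = ∑ i ∈ Finset.range m, θ i ^ 2 := by
      rw [← real_inner_self_eq_norm_sq, ho.inner_sum, Finset.sum_range]
      refine Finset.sum_congr rfl fun i _ => ?_
      simp [sq]
    rw [e1, ← e2]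
    exact pow_le_pow_left₀ (norm_nonneg _) (hu1 _) 2
  · intro i y
    have a1 := p3 (ι i) y
    have a2 := p3 (Fin.last n) y
    have a3 := p3 (ι i) (u (e (Fin.last n)))
    have a4 := n1 (Fin.last n)
    have e1 : (φ' (ι i) - (φ' (ι i) (u (e (Fin.last n)))) • φ' (Fin.last n)) y =
        φ' (ι i) y - φ' (ι i) (u (e (Fin.last n))) * φ' (Fin.last n) y := rfl
    rw [e1]
    refine (abs_sub _ _).trans ?_
    rw [abs_mul]
    have a5 : |φ' (ι i) (u (e (Fin.last n)))| * |φ' (Fin.last n) y| ≤ 4 * (4 * ‖y‖) :=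
      mul_le_mul (by linarith) a2 (abs_nonneg _) (by norm_num)
    linarith
  · intro i _
    show φ' (ι i) _ - φ' (ι i) (u (e (Fin.last n))) * φ' (Fin.last n) _ = 0
    rw [p1]; ring
  · intro i hi
    show φ' (ι i) _ - φ' (ι i) (u (e (Fin.last n))) * φ' (Fin.last n) _ = 1
    rw [p1, p2 _ _ (hιlt i hi)]; ring
  · intro i j hji hi
    show φ' (ι i) _ - φ' (ι i) (u (e (Fin.last n))) * φ' (Fin.last n) _ = 0
    have : ι j < ι i := by simp only [hι, Fin.lt_def]; omega
    rw [p2 _ _ this, p2 _ _ (hιlt j (by omega))]; ring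

end Crest.Agent.R254.G
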