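import Crest.Agent.R254.Glue

/-! Row 254: packing bound for the histories of the game, as a Markov invariant. -/

set_option autoImplicit false
open Metric
noncomputable section
namespace Crest.Agent.R254
namespace HP

/-- points whose real labels are `a`-separated and within `n * a` of each other. -/
theorem real_pack {X : Type*} (S : Finset X) (f : X → ℝ) {a : ℝ} (ha : 0 < a) (n : ℕ)
    (h1 : ∀ x ∈ S, ∀ y ∈ S, x ≠ y → a ≤ |f x - f y|)
    (h2 : ∀ x ∈ S, ∀ y ∈ S, |f x - f y| ≤ n * a) : S.card ≤ n + 1 := by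
  classical
  rcases S.eq_empty_or_nonempty with rfl | hne
  · simp
  obtain ⟨x0, hx0, hmin⟩ := S.exists_min_image f hne
  have hmap : ∀ x ∈ S, ⌊(f x - f x0) / a⌋₊ ∈ Finset.range (n + 1) := by
    intro x hx
    rw [Finset.mem_range, Nat.lt_succ_iff]
    have := (abs_le.1 (h2 x hx x0 hx0)).2
    have e : (f x - f x0) / a ≤ n := by rw [div_le_iff₀ ha]; exact this
    exact Nat.floor_le_of_le e
  have hinj : Set.InjOn (fun x => ⌊(f x - f x0) / a⌋₊) (S : Set X) := by
    intro x hx y hy e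
    by_contra hne'
    have e1 := h1 x hx y hy hne'
    have px : 0 ≤ (f x - f x0) / a := div_nonneg (sub_nonneg.2 (hmin x hx)) ha.le
    have py : 0 ≤ (f y - f x0) / a := div_nonneg (sub_nonneg.2 (hmin y hy)) ha.le
    have a1 := Nat.floor_le px
    have a2 := Nat.lt_floor_add_one ((f x - f x0) / a)
    have b1 := Nat.floor_le py
    have b2 := Nat.lt_floor_add_one ((f y - f x0) / a)
    simp only at e
    rw [e] at a1 a2
    have c1 : (f x - f x0) / a - (f y - f x0) / a < 1 := by linarith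
    have c2 : (f y - f x0) / a - (f x - f x0) / a < 1 := by linarith
    rw [← sub_div, div_lt_one ha] at c1 c2
    have : |f x - f y| < a := abs_lt.2 ⟨by linarith, by linarith⟩
    linarith
  have := Finset.card_le_card_of_injOn _ hmap hinj
  simpa using this

end HP

variable {Y : Type*} [NormedAddCommGroup Y] [NormedSpace ℝ Y]

/-- closed `δ`-neighbourhood of the segment `[p, q]` -/
def Tube (p q : Y) (δ : ℝ) : Set Y := {z | ∃ y ∈ segment ℝ p q, dist z y ≤ δ}

theorem Tube.mono {p q : Y} {δ δ' : ℝ} (h : δ ≤ δ') : Tube p q δ ⊆ Tube p q δ' :=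
  fun _ ⟨y, hy, hd⟩ => ⟨y, hy, hd.trans h⟩

theorem Tube.of_mem {p q y : Y} {δ : ℝ} (hδ : 0 ≤ δ) (hy : y ∈ segment ℝ p q) : y ∈ Tube p q δ :=
  ⟨y, hy, by simpa using hδ⟩

theorem Tube.convex (p q : Y) (δ : ℝ) : Convex ℝ (Tube p q δ) := by
  rintro z1 ⟨y1, hy1, hd1⟩ z2 ⟨y2, hy2, hd2⟩ a b ha hb hab
  refine ⟨a • y1 + b • y2, convex_segment p q hy1 hy2 ha hb hab, ?_⟩
  rw [dist_eq_norm] at hd1 hd2 ⊢
  have e : a • z1 + b • z2 - (a • y1 + b • y2) = a • (z1 - y1) + b • (z2 - y2) := by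
    rw [smul_sub, smul_sub]; abel
  rw [e]
  refine (norm_add_le _ _).trans ?_
  rw [norm_smul, norm_smul, Real.norm_of_nonneg ha, Real.norm_of_nonneg hb]
  have e1 := mul_le_mul_of_nonneg_left hd1 ha
  have e2 := mul_le_mul_of_nonneg_left hd2 hb
  have : a * δ + b * δ = δ := by rw [← add_mul, hab, one_mul]
  linarith

theorem Tube.nest {p q p' q' : Y} {δ δ' : ℝ} (hp : p' ∈ Tube p q δ) (hq : q' ∈ Tube p q δ) :
    Tube p' q' δ' ⊆ Tube p q (δ' + δ) := by
  rintro z ⟨y, hy, hd⟩
  obtain ⟨y', hy', hd'⟩ := (Tube.convex p q δ).segment_subset hp hq hy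
  exact ⟨y', hy', (dist_triangle z y y').trans (add_le_add hd hd')⟩

theorem Tube.pack {p q : Y} {u r : ℝ} (ρ : ℕ) (hr : 0 < r) (hu : 10 * u ≤ r) (S : Finset Y)
    (hS : (↑S : Set Y) ⊆ Tube p q (5 / 2 * u)) (h1 : ∀ x ∈ S, ∀ y ∈ S, x ≠ y → r < dist x y)
    (h2 : ∀ x ∈ S, ∀ y ∈ S, dist x y ≤ ρ * r) : S.card ≤ 2 * ρ + 2 := by
  classical
  have : ∀ z : Y, ∃ t : ℝ, z ∈ S → dist z (p + t • (q - p)) ≤ 5 / 2 * u := by
    intro z
    by_cases hz : z ∈ S
    · obtain ⟨y, hy, hd⟩ := hS hz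
      rw [segment_eq_image'] at hy
      obtain ⟨t, -, rfl⟩ := hy
      exact ⟨t, fun _ => hd⟩
    · exact ⟨0, fun h => absurd h hz⟩
  choose t ht using this
  have key : ∀ x y : Y, dist (p + t x • (q - p)) (p + t y • (q - p)) =
      |t x * ‖q - p‖ - t y * ‖q - p‖| := by
    intro x y
    rw [dist_add_left, dist_eq_norm, ← sub_smul, norm_smul, ← sub_mul, abs_mul, abs_norm,
      Real.norm_eq_abs]
  have := HP.real_pack S (fun z => t z * ‖q - p‖) (a := 1 / 2 * r) (by positivity) (2 * ρ + 1)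
    (fun x hx y hy hne => by
      have e := h1 x hx y hy hne
      have e1 := ht x hx
      have e2 := ht y hy
      have e3 := dist_triangle4 x (p + t x • (q - p)) (p + t y • (q - p)) y
      rw [key, dist_comm (p + t y • (q - p)) y] at e3
      linarith)
    (fun x hx y hy => by
      have e := h2 x hx y hy
      have e1 := ht x hx
      have e2 := ht y hy
      have e3 := dist_triangle4 (p + t x • (q - p)) x y (p + t y • (q - p))
      rw [key, dist_comm (p + t x • (q - p)) x] at e3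
      have e4 : (0 : ℝ) ≤ ρ * r := by positivity
      push_cast
      linarith)
  omega

/-- depth of the counting invariant -/
def hJ (ρ : ℕ) : ℕ := 2 * (ρ + 9)
/-- number of new points of one round in a set of diameter `2 ^ hJ * u` -/
def hK (ρ : ℕ) : ℕ := 4 * 2 ^ hJ ρ + 3
/-- the universal packing constant -/
def hLam (ρ : ℕ) : ℕ := 3 + hK ρ * (hJ ρ + 1) + (2 * ρ + 2)

theorem hJ_spec (ρ : ℕ) : (10 : ℝ) * ρ ≤ (5 / 3) ^ hJ ρ / 50 := by
  have h : ρ < 2 ^ ρ := Nat.lt_two_pow_self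
  have h' : (ρ : ℝ) ≤ 2 ^ ρ := by exact_mod_cast h.le
  have h2 : (2 : ℝ) ^ (ρ + 9) ≤ ((5 / 3) ^ 2) ^ (ρ + 9) :=
    pow_le_pow_left₀ (by norm_num) (by norm_num) _
  rw [hJ, pow_mul, le_div_iff₀ (by norm_num)]
  rw [pow_add (2 : ℝ)] at h2
  have : (0 : ℝ) ≤ 2 ^ ρ := by positivity
  nlinarith

theorem pow_53_le {i j : ℕ} (h : i ≤ j) : ((5 : ℝ) / 3) ^ i ≤ 2 ^ j :=
  (pow_le_pow_left₀ (by norm_num) (by norm_num) i).trans (pow_le_pow_right₀ (by norm_num) h)

/-- The invariant: `P` = points so far, `[p, q]` = current segment, `u` = current scale. -/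
structure HI (ρ : ℕ) (P : Finset Y) (p q : Y) (u : ℝ) : Prop where
  upos : 0 < u
  A : ∀ r : ℝ, 10 * u ≤ r → ∀ S : Finset Y, (↑S : Set Y) ⊆ ↑P ∪ Tube p q (5 / 2 * u) →
    (∀ x ∈ S, ∀ y ∈ S, x ≠ y → r < dist x y) → (∀ x ∈ S, ∀ y ∈ S, dist x y ≤ ρ * r) →
    S.card ≤ hLam ρ
  B : ∀ j ≤ hJ ρ, ∀ S : Finset Y, S ⊆ P → (∀ x ∈ S, ∀ y ∈ S, dist x y ≤ (5 / 3) ^ j * u / 50) →
    S.card ≤ 3 + hK ρ * j

theorem HI.init (ρ : ℕ) {P : Finset Y} (hP : P.card ≤ 3) (p q : Y) {u : ℝ} (hu : 0 < u) :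
    HI ρ P p q u := by
  classical
  refine ⟨hu, fun r hr S hS h1 h2 => ?_, fun j _ S hS _ => ?_⟩
  · rw [← Finset.card_filter_add_card_filter_not (s := S) (fun x => x ∈ P)]
    have e1 : (S.filter fun x => x ∈ P).card ≤ 3 :=
      (Finset.card_le_card fun x hx => (Finset.mem_filter.1 hx).2).trans hP
    have e2 := Tube.pack (p := p) (q := q) ρ (by linarith) hr (S.filter fun x => ¬ x ∈ P)
      (fun x hx => (hS (Finset.mem_filter.1 hx).1).resolve_left (Finset.mem_filter.1 hx).2)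
      (fun x hx y hy => h1 x (Finset.mem_filter.1 hx).1 y (Finset.mem_filter.1 hy).1)
      fun x hx y hy => h2 x (Finset.mem_filter.1 hx).1 y (Finset.mem_filter.1 hy).1
    unfold hLam
    omega
  · have := (Finset.card_le_card hS).trans hP
    omega

theorem HI.small {ρ : ℕ} {P : Finset Y} {p q : Y} {u r : ℝ} (h : HI ρ P p q u) (hr : r ≤ 10 * u)
    (S : Finset Y) (hS : S ⊆ P) (h2 : ∀ x ∈ S, ∀ y ∈ S, dist x y ≤ ρ * r) :
    S.card ≤ 3 + hK ρ * hJ ρ := by
  refine h.B _ le_rfl S hS fun x hx y hy => (h2 x hx y hy).trans ?_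
  have e1 := mul_le_mul_of_nonneg_left hr (Nat.cast_nonneg (α := ℝ) ρ)
  have e2 := mul_le_mul_of_nonneg_right (hJ_spec ρ) h.upos.le
  have : ((5 : ℝ) / 3) ^ hJ ρ * u / 50 = (5 / 3) ^ hJ ρ / 50 * u := by ring
  rw [this]
  linarith

/-- the invariant gives the packing bound. -/
theorem HI.pk {ρ : ℕ} {P : Finset Y} {p q : Y} {u : ℝ} (h : HI ρ P p q u) :
    Pk (↑P : Set Y) ρ (hLam ρ) := by
  intro r _ S hS h1 h2
  rcases le_total (10 * u) r with hr | hr
  · exact h.A r hr S (hS.trans Set.subset_union_left) h1 h2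
  · have := h.small hr S (by exact_mod_cast hS) h2
    unfold hLam
    rw [mul_add]
    omega

/-- all later points stay in the tube. -/
theorem HI.step [DecidableEq Y] {ρ : ℕ} {P : Finset Y} {p q : Y} {u : ℝ} (h : HI ρ P p q u)
    (A : Finset Y) (hA : ∀ a ∈ A, a ∈ Tube p q u)
    (hsep : ∀ a ∈ A, ∀ y ∈ P ∪ A, y ≠ a → u / 20 ≤ dist a y)
    (hcnt : ∀ D : ℕ, ∀ S : Finset Y, S ⊆ A → (∀ x ∈ S, ∀ y ∈ S, dist x y ≤ D * u) →
      S.card ≤ 4 * D + 3)
    {p' q' : Y} {u' : ℝ} (hp : p' ∈ Tube p q u) (hq : q' ∈ Tube p q u) (hu : 0 < u')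
    (hu' : u' ≤ 3 / 5 * u) : HI ρ (P ∪ A) p' q' u' := by
  classical
  have hu0 := h.upos
  have hKA : ∀ S : Finset Y, S ⊆ A → (∀ x ∈ S, ∀ y ∈ S, dist x y ≤ 2 ^ hJ ρ * u) →
      S.card ≤ hK ρ := fun S hS h2 =>
    hcnt (2 ^ hJ ρ) S hS fun x hx y hy => by push_cast; exact h2 x hx y hy
  have split : ∀ S : Finset Y, S ⊆ P ∪ A → ∀ a b : ℕ,
      (S.filter fun x => x ∈ P).card ≤ a → (S.filter fun x => x ∈ A).card ≤ b →
      S.card ≤ a + b := by
    intro S hS a b ha hb
    have : S ⊆ (S.filter fun x => x ∈ P) ∪ (S.filter fun x => x ∈ A) := by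
      intro x hx
      rcases Finset.mem_union.1 (hS hx) with e | e
      · exact Finset.mem_union_left _ (Finset.mem_filter.2 ⟨hx, e⟩)
      · exact Finset.mem_union_right _ (Finset.mem_filter.2 ⟨hx, e⟩)
    exact (Finset.card_le_card this).trans ((Finset.card_union_le _ _).trans (add_le_add ha hb))
  refine ⟨hu, fun r hr S hS h1 h2 => ?_, fun j hj S hS h2 => ?_⟩
  · rcases le_total (10 * u) r with hr' | hr'
    · refine h.A r hr' S (fun x hx => ?_) h1 h2
      rcases hS hx with e | e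
      · rcases Finset.mem_union.1 (Finset.mem_coe.1 e) with e | e
        · exact Or.inl e
        · exact Or.inr (Tube.mono (by linarith) (hA x e))
      · exact Or.inr (Tube.mono (by linarith) (Tube.nest hp hq e))
    · rw [← Finset.card_filter_add_card_filter_not (s := S) (fun x => x ∈ P ∪ A)]
      have e2 := Tube.pack (p := p') (q := q') ρ (by linarith) hr
        (S.filter fun x => ¬ x ∈ P ∪ A)
        (fun x hx => (hS (Finset.mem_filter.1 hx).1).resolve_left
          fun e => (Finset.mem_filter.1 hx).2 (Finset.mem_coe.1 e))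
        (fun x hx y hy => h1 x (Finset.mem_filter.1 hx).1 y (Finset.mem_filter.1 hy).1)
        fun x hx y hy => h2 x (Finset.mem_filter.1 hx).1 y (Finset.mem_filter.1 hy).1
      have e1 := split (S.filter fun x => x ∈ P ∪ A) (fun x hx => (Finset.mem_filter.1 hx).2)
        (3 + hK ρ * hJ ρ) (hK ρ)
        (h.small hr' _ (fun x hx => (Finset.mem_filter.1 hx).2) fun x hx y hy =>
          h2 x (Finset.mem_filter.1 (Finset.mem_filter.1 hx).1).1 y
            (Finset.mem_filter.1 (Finset.mem_filter.1 hy).1).1)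
        (hKA _ (fun x hx => (Finset.mem_filter.1 hx).2) fun x hx y hy => by
          refine (h2 x (Finset.mem_filter.1 (Finset.mem_filter.1 hx).1).1 y
            (Finset.mem_filter.1 (Finset.mem_filter.1 hy).1).1).trans ?_
          have e1 := mul_le_mul_of_nonneg_left hr' (Nat.cast_nonneg (α := ℝ) ρ)
          have e2 := mul_le_mul_of_nonneg_right (hJ_spec ρ) hu0.le
          have e3 : (0 : ℝ) ≤ 2 ^ hJ ρ * u := by positivity
          have e4 := mul_le_mul_of_nonneg_right (pow_53_le (le_refl (hJ ρ))) hu0.le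
          have : ((5 : ℝ) / 3) ^ hJ ρ / 50 * u = (5 / 3) ^ hJ ρ * u / 50 := by ring
          rw [this] at e2
          linarith)
      unfold hLam
      rw [mul_add]
      omega
  · rcases j with _ | i
    · by_cases hA' : ∃ a ∈ S, a ∈ A
      · obtain ⟨a, haS, haA⟩ := hA'
        have : S.card ≤ 1 := by
          have hall : ∀ y ∈ S, y = a := by
            intro y hy
            by_contra hne
            have e1 := hsep a haA y (hS hy) hne
            have e2 := h2 a haS y hy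
            simp only [pow_zero, one_mul] at e2
            linarith
          exact Finset.card_le_one.2 fun x hx y hy => (hall x hx).trans (hall y hy).symm
        omega
      · refine h.B 0 (Nat.zero_le _) S (fun x hx => ?_) fun x hx y hy => (h2 x hx y hy).trans ?_
        · exact (Finset.mem_union.1 (hS hx)).resolve_right fun e => hA' ⟨x, hx, e⟩
        · simp only [pow_zero, one_mul]; linarith
    · have p2 : (0 : ℝ) < (5 / 3) ^ i := by positivity
      have e0 : ((5 : ℝ) / 3) ^ (i + 1) * u' / 50 ≤ (5 / 3) ^ i * u / 50 := by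
        rw [pow_succ]
        have := mul_le_mul_of_nonneg_left hu' p2.le
        linarith
      have e1 := split S hS (3 + hK ρ * i) (hK ρ)
        (h.B i (by omega) _ (fun x hx => (Finset.mem_filter.1 hx).2) fun x hx y hy =>
          (h2 x (Finset.mem_filter.1 hx).1 y (Finset.mem_filter.1 hy).1).trans e0)
        (hKA _ (fun x hx => (Finset.mem_filter.1 hx).2) fun x hx y hy => by
          refine (h2 x (Finset.mem_filter.1 hx).1 y (Finset.mem_filter.1 hy).1).trans
            (e0.trans ?_)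
          have e3 : ((5 : ℝ) / 3) ^ i ≤ 2 ^ hJ ρ := pow_53_le (by omega)
          have e4 := mul_le_mul_of_nonneg_right e3 hu0.le
          have e5 : (0 : ℝ) ≤ (5 / 3) ^ i * u := by positivity
          linarith)
      rw [mul_add]
      omega

end Crest.Agent.R254
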