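import Crest.Agent.R254.GDefs
import Crest.Agent.R254.HPack

/-! Row 254: the abstract history-packing invariant, from `HPack`. -/

set_option autoImplicit false
noncomputable section
namespace Crest.Agent.R254.G

open scoped Classical

theorem hip (Y : Type*) [NormedAddCommGroup Y] [NormedSpace ℝ Y] : HIProp Y (hLam 24) := by
  refine ⟨fun P p q u => Crest.Agent.R254.HI 24 P p q u, ?_, ?_, ?_⟩
  · intro p q u hu
    exact Crest.Agent.R254.HI.init 24 (Finset.card_le_two.trans (by norm_num)) p q hu
  · intro P A p q p2 q2 u u2 h _ h1 h2 h3 h4 h5 h6 h7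
    exact h.step A h1 h2 h3 h4 h5 h6 h7
  · intro P p q u h _
    have := h.pk
    exact_mod_cast this

end Crest.Agent.R254.G
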