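import Crest.Agent.R254.GDefs

/-! Row 254: task INV, the invariant of the adversary strategy is preserved. -/

set_option autoImplicit false
noncomputable section
namespace Crest.Agent.R254.G

open Crest.Agent.R254.S
open scoped Classical

namespace InvAux

variable {Y : Type*} [NormedAddCommGroup Y] [NormedSpace ℝ Y] {n : ℕ}

theorem pt_norm {F : Fr Y n} {N l0 r j k : ℕ} {P : Finset Y} {a b : Y}
    (hp : Par n N l0 r j k) (h : Inv F N l0 r P a b) (x : ℝ) (i : ℕ) (hi : i ≤ N)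
    (hx : |x| ≤ N) : ‖pt F N l0 r a b x i‖ + 2 * (len F a b / l0) ≤ 1 := by
  have hN : (2 : ℝ) ≤ N := by exact_mod_cast hp.hN
  have hl0 : 10 * (N : ℝ) ≤ l0 := by exact_mod_cast hp.hl0
  have hl0' : (0 : ℝ) < l0 := by linarith
  have hu : 0 < len F a b / l0 := div_pos h.hl hl0'
  obtain ⟨hx1, hx2⟩ := abs_le.1 hx
  have h1 : -(1 / 2 : ℝ) ≤ x / l0 := by rw [le_div_iff₀ hl0']; linarith
  have h2 : x / l0 ≤ 1 / 2 := by rw [div_le_iff₀ hl0']; linarith
  have e : pt F N l0 r a b x i = (1 / 2 - x / l0) • a + (1 / 2 + x / l0) • b +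
      (len F a b / l0) • F.v (r * N + i) := by
    unfold pt; module
  have hv : ‖F.v (r * N + i)‖ ≤ 1 := F.nv1 _ (by have := hp.hn; omega)
  have e1 : ‖pt F N l0 r a b x i‖ ≤ (1 / 2 - x / l0) * ‖a‖ + (1 / 2 + x / l0) * ‖b‖ +
      (len F a b / l0) * ‖F.v (r * N + i)‖ := by
    rw [e]
    refine (norm_add_le _ _).trans (add_le_add ((norm_add_le _ _).trans (add_le_add ?_ ?_)) ?_)
    · rw [norm_smul, Real.norm_of_nonneg (by linarith)]
    · rw [norm_smul, Real.norm_of_nonneg (by linarith)]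
    · rw [norm_smul, Real.norm_of_nonneg hu.le]
  have ha := h.na
  have hb := h.nb
  have e2 := mul_le_mul_of_nonneg_left ha (show (0 : ℝ) ≤ 1 / 2 - x / l0 by linarith)
  have e3 := mul_le_mul_of_nonneg_left hb (show (0 : ℝ) ≤ 1 / 2 + x / l0 by linarith)
  have e4 := mul_le_mul_of_nonneg_left hv hu.le
  nlinarith

theorem rd_elim {F : Fr Y n} {N l0 r j k : ℕ} {a b : Y} (hp : Par n N l0 r j k) {y : Y}
    (hy : y ∈ Rd F N l0 r a b j k) :
    ∃ (x : ℝ) (i : ℕ), i ≤ N ∧ |x| ≤ N ∧ y = pt F N l0 r a b x i := by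
  have hj := hp.hjk
  have hk := hp.hk
  simp only [Rd, AB, Finset.mem_union, Finset.mem_image, Finset.mem_Icc, Finset.mem_insert,
    Finset.mem_singleton] at hy
  rcases hy with (⟨i, ⟨_, h2⟩, rfl⟩ | ⟨i, ⟨_, h2⟩, rfl⟩) | rfl | rfl
  · exact ⟨_, i, h2, by rw [abs_neg, Nat.abs_cast]; exact_mod_cast h2, rfl⟩
  · exact ⟨_, i, h2, by rw [Nat.abs_cast]; exact_mod_cast h2, rfl⟩
  · exact ⟨0, j, by omega, by simp, rfl⟩
  · exact ⟨0, k, hk, by simp, rfl⟩

theorem main {F : Fr Y n} {N l0 r j k : ℕ} {P : Finset Y} {a b : Y}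
    (hp : Par n N l0 r j k) (h : Inv F N l0 r P a b) {p q : Y}
    (hpm : p ∈ P ∪ Rd F N l0 r a b j k) (hqm : q ∈ P ∪ Rd F N l0 r a b j k)
    (hpn : ‖p‖ + 2 * (len F a b / l0) ≤ 1) (hqn : ‖q‖ + 2 * (len F a b / l0) ≤ 1)
    (t c : ℝ) (i : ℕ) (hi1 : 1 ≤ i) (hi : i ≤ N) (ht : 0 < t) (ht' : t ≤ 3 / 5)
    (hc : c ^ 2 ≤ 7 / (l0 : ℝ) ^ 2)
    (e : q - p = t • (b - a) + (t * len F a b * c) • F.v (r * N + i)) :
    Inv F N l0 (r + 1) (P ∪ Rd F N l0 r a b j k) p q := by
  have hN : (2 : ℝ) ≤ N := by exact_mod_cast hp.hN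
  have hl0 : 10 * (N : ℝ) ≤ l0 := by exact_mod_cast hp.hl0
  have hl0' : (0 : ℝ) < l0 := by linarith
  have hn := hp.hn
  have hu : 0 < len F a b / l0 := div_pos h.hl hl0'
  have hlen : len F p q = t * len F a b := by
    have : len F p q = F.χ (q - p) := rfl
    rw [this, e, map_add, map_smul, map_smul, F.χv _ (by omega)]
    simp [len]
  have hu' : len F p q / l0 ≤ 3 / 5 * (len F a b / l0) := by
    rw [hlen, mul_div_assoc]; exact mul_le_mul_of_nonneg_right ht' hu.le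
  refine ⟨hpm, hqm, Finset.mem_union_left _ h.h0, by rw [hlen]; exact mul_pos ht h.hl, ?_, ?_, ?_,
    by linarith, by linarith⟩
  · obtain ⟨θ, h1, h2⟩ := h.tilt
    have hsplit : (r + 1) * N + 1 = (r * N + 1) + N := by ring
    refine ⟨fun m => if m < r * N + 1 then θ m else if m = r * N + i then c else 0, ?_, ?_⟩
    · rw [hsplit, Finset.sum_range_add]
      have s1 : ∑ m ∈ Finset.range (r * N + 1),
          (if m < r * N + 1 then θ m else if m = r * N + i then c else 0) • F.v m =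
          ∑ m ∈ Finset.range (r * N + 1), θ m • F.v m :=
        Finset.sum_congr rfl fun m hm => by rw [if_pos (Finset.mem_range.1 hm)]
      have s2 : ∑ m ∈ Finset.range N, (if r * N + 1 + m < r * N + 1 then θ (r * N + 1 + m) else
          if r * N + 1 + m = r * N + i then c else 0) • F.v (r * N + 1 + m) =
          c • F.v (r * N + i) := by
        rw [Finset.sum_eq_single (i - 1)]
        · have : r * N + 1 + (i - 1) = r * N + i := by omega
          rw [this, if_neg (by omega), if_pos rfl]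
        · intro m _ hm
          rw [if_neg (by omega), if_neg (by omega), zero_smul]
        · intro hm
          exact absurd (Finset.mem_range.2 (by omega)) hm
      rw [s1, s2, e, hlen]
      conv_lhs => rw [h1]
      module
    · rw [hsplit, Finset.sum_range_add]
      have s1 : ∑ m ∈ Finset.range (r * N + 1),
          (if m < r * N + 1 then θ m else if m = r * N + i then c else 0) ^ 2 =
          ∑ m ∈ Finset.range (r * N + 1), θ m ^ 2 :=
        Finset.sum_congr rfl fun m hm => by rw [if_pos (Finset.mem_range.1 hm)]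
      have s2 : ∑ m ∈ Finset.range N, (if r * N + 1 + m < r * N + 1 then θ (r * N + 1 + m) else
          if r * N + 1 + m = r * N + i then c else 0) ^ 2 = c ^ 2 := by
        rw [Finset.sum_eq_single (i - 1)]
        · have : r * N + 1 + (i - 1) = r * N + i := by omega
          rw [this, if_neg (by omega), if_pos rfl]
        · intro m _ hm
          rw [if_neg (by omega), if_neg (by omega)]; simp
        · intro hm
          exact absurd (Finset.mem_range.2 (by omega)) hm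
      rw [s1, s2]
      have : 7 * ((r + 1 : ℕ) : ℝ) / (l0 : ℝ) ^ 2 = 7 * r / (l0 : ℝ) ^ 2 + 7 / (l0 : ℝ) ^ 2 := by
        push_cast; ring
      rw [this]; linarith
  · intro y hy m hm hmn
    have hm' : r * N + N < m := by rw [add_mul, one_mul] at hm; exact hm
    rcases Finset.mem_union.1 hy with hy | hy
    · exact h.fresh y hy m (by omega) hmn
    · obtain ⟨x, i', hi', -, rfl⟩ := rd_elim hp hy
      have fa := h.fresh a h.ha m (by omega) hmn
      have fb := h.fresh b h.hb m (by omega) hmn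
      have fv := F.ψv' m (r * N + i') (by omega) hmn
      simp [pt, fa, fb, fv]
  · intro y hy
    rcases Finset.mem_union.1 hy with hy | hy
    · exact h.nP y hy
    · obtain ⟨x, i', hi', hx, rfl⟩ := rd_elim hp hy
      have := pt_norm hp h x i' hi' hx
      linarith

theorem coef {l0 N x : ℝ} (hN : 2 ≤ N) (hl0 : 10 * N ≤ l0) (hx : |x| ≤ N) :
    0 < 1 / 2 + x / l0 ∧ 1 / 2 + x / l0 ≤ 3 / 5 ∧ (1 / (l0 / 2 + x)) ^ 2 ≤ 7 / l0 ^ 2 ∧
      0 < l0 / 2 + x := by
  have hl0' : 0 < l0 := by linarith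
  obtain ⟨hx1, hx2⟩ := abs_le.1 hx
  have h1 : -(1 / 10 : ℝ) ≤ x / l0 := by rw [le_div_iff₀ hl0']; linarith
  have h2 : x / l0 ≤ 1 / 10 := by rw [div_le_iff₀ hl0']; linarith
  have h3 : 2 / 5 * l0 ≤ l0 / 2 + x := by linarith
  have h4 : 0 < l0 / 2 + x := by linarith
  refine ⟨by linarith, by linarith, ?_, h4⟩
  rw [div_pow, div_le_div_iff₀ (by positivity) (by positivity)]
  nlinarith

theorem cancel {l0 x : ℝ} (h0 : 0 < l0) (h : 0 < l0 / 2 + x) (l : ℝ) :
    (1 / 2 + x / l0) * l * (1 / (l0 / 2 + x)) = l / l0 := by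
  have e : 1 / 2 + x / l0 = (l0 / 2 + x) / l0 := by field_simp
  rw [e]
  generalize l0 / 2 + x = w at h
  field_simp

theorem left {F : Fr Y n} {N l0 r j k : ℕ} {P : Finset Y} {a b : Y}
    (hp : Par n N l0 r j k) (h : Inv F N l0 r P a b) (x : ℝ) (i : ℕ) (hi1 : 1 ≤ i) (hi : i ≤ N)
    (hx : |x| ≤ N) (hm : pt F N l0 r a b x i ∈ Rd F N l0 r a b j k) :
    Inv F N l0 (r + 1) (P ∪ Rd F N l0 r a b j k) a (pt F N l0 r a b x i) ∧
      Inv F N l0 (r + 1) (P ∪ Rd F N l0 r a b j k) (pt F N l0 r a b x i) b := by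
  have hN : (2 : ℝ) ≤ N := by exact_mod_cast hp.hN
  have hl0 : 10 * (N : ℝ) ≤ l0 := by exact_mod_cast hp.hl0
  have hl0' : (0 : ℝ) < l0 := by linarith
  have hu : 0 < len F a b / l0 := div_pos h.hl hl0'
  have hn := pt_norm hp h x i hi hx
  have ha := h.na
  have hb := h.nb
  constructor
  · obtain ⟨c1, c2, c3, c4⟩ := coef hN hl0 hx
    refine main hp h (Finset.mem_union_left _ h.ha) (Finset.mem_union_right _ hm) (by linarith) hn
      (1 / 2 + x / l0) (1 / (l0 / 2 + x)) i hi1 hi c1 c2 c3 ?_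
    have : (1 / 2 + x / l0) * len F a b * (1 / (l0 / 2 + x)) = len F a b / l0 :=
      cancel hl0' c4 _
    rw [this]; unfold pt; abel
  · obtain ⟨c1, c2, c3, c4⟩ := coef (x := -x) hN hl0 (by rwa [abs_neg])
    refine main hp h (Finset.mem_union_right _ hm) (Finset.mem_union_left _ h.hb) hn (by linarith)
      (1 / 2 + -x / l0) (-(1 / (l0 / 2 + -x))) i hi1 hi c1 c2 (by rwa [neg_sq]) ?_
    have : (1 / 2 + -x / l0) * len F a b * (-(1 / (l0 / 2 + -x))) = -(len F a b / l0) := by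
      rw [mul_neg, cancel hl0' c4]
    rw [this]; unfold pt; module

theorem mid {F : Fr Y n} {N l0 r j k : ℕ} {P : Finset Y} {a b : Y}
    (hp : Par n N l0 r j k) (h : Inv F N l0 r P a b) (x y : ℝ) (i : ℕ) (hi1 : 1 ≤ i) (hi : i ≤ N)
    (hx : |x| ≤ N) (hy : |y| ≤ N) (hxy : x < y)
    (hm : pt F N l0 r a b x i ∈ Rd F N l0 r a b j k)
    (hm' : pt F N l0 r a b y i ∈ Rd F N l0 r a b j k) :
    Inv F N l0 (r + 1) (P ∪ Rd F N l0 r a b j k) (pt F N l0 r a b x i) (pt F N l0 r a b y i) := by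
  have hN : (2 : ℝ) ≤ N := by exact_mod_cast hp.hN
  have hl0 : 10 * (N : ℝ) ≤ l0 := by exact_mod_cast hp.hl0
  have hl0' : (0 : ℝ) < l0 := by linarith
  obtain ⟨hx1, hx2⟩ := abs_le.1 hx
  obtain ⟨hy1, hy2⟩ := abs_le.1 hy
  refine main hp h (Finset.mem_union_right _ hm) (Finset.mem_union_right _ hm')
    (pt_norm hp h x i hi hx) (pt_norm hp h y i hi hy) ((y - x) / l0) 0 i hi1 hi
    (div_pos (by linarith) hl0') (by rw [div_le_iff₀ hl0']; linarith)
    (by rw [zero_pow two_ne_zero]; positivity) ?_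
  unfold pt
  rw [sub_div]
  module

end InvAux

open InvAux in
theorem invp (Y : Type*) [NormedAddCommGroup Y] [NormedSpace ℝ Y] : InvProp Y := by
  intro n F N l0 r j k P a b hp h c hc
  have hA : ∀ i : ℕ, 1 ≤ i → i ≤ N → pt F N l0 r a b (-(i : ℝ)) i ∈ Rd F N l0 r a b j k :=
    fun i h1 h2 => Finset.mem_union_left _ (Finset.mem_union_left _
      (Finset.mem_image.2 ⟨i, Finset.mem_Icc.2 ⟨h1, h2⟩, rfl⟩))
  have hB : ∀ i : ℕ, 1 ≤ i → i ≤ N → pt F N l0 r a b (i : ℝ) i ∈ Rd F N l0 r a b j k :=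
    fun i h1 h2 => Finset.mem_union_left _ (Finset.mem_union_right _
      (Finset.mem_image.2 ⟨i, Finset.mem_Icc.2 ⟨h1, h2⟩, rfl⟩))
  have a1 : ∀ i : ℕ, i ≤ N → |(-(i : ℝ))| ≤ N := fun i h2 => by
    rw [abs_neg, Nat.abs_cast]; exact_mod_cast h2
  have a2 : ∀ i : ℕ, i ≤ N → |(i : ℝ)| ≤ N := fun i h2 => by
    rw [Nat.abs_cast]; exact_mod_cast h2
  rcases Finset.mem_union.1 hc with hc | hc
  · obtain ⟨i, hi, hc⟩ := Finset.mem_biUnion.1 hc
    obtain ⟨h1, h2⟩ := Finset.mem_Icc.1 hi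
    have l1 := left hp h (-(i : ℝ)) i h1 h2 (a1 i h2) (hA i h1 h2)
    have l2 := left hp h (i : ℝ) i h1 h2 (a2 i h2) (hB i h1 h2)
    simp only [Finset.mem_insert, Finset.mem_singleton] at hc
    rcases hc with rfl | rfl | rfl | rfl
    exacts [l1.1, l1.2, l2.1, l2.2]
  · obtain ⟨i, hi, hc⟩ := Finset.mem_biUnion.1 hc
    have hj := hp.hj
    have hjk := hp.hjk
    have hk := hp.hk
    simp only [Finset.mem_insert, Finset.mem_singleton] at hi hc
    have h1 : 1 ≤ i := by omega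
    have h2 : i ≤ N := by omega
    have hM : pt F N l0 r a b 0 i ∈ Rd F N l0 r a b j k := by
      refine Finset.mem_union_right _ ?_
      rcases hi with rfl | rfl <;> simp
    have hi0 : (0 : ℝ) < i := by exact_mod_cast h1
    rcases hc with rfl | rfl
    · exact mid hp h _ _ i h1 h2 (a1 i h2) (by simp) (by linarith) (hA i h1 h2) hM
    · exact mid hp h _ _ i h1 h2 (by simp) (a2 i h2) hi0 hM (hB i h1 h2)

end Crest.Agent.R254.G
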