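import Crest.Agent.R254.GDefs

/-! Row 254: exact horizontal lengths. -/

set_option autoImplicit false
noncomputable section
namespace Crest.Agent.R254.G

theorem lenp (Y : Type*) [NormedAddCommGroup Y] [NormedSpace ℝ Y] : LenProp Y := by
  intro n F N l0 r a b x y i hl hi
  have h0 : (l0 : ℝ) ≠ 0 := Nat.cast_ne_zero.2 hl.ne'
  have hv := F.χv _ hi
  have key : ∀ z : ℝ, F.χ (pt F N l0 r a b z i) = F.χ a + (1 / 2 + z / l0) * (F.χ b - F.χ a) := by
    intro z
    simp only [pt, map_add, map_smul, map_sub, hv, smul_eq_mul, mul_zero, add_zero]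
  simp only [len, map_sub]
  rw [key x, key y]
  refine ⟨?_, ?_, ?_⟩ <;> field_simp <;> ring

end Crest.Agent.R254.G
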