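import Mathlib

/-! Row 254: one round of the online game, target side only. -/

set_option autoImplicit false
open Metric
noncomputable section
namespace Crest.Agent.R254

section
variable {V : Type*} [NormedAddCommGroup V] [InnerProductSpace ℝ V]

theorem stewart (A B X : V) (l : ℝ) :
    ‖X - ((1 - l) • A + l • B)‖ ^ 2 =
      (1 - l) * ‖X - A‖ ^ 2 + l * ‖X - B‖ ^ 2 - l * (1 - l) * ‖A - B‖ ^ 2 := by
  have e1 : X - ((1 - l) • A + l • B) = (1 - l) • (X - A) + l • (X - B) := by module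
  have e2 : A - B = (X - B) - (X - A) := by abel
  rw [e1, e2]
  generalize X - A = p
  generalize X - B = q
  rw [norm_add_sq_real, norm_sub_sq_real, norm_smul, norm_smul, mul_pow, mul_pow,
    Real.norm_eq_abs, Real.norm_eq_abs, sq_abs, sq_abs, inner_smul_left, inner_smul_right,
    real_inner_comm p q]
  simp only [conj_trivial]
  ring

theorem lens (A B X : V) {a b s t : ℝ} (ha : 0 ≤ a) (hb : 0 ≤ b) (hab : 0 < a + b) (hs : 0 ≤ s)
    (h : s * (a + b) ≤ dist A B) (h1 : dist A X ≤ t * a) (h2 : dist X B ≤ t * b) :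
    dist X ((1 - a / (a + b)) • A + (a / (a + b)) • B) ^ 2 ≤ a * b * (t ^ 2 - s ^ 2) := by
  rw [dist_eq_norm, stewart]
  rw [dist_comm, dist_eq_norm] at h1
  rw [dist_eq_norm] at h2 h
  have p1 : ‖X - A‖ ^ 2 ≤ (t * a) ^ 2 := pow_le_pow_left₀ (norm_nonneg _) h1 2
  have p2 : ‖X - B‖ ^ 2 ≤ (t * b) ^ 2 := pow_le_pow_left₀ (norm_nonneg _) h2 2
  have p3 : (s * (a + b)) ^ 2 ≤ ‖A - B‖ ^ 2 := pow_le_pow_left₀ (by positivity) h 2
  have l0 : 0 ≤ a / (a + b) := by positivity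
  have e : 1 - a / (a + b) = b / (a + b) := by field_simp; ring
  have l1 : 0 ≤ b / (a + b) := by positivity
  rw [e]
  have q1 := mul_le_mul_of_nonneg_left p1 l1
  have q2 := mul_le_mul_of_nonneg_left p2 l0
  have q3 := mul_le_mul_of_nonneg_left p3 (mul_nonneg l0 l1)
  have e2 : b / (a + b) * (t * a) ^ 2 + a / (a + b) * (t * b) ^ 2 -
      a / (a + b) * (b / (a + b)) * (s * (a + b)) ^ 2 = a * b * (t ^ 2 - s ^ 2) := by
    field_simp
  linarith

/-- a point with small distances to both ends of a long segment is close to the midpoint -/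
theorem mid_close (P Q M : V) {x e : ℝ} (h1 : dist P M ≤ x) (h2 : dist M Q ≤ x)
    (h3 : 2 * (x - e) ≤ dist P Q) :
    dist M ((1 / 2 : ℝ) • P + (1 / 2 : ℝ) • Q) ^ 2 ≤ 2 * e * x := by
  have st := stewart P Q M (1 / 2)
  have e0 : (1 : ℝ) - 1 / 2 = 1 / 2 := by norm_num
  rw [e0] at st
  have tr := dist_triangle P M Q
  have hx : 0 ≤ x := dist_nonneg.trans h1
  rw [dist_eq_norm, st, ← dist_eq_norm, ← dist_eq_norm, ← dist_eq_norm, dist_comm M P]
  have p1 : dist P M ^ 2 ≤ x ^ 2 := pow_le_pow_left₀ dist_nonneg h1 2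
  have p2 : dist M Q ^ 2 ≤ x ^ 2 := pow_le_pow_left₀ dist_nonneg h2 2
  have d0 : 0 ≤ dist P Q := dist_nonneg
  have a1 : 0 ≤ x - dist P Q / 2 := by linarith
  have a2 : x - dist P Q / 2 ≤ e := by linarith
  have a3 : x + dist P Q / 2 ≤ 2 * x := by linarith
  have a4 : (x - dist P Q / 2) * (x + dist P Q / 2) ≤ e * (2 * x) :=
    mul_le_mul a2 a3 (by linarith) (a1.trans a2)
  nlinarith

theorem dist_mid_le (P Q P' Q' : V) {e : ℝ} (h1 : dist P P' ≤ e) (h2 : dist Q Q' ≤ e) :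
    dist ((1 / 2 : ℝ) • P + (1 / 2 : ℝ) • Q) ((1 / 2 : ℝ) • P' + (1 / 2 : ℝ) • Q') ≤ e := by
  refine (dist_add_add_le _ _ _ _).trans ?_
  rw [dist_smul₀, dist_smul₀]
  have : ‖(1 / 2 : ℝ)‖ = 1 / 2 := by norm_num
  rw [this]; linarith

end

/-- pigeonhole in a ball of a finite-dimensional space -/
theorem pigeon (d : ℕ) (R e : ℝ) (he : 0 < e) : ∃ N : ℕ, 2 ≤ N ∧
    ∀ c : ℕ → EuclideanSpace ℝ (Fin d), (∀ k, 1 ≤ k → k ≤ N → ‖c k‖ ≤ R) →
      ∃ j k, 1 ≤ j ∧ j < k ∧ k ≤ N ∧ dist (c j) (c k) ≤ e := by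
  classical
  obtain ⟨T, hT, hc⟩ := (Metric.totallyBounded_iff.1
    (isCompact_closedBall (0 : EuclideanSpace ℝ (Fin d)) R).totallyBounded) (e / 2) (by positivity)
  refine ⟨hT.toFinset.card + 2, by omega, fun c h => ?_⟩
  have : ∀ k : ℕ, ∃ y, k ∈ Finset.Icc 1 (hT.toFinset.card + 2) →
      y ∈ hT.toFinset ∧ dist (c k) y < e / 2 := by
    intro k
    by_cases hk : k ∈ Finset.Icc 1 (hT.toFinset.card + 2)
    · have hk' := Finset.mem_Icc.1 hk
      have := hc (mem_closedBall_zero_iff.2 (h k hk'.1 hk'.2))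
      simp only [Set.mem_iUnion] at this
      obtain ⟨y, hy, hy'⟩ := this
      exact ⟨y, fun _ => ⟨hT.mem_toFinset.2 hy, hy'⟩⟩
    · exact ⟨0, fun h => absurd h hk⟩
  choose f hf using this
  obtain ⟨x, hx, y, hy, hne, hxy⟩ := Finset.exists_ne_map_eq_of_card_lt_of_maps_to
    (s := Finset.Icc 1 (hT.toFinset.card + 2)) (t := hT.toFinset) (f := f)
    (by simp) (fun k hk => (hf k hk).1)
  have hd : dist (c x) (c y) ≤ e := by
    have := dist_triangle_right (c x) (c y) (f x)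
    have a1 := (hf x hx).2
    have a2 := (hf y hy).2
    rw [← hxy] at a2
    linarith
  have hx' := Finset.mem_Icc.1 hx
  have hy' := Finset.mem_Icc.1 hy
  rcases lt_or_gt_of_ne hne with h | h
  · exact ⟨x, y, hx'.1, h, hy'.2, hd⟩
  · exact ⟨y, x, hy'.1, h, hx'.2, by rwa [dist_comm]⟩

theorem round (d : ℕ) (S : ℝ) (hS : 0 ≤ S) : ∃ N l0 : ℕ, 2 ≤ N ∧ 10 * N ≤ l0 ∧
    ∀ u : ℝ, 0 < u → ∀ s t : ℝ, 0 ≤ s → s ≤ S → t = s + 1 / (l0 : ℝ) ^ 2 →
    ∀ (A B : EuclideanSpace ℝ (Fin d)) (P Q : ℕ → EuclideanSpace ℝ (Fin d)),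
      s * (l0 * u) ≤ dist A B →
      (∀ k : ℕ, 1 ≤ k → k ≤ N →
        dist A (P k) ≤ t * (((l0 : ℝ) / 2 - k) * u) ∧ dist (P k) B ≤ t * (((l0 : ℝ) / 2 + k) * u) ∧
        dist A (Q k) ≤ t * (((l0 : ℝ) / 2 + k) * u) ∧ dist (Q k) B ≤ t * (((l0 : ℝ) / 2 - k) * u)) →
      ∃ j k : ℕ, 1 ≤ j ∧ j < k ∧ k ≤ N ∧
        ∀ v Pj Qj Pk Qk Mj Mk : EuclideanSpace ℝ (Fin d),
          dist Pj (P j + v) ≤ u / l0 → dist Qj (Q j + v) ≤ u / l0 →
          dist Pk (P k + v) ≤ u / l0 → dist Qk (Q k + v) ≤ u / l0 →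
          dist Pj Mj ≤ t * (j * u) → dist Mj Qj ≤ t * (j * u) →
          dist Pk Mk ≤ t * (k * u) → dist Mk Qk ≤ t * (k * u) → dist Mj Mk ≤ u / 40 := by
  obtain ⟨N, hN, hp⟩ := pigeon d (S + 1) (1 / 200) (by norm_num)
  have hN' : (2 : ℝ) ≤ N := by exact_mod_cast hN
  obtain ⟨l0, hl0⟩ : ∃ l0 : ℕ, 160000 * (S + 1) * N ≤ l0 := exists_nat_ge _
  have hl1 : 160000 * (N : ℝ) ≤ l0 := by nlinarith
  have hl2 : (200 : ℝ) ≤ l0 := by linarith
  refine ⟨N, l0, hN, by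
    have : (10 * N : ℝ) ≤ l0 := by linarith
    exact_mod_cast this, ?_⟩
  intro u hu s t hs hsS ht A B P Q hAB h
  have l0p : (0 : ℝ) < l0 := by linarith
  set η : ℝ := 1 / (l0 : ℝ) ^ 2 with hη
  have η0 : 0 < η := by positivity
  have η1 : η * (l0 : ℝ) ^ 2 = 1 := by rw [hη]; field_simp
  have η2 : η ≤ 1 := by
    rw [hη, div_le_one (by positivity)]; nlinarith
  have η3 : η * l0 = 1 / l0 := by rw [hη]; field_simp
  have hts : t ^ 2 - s ^ 2 ≤ η * (2 * S + 1) := by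
    rw [ht]; nlinarith
  -- centres
  set C : EuclideanSpace ℝ (Fin d) := (1 / 2 : ℝ) • A + (1 / 2 : ℝ) • B with hC
  set c : ℕ → EuclideanSpace ℝ (Fin d) := fun k => (1 / 2 : ℝ) • P k + (1 / 2 : ℝ) • Q k with hc
  have key : ∀ a b : ℝ, 0 ≤ a → 0 ≤ b → a + b = l0 * u → ∀ X, dist A X ≤ t * a → dist X B ≤ t * b →
      dist X ((1 - a / (l0 * u)) • A + (a / (l0 * u)) • B) ≤ (S + 1) * u := by
    intro a b ha hb hab X h1 h2
    have := lens A B X ha hb (by rw [hab]; positivity) hs (by rw [hab]; exact hAB) h1 h2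
    rw [hab] at this
    refine (pow_le_pow_iff_left₀ dist_nonneg (by positivity) two_ne_zero).1 ?_
    refine this.trans ?_
    have b1 : a * b ≤ (l0 * u) ^ 2 := by rw [← hab]; nlinarith
    have b2 : 0 ≤ a * b := mul_nonneg ha hb
    calc a * b * (t ^ 2 - s ^ 2) ≤ a * b * (η * (2 * S + 1)) := mul_le_mul_of_nonneg_left hts b2
      _ ≤ (l0 * u) ^ 2 * (η * (2 * S + 1)) := mul_le_mul_of_nonneg_right b1 (by positivity)
      _ = (η * (l0 : ℝ) ^ 2) * (u ^ 2 * (2 * S + 1)) := by ring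
      _ = u ^ 2 * (2 * S + 1) := by rw [η1, one_mul]
      _ ≤ ((S + 1) * u) ^ 2 := by nlinarith [sq_nonneg (S * u)]
  have hcC : ∀ k : ℕ, 1 ≤ k → k ≤ N → dist (c k) C ≤ (S + 1) * u := by
    intro k k1 k2
    have k3 : (k : ℝ) ≤ N := by exact_mod_cast k2
    have k0 : (0 : ℝ) ≤ k := Nat.cast_nonneg k
    obtain ⟨h1, h2, h3, h4⟩ := h k k1 k2
    have a0 : 0 ≤ ((l0 : ℝ) / 2 - k) * u := mul_nonneg (by linarith) hu.le
    have b0 : 0 ≤ ((l0 : ℝ) / 2 + k) * u := mul_nonneg (by linarith) hu.le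
    have e1 := key _ _ a0 b0 (by ring) _ h1 h2
    have e2 := key _ _ b0 a0 (by ring) _ h3 h4
    have e3 := dist_mid_le _ _ _ _ e1 e2
    have e4 : (1 / 2 : ℝ) • ((1 - ((l0 : ℝ) / 2 - k) * u / (l0 * u)) • A +
        (((l0 : ℝ) / 2 - k) * u / (l0 * u)) • B) + (1 / 2 : ℝ) •
        ((1 - ((l0 : ℝ) / 2 + k) * u / (l0 * u)) • A + (((l0 : ℝ) / 2 + k) * u / (l0 * u)) • B)
        = C := by
      have f1 : ((l0 : ℝ) / 2 - k) * u / (l0 * u) = 1 / 2 - k / l0 := by field_simp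
      have f2 : ((l0 : ℝ) / 2 + k) * u / (l0 * u) = 1 / 2 + k / l0 := by field_simp
      rw [f1, f2, hC]; module
    rw [e4] at e3
    exact e3
  obtain ⟨j, k, j1, jk, kN, hjk⟩ := hp (fun k => u⁻¹ • (c k - C)) (fun k k1 k2 => by
    rw [norm_smul, norm_inv, Real.norm_of_nonneg hu.le, ← dist_eq_norm, inv_mul_le_iff₀ hu,
      mul_comm]
    exact hcC k k1 k2)
  have hjk' : dist (c j) (c k) ≤ u / 200 := by
    simp only [dist_smul₀, dist_sub_right, norm_inv, Real.norm_of_nonneg hu.le] at hjk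
    rw [inv_mul_le_iff₀ hu] at hjk
    linarith
  have second : ∀ k : ℕ, 1 ≤ k → k ≤ N → ∀ v P' Q' M : EuclideanSpace ℝ (Fin d),
      dist P' (P k + v) ≤ u / l0 → dist Q' (Q k + v) ≤ u / l0 → dist P' M ≤ t * (k * u) →
      dist M Q' ≤ t * (k * u) → dist M (c k + v) ≤ u / 100 := by
    intro k k1 k2 v P' Q' M g1 g2 g3 g4
    have k3 : (k : ℝ) ≤ N := by exact_mod_cast k2
    have k0 : (0 : ℝ) ≤ k := Nat.cast_nonneg k
    obtain ⟨h1, -, -, h4⟩ := h k k1 k2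
    have t1 : dist A B ≤ dist A (P k) + dist (P k) (Q k) + dist (Q k) B := dist_triangle4 _ _ _ _
    have t2 : dist (P k + v) (Q k + v) ≤ dist (P k + v) P' + dist P' Q' + dist Q' (Q k + v) :=
      dist_triangle4 _ _ _ _
    rw [dist_add_right, dist_comm (P k + v)] at t2
    have w0 : η * (l0 * u) = u / l0 := by rw [← mul_assoc, η3]; ring
    have ul : 0 < u / l0 := by positivity
    have t3 : 2 * (t * (k * u) - 2 * (u / l0)) ≤ dist P' Q' := by
      have : t * (((l0 : ℝ) / 2 - k) * u) = s * (l0 * u) / 2 + η * (l0 * u) / 2 - t * (k * u) := by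
        rw [ht]; ring
      linarith
    have m1 := mid_close P' Q' M g3 g4 t3
    have m2 : dist M ((1 / 2 : ℝ) • P' + (1 / 2 : ℝ) • Q') ≤ u / 200 := by
      refine (pow_le_pow_iff_left₀ dist_nonneg (by positivity) two_ne_zero).1 (m1.trans ?_)
      have x1 : t * (k * u) ≤ (S + 1) * (N * u) :=
        mul_le_mul (by linarith) (mul_le_mul_of_nonneg_right k3 hu.le) (by positivity)
          (by linarith)
      have x2 : 2 * (2 * (u / l0)) * (t * (k * u)) ≤ 2 * (2 * (u / l0)) * ((S + 1) * (N * u)) :=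
        mul_le_mul_of_nonneg_left x1 (by positivity)
      refine x2.trans ?_
      have x3 : 2 * (2 * (u / l0)) * ((S + 1) * (N * u)) = (4 * (S + 1) * N / l0) * u ^ 2 := by
        ring
      have x4 : 4 * (S + 1) * N / l0 ≤ 1 / 40000 := by
        rw [div_le_iff₀ l0p]; linarith
      rw [x3]
      nlinarith [mul_le_mul_of_nonneg_right x4 (sq_nonneg u)]
    have m3 := dist_mid_le _ _ _ _ g1 g2
    have m4 : (1 / 2 : ℝ) • (P k + v) + (1 / 2 : ℝ) • (Q k + v) = c k + v := by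
      simp only [hc]; module
    rw [m4] at m3
    have m5 : u / l0 ≤ u / 200 := div_le_div_of_nonneg_left hu.le (by norm_num) hl2
    have := dist_triangle M ((1 / 2 : ℝ) • P' + (1 / 2 : ℝ) • Q') (c k + v)
    linarith
  refine ⟨j, k, j1, jk, kN, fun v Pj Qj Pk Qk Mj Mk g1 g2 g3 g4 g5 g6 g7 g8 => ?_⟩
  have r1 := second j j1 (by omega) v Pj Qj Mj g1 g2 g5 g6
  have r2 := second k (by omega) kN v Pk Qk Mk g3 g4 g7 g8
  have r3 : dist Mj Mk ≤ dist Mj (c j + v) + dist (c j + v) (c k + v) + dist (c k + v) Mk :=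
    dist_triangle4 _ _ _ _
  rw [dist_add_right, dist_comm (c k + v)] at r3
  linarith

end Crest.Agent.R254
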