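import Crest.Agent.R254.GDefs
import Crest.Agent.R254.Round

/-! Row 254: `RoundProp` from helper19's `round`. -/

set_option autoImplicit false
noncomputable section
namespace Crest.Agent.R254.G

theorem roundp : RoundProp := by
  intro d S hS
  obtain ⟨N, l0, h1, h2, h⟩ := round d S hS
  refine ⟨N, l0, h1, h2, fun u s A B P Q hu hs hsS hAB hk => ?_⟩
  obtain ⟨j, k, a1, a2, a3, a4⟩ := h u hu s _ hs hsS rfl A B P Q hAB hk
  refine ⟨j, k, a1, a2, a3, fun Pj Qj Pk Qk Mj Mk b1 b2 b3 b4 => ?_⟩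
  exact a4 0 Pj Qj Pk Qk Mj Mk (by rwa [add_zero]) (by rwa [add_zero]) (by rwa [add_zero])
    (by rwa [add_zero])

end Crest.Agent.R254.G
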