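import Crest.Agent.R254.GDefs

/-! Row 254, task SEP. -/

set_option autoImplicit false
noncomputable section
namespace Crest.Agent.R254.G

open Crest.Agent.R254.S
open scoped Classical

variable {Y : Type*} [NormedAddCommGroup Y] [NormedSpace ℝ Y] {n : ℕ}

theorem sep_mem_Rd (F : Fr Y n) {N l0 r j k : ℕ} (hp : Par n N l0 r j k) (a b x : Y)
    (hx : x ∈ Rd F N l0 r a b j k) :
    ∃ (i : ℕ) (m : ℤ), 1 ≤ i ∧ i ≤ N ∧ |m| ≤ (N : ℤ) ∧ x = pt F N l0 r a b (m : ℝ) i := by
  have hj := hp.hj; have hjk := hp.hjk; have hk := hp.hk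
  simp only [Rd, AB, Finset.mem_union, Finset.mem_image, Finset.mem_Icc, Finset.mem_insert,
    Finset.mem_singleton] at hx
  rcases hx with (⟨i, ⟨h1, h2⟩, rfl⟩ | ⟨i, ⟨h1, h2⟩, rfl⟩) | rfl | rfl
  · refine ⟨i, -(i : ℤ), h1, h2, ?_, by push_cast; rfl⟩
    rw [abs_neg, abs_of_nonneg (by positivity)]; exact_mod_cast h2
  · refine ⟨i, (i : ℤ), h1, h2, ?_, by push_cast; rfl⟩
    rw [abs_of_nonneg (by positivity)]; exact_mod_cast h2
  · exact ⟨j, 0, hj, by omega, by simp, by push_cast; rfl⟩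
  · exact ⟨k, 0, by omega, hk, by simp, by push_cast; rfl⟩

theorem sep_psi_pt (F : Fr Y n) {N l0 r : ℕ} {P : Finset Y} {a b : Y} (hI : Inv F N l0 r P a b)
    (x : ℝ) (i m : ℕ) (hm : r * N < m) (hmn : m < n) :
    F.ψ m (pt F N l0 r a b x i) = len F a b / l0 * F.ψ m (F.v (r * N + i)) := by
  have h1 := hI.fresh a hI.ha m hm hmn
  have h2 := hI.fresh b hI.hb m hm hmn
  simp only [pt, map_add, map_smul, map_sub, h1, h2, smul_eq_mul]
  ring

theorem sep_psi_bound (F : Fr Y n) (m : ℕ) (x z : Y) (u : ℝ) (hu : 0 ≤ u)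
    (h : F.ψ m x - F.ψ m z = u) : u / 20 ≤ dist x z := by
  have h1 := F.nψ m (x - z)
  rw [map_sub, h, abs_of_nonneg hu] at h1
  rw [dist_eq_norm]; linarith

theorem sep_diff_idx (F : Fr Y n) {N l0 r : ℕ} {P : Finset Y} {a b : Y} (hI : Inv F N l0 r P a b)
    (hn : r * N + N < n) (x y : ℝ) (i i' : ℕ) (hi : 1 ≤ i) (hiN : i ≤ N) (hlt : i' < i) :
    len F a b / l0 / 20 ≤ dist (pt F N l0 r a b x i) (pt F N l0 r a b y i') := by
  have hu : 0 ≤ len F a b / l0 := div_nonneg hI.hl.le (Nat.cast_nonneg _)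
  apply sep_psi_bound F (r * N + i) _ _ _ hu
  rw [sep_psi_pt F hI x i _ (by omega) (by omega), sep_psi_pt F hI y i' _ (by omega) (by omega),
    F.ψv _ (by omega), F.ψv' (r * N + i) (r * N + i') (by omega) (by omega)]
  ring

theorem sepp (Y : Type*) [NormedAddCommGroup Y] [NormedSpace ℝ Y] : SepProp Y := by
  intro n F N l0 r j k P a b hp hI
  have hN := hp.hN; have hl0 := hp.hl0; have hn := hp.hn
  have hj := hp.hj; have hjk := hp.hjk; have hk := hp.hk
  have hl0p : (0 : ℝ) < l0 := by exact_mod_cast (by omega : 0 < l0)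
  have hu : 0 ≤ len F a b / l0 := div_nonneg hI.hl.le hl0p.le
  refine ⟨?_, ?_, ?_⟩
  · intro x hx
    obtain ⟨i, m, h1, h2, hm, rfl⟩ := sep_mem_Rd F hp a b x hx
    have hm' : |(m : ℝ)| ≤ N := by exact_mod_cast hm
    have hl0' : (10 : ℝ) * N ≤ l0 := by exact_mod_cast hl0
    obtain ⟨hm1, hm2⟩ := abs_le.1 hm'
    have hq1 : -(1 / 2 : ℝ) ≤ (m : ℝ) / l0 := by
      rw [le_div_iff₀ hl0p]; linarith [Nat.cast_nonneg (α := ℝ) N]
    have hq2 : (m : ℝ) / l0 ≤ 1 / 2 := by
      rw [div_le_iff₀ hl0p]; linarith [Nat.cast_nonneg (α := ℝ) N]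
    refine ⟨a + (1 / 2 + (m : ℝ) / l0) • (b - a), ?_, ?_⟩
    · rw [segment_eq_image']
      exact ⟨1 / 2 + (m : ℝ) / l0, ⟨by linarith, by linarith⟩, rfl⟩
    · rw [pt, dist_eq_norm, add_sub_cancel_left, norm_smul, Real.norm_eq_abs, abs_of_nonneg hu]
      have := F.nv1 (r * N + i) (by omega)
      nlinarith
  · intro x hx z hz hne
    obtain ⟨i, m, h1, h2, hm, rfl⟩ := sep_mem_Rd F hp a b x hx
    rcases Finset.mem_union.1 hz with hz | hz
    · apply sep_psi_bound F (r * N + i) _ _ _ hu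
      rw [sep_psi_pt F hI _ i _ (by omega) (by omega), hI.fresh z hz _ (by omega) (by omega),
        F.ψv _ (by omega)]
      ring
    · obtain ⟨i', m', h1', h2', hm', rfl⟩ := sep_mem_Rd F hp a b z hz
      rcases lt_trichotomy i' i with h | h | h
      · exact sep_diff_idx F hI hn _ _ i i' h1 h2 h
      · subst h
        have hmm : m ≠ m' := by
          rintro rfl
          exact hne rfl
        have h3 : (1 : ℝ) ≤ |(m : ℝ) - m'| := by
          have : (1 : ℤ) ≤ |m - m'| := Int.one_le_abs (sub_ne_zero.2 hmm)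
          exact_mod_cast this
        have h4 := F.nχ (pt F N l0 r a b (m : ℝ) i' - pt F N l0 r a b (m' : ℝ) i')
        have h5 : F.χ (pt F N l0 r a b (m : ℝ) i' - pt F N l0 r a b (m' : ℝ) i') =
            ((m : ℝ) - m') * (len F a b / l0) := by
          have hc : F.χ b - F.χ a = len F a b := by simp [len]
          simp only [pt, map_sub, map_add, map_smul, smul_eq_mul, hc]
          ring
        rw [h5, abs_mul, abs_of_nonneg hu] at h4
        rw [dist_eq_norm]
        nlinarith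
      · rw [dist_comm]
        exact sep_diff_idx F hI hn _ _ i' i h1' h2' h
  · rw [← dist_eq_norm, dist_comm]
    exact sep_diff_idx F hI hn _ _ k j (by omega) hk hjk

end Crest.Agent.R254.G
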