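import Crest.Agent.R254.GDefs

/-! Row 254, task STEP: one round of the game is three `Win.step`s. -/

set_option autoImplicit false
noncomputable section
namespace Crest.Agent.R254.G

open Crest.Agent.R254.S
open scoped Classical

variable {Y : Type*} [NormedAddCommGroup Y] [NormedSpace ℝ Y] {d : ℕ}

theorem win_stepF {ι : Type*} {L : ℝ} {Good : Finset Y → Prop} (I : Finset ι) (hI : I.Nonempty)
    (H : Finset Y) (Φ : (Y → Eu d) → Prop) (Hc : ι → Finset Y) (Φc : ι → (Y → Eu d) → Prop)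
    (ε : ℝ) (hε : 0 < ε) (hsub : ∀ c ∈ I, H ⊆ Hc c) (hW : ∀ c ∈ I, Win L Good (Hc c) (Φc c))
    (h : ∀ G, Φ G → BL L G H → ∃ c ∈ I, ∀ G' : Y → Eu d, (∀ y ∈ H, ‖G' y - G y‖ ≤ ε) →
      BL L G' (Hc c) → Φc c G') : Win L Good H Φ := by
  obtain ⟨n, hn⟩ : ∃ n, I.card = n + 1 := ⟨I.card - 1, by have := hI.card_pos; omega⟩
  let e := I.equivFinOfCardEq hn
  refine Win.step H Φ n (fun c => Hc (e.symm c)) (fun c => Φc (e.symm c)) ε hε
    (fun c => hsub _ (e.symm c).2) (fun c => hW _ (e.symm c).2) fun G h1 h2 => ?_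
  obtain ⟨c, hc, h3⟩ := h G h1 h2
  exact ⟨e ⟨c, hc⟩, by simpa using h3⟩

theorem dist_perturb {G G' : Y → Eu d} {x y : Y} {ε : ℝ} (hx : ‖G' x - G x‖ ≤ ε)
    (hy : ‖G' y - G y‖ ≤ ε) : dist (G x) (G y) - 2 * ε ≤ dist (G' x) (G' y) := by
  have a := dist_triangle4 (G x) (G' x) (G' y) (G y)
  rw [← dist_eq_norm] at hx hy
  rw [dist_comm] at hx
  linarith

theorem stepp (Y : Type*) [NormedAddCommGroup Y] [NormedSpace ℝ Y] (hLen : LenProp Y)
    (hCand : CandProp Y) (hSep : SepProp Y) : StepProp Y := by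
  intro n d F N l0 r P a b L S s Good hN hl0 hn hR hI hs hS hW
  have hl0n : 0 < l0 := by omega
  have hl0' : (20 : ℝ) ≤ l0 := by exact_mod_cast (by omega : 20 ≤ l0)
  obtain ⟨u, hu⟩ : ∃ u : ℝ, u = len F a b / l0 := ⟨_, rfl⟩
  obtain ⟨η, hη⟩ : ∃ η : ℝ, η = 1 / (l0 : ℝ) ^ 2 := ⟨_, rfl⟩
  have hl := hI.hl
  have hu0 : 0 < u := by rw [hu]; positivity
  have hη0 : 0 < η := by rw [hη]; positivity
  have hlu : len F a b = l0 * u := by rw [hu]; field_simp
  have hη1 : η ≤ 1 / l0 := by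
    rw [hη]; exact one_div_le_one_div_of_le (by positivity) (by nlinarith)
  have hη2 : η ≤ 1 := hη1.trans (by rw [div_le_one (by positivity)]; linarith)
  have hη3 : 1 / (2 * (l0 : ℝ) ^ 2) = η / 2 := by rw [hη]; field_simp
  rw [hη3] at hW
  have hul : u ≤ len F a b := by rw [hlu]; nlinarith
  -- third move
  have W3 : ∀ j k, 1 ≤ j → j < k → k ≤ N → Win (d := d) L Good (P ∪ Rd F N l0 r a b j k)
      (fun G => ∃ c ∈ cand F N l0 r a b j k, Str F c.1 c.2 (s + 3 * η / 4) G) := by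
    intro j k hj hjk hk
    have par : Par n N l0 r j k := ⟨hN, hl0, hn, hj, hjk, hk⟩
    refine win_stepF (cand F N l0 r a b j k) ?_ _ _ (fun _ => P ∪ Rd F N l0 r a b j k)
      (fun c => Str F c.1 c.2 (s + η / 2)) (η * u / 16) (by positivity) (fun _ _ => subset_rfl)
      (hW j k hj hjk hk) ?_
    · refine ⟨(pt F N l0 r a b (-(j : ℝ)) j, pt F N l0 r a b 0 j), ?_⟩
      unfold cand
      refine Finset.mem_union_right _ (Finset.mem_biUnion.2 ⟨j, by simp, by simp⟩)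
    · rintro G ⟨c, hc, hG⟩ -
      refine ⟨c, hc, fun G' hG' _ => ?_⟩
      obtain ⟨c1, c2, c3, -⟩ := hCand n F N l0 r j k P a b par hI c hc
      have := dist_perturb (hG' _ c1) (hG' _ c2)
      rw [← hu] at c3
      unfold Str at hG ⊢
      nlinarith [mul_le_mul_of_nonneg_left c3 hη0.le]
  have mA : ∀ i, 1 ≤ i → i ≤ N → pt F N l0 r a b (-(i : ℝ)) i ∈ P ∪ AB F N l0 r a b :=
    fun i h1 h2 => Finset.mem_union_right _ (Finset.mem_union_left _
      (Finset.mem_image.2 ⟨i, Finset.mem_Icc.2 ⟨h1, h2⟩, rfl⟩))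
  have mB : ∀ i, 1 ≤ i → i ≤ N → pt F N l0 r a b (i : ℝ) i ∈ P ∪ AB F N l0 r a b :=
    fun i h1 h2 => Finset.mem_union_right _ (Finset.mem_union_right _
      (Finset.mem_image.2 ⟨i, Finset.mem_Icc.2 ⟨h1, h2⟩, rfl⟩))
  have ma : a ∈ P ∪ AB F N l0 r a b := Finset.mem_union_left _ hI.ha
  have mb : b ∈ P ∪ AB F N l0 r a b := Finset.mem_union_left _ hI.hb
  -- second move
  have W2 : Win (d := d) L Good (P ∪ AB F N l0 r a b) (Str F a b (s - η / 8)) := by
    refine win_stepF (((Finset.Icc 1 N) ×ˢ (Finset.Icc 1 N)).filter fun p => p.1 < p.2) ?_ _ _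
      (fun p => P ∪ Rd F N l0 r a b p.1 p.2)
      (fun p G => ∃ c ∈ cand F N l0 r a b p.1 p.2, Str F c.1 c.2 (s + 3 * η / 4) G)
      (η * u / 16) (by positivity)
      (fun p _ => Finset.union_subset_union_right Finset.subset_union_left) (fun p hp => ?_) ?_
    · exact ⟨(1, 2), by simp; omega⟩
    · simp only [Finset.mem_filter, Finset.mem_product, Finset.mem_Icc] at hp
      exact W3 _ _ hp.1.1.1 hp.2 hp.1.2.2
    intro G hG _
    have long : ∀ c : Y × Y, c.1 ∈ P ∪ AB F N l0 r a b → c.2 ∈ P ∪ AB F N l0 r a b →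
        c ∈ cand F N l0 r a b 1 2 → (s - η / 8 + η) * len F c.1 c.2 < dist (G c.1) (G c.2) →
        ∃ p ∈ ((Finset.Icc 1 N) ×ˢ (Finset.Icc 1 N)).filter (fun p : ℕ × ℕ => p.1 < p.2),
          ∀ G' : Y → Eu d, (∀ y ∈ P ∪ AB F N l0 r a b, ‖G' y - G y‖ ≤ η * u / 16) →
          BL L G' (P ∪ Rd F N l0 r a b p.1 p.2) →
          ∃ c ∈ cand F N l0 r a b p.1 p.2, Str F c.1 c.2 (s + 3 * η / 4) G' := by
      intro c c1 c2 hc hd
      refine ⟨(1, 2), by simp; omega, fun G' hG' _ => ⟨c, hc, ?_⟩⟩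
      obtain ⟨-, -, c3, -⟩ := hCand n F N l0 r 1 2 P a b ⟨hN, hl0, hn, le_rfl, by norm_num, hN⟩
        hI c hc
      have := dist_perturb (hG' _ c1) (hG' _ c2)
      rw [← hu] at c3
      unfold Str
      nlinarith [mul_le_mul_of_nonneg_left c3 hη0.le]
    have mc : ∀ i, 1 ≤ i → i ≤ N → ∀ c : Y × Y,
        c ∈ ({(a, pt F N l0 r a b (-(i : ℝ)) i), (pt F N l0 r a b (-(i : ℝ)) i, b),
          (a, pt F N l0 r a b (i : ℝ) i), (pt F N l0 r a b (i : ℝ) i, b)} : Finset (Y × Y)) →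
        c ∈ cand F N l0 r a b 1 2 := fun i h1 h2 c hc =>
      Finset.mem_union_left _ (Finset.mem_biUnion.2 ⟨i, Finset.mem_Icc.2 ⟨h1, h2⟩, hc⟩)
    by_contra hcon
    have tight : ∀ c : Y × Y, c.1 ∈ P ∪ AB F N l0 r a b → c.2 ∈ P ∪ AB F N l0 r a b →
        c ∈ cand F N l0 r a b 1 2 → dist (G c.1) (G c.2) ≤ (s - η / 8 + η) * len F c.1 c.2 :=
      fun c c1 c2 hc => not_lt.1 fun hd => hcon (long c c1 c2 hc hd)
    have hG0 : (s - η / 8) * (l0 * u) ≤ dist (G a) (G b) := by rw [← hlu]; exact hG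
    obtain ⟨j, k, hj, hjk, hk, hjk'⟩ := hR u (s - η / 8) (G a) (G b)
      (fun i => G (pt F N l0 r a b (-(i : ℝ)) i)) (fun i => G (pt F N l0 r a b (i : ℝ) i)) hu0
      (by linarith) (by linarith) hG0 (fun i h1 h2 => by
        obtain ⟨e1, e2, -⟩ := hLen n F N l0 r a b (-(i : ℝ)) 0 i hl0n (by omega)
        obtain ⟨e3, e4, -⟩ := hLen n F N l0 r a b (i : ℝ) 0 i hl0n (by omega)
        have t1 := tight (a, pt F N l0 r a b (-(i : ℝ)) i) ma (mA i h1 h2)
          (mc i h1 h2 _ (by simp))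
        have t2 := tight (pt F N l0 r a b (-(i : ℝ)) i, b) (mA i h1 h2) mb
          (mc i h1 h2 _ (by simp))
        have t3 := tight (a, pt F N l0 r a b (i : ℝ) i) ma (mB i h1 h2)
          (mc i h1 h2 _ (by simp))
        have t4 := tight (pt F N l0 r a b (i : ℝ) i, b) (mB i h1 h2) mb
          (mc i h1 h2 _ (by simp))
        simp only [e1, e2, e3, e4, ← hu] at t1 t2 t3 t4
        rw [← hη]
        refine ⟨by simpa [sub_eq_add_neg] using t1, by simpa using t2, t3, t4⟩)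
    refine hcon ⟨(j, k), by simp; omega, fun G' hG' hBL => ?_⟩
    by_contra hno
    push Not at hno
    have par : Par n N l0 r j k := ⟨hN, hl0, hn, hj, hjk, hk⟩
    have hε : η * u / 16 ≤ u / l0 := by
      have := mul_le_mul_of_nonneg_right hη1 hu0.le
      rw [one_div_mul_eq_div] at this
      have : 0 < η * u := by positivity
      linarith
    have cl : ∀ y ∈ P ∪ AB F N l0 r a b, dist (G' y) (G y) ≤ u / l0 := fun y hy => by
      rw [dist_eq_norm]; exact (hG' y hy).trans hε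
    have mid : ∀ i, (i = j ∨ i = k) →
        dist (G' (pt F N l0 r a b (-(i : ℝ)) i)) (G' (pt F N l0 r a b 0 i)) ≤
          (s - η / 8 + 1 / (l0 : ℝ) ^ 2) * (i * u) ∧
        dist (G' (pt F N l0 r a b 0 i)) (G' (pt F N l0 r a b (i : ℝ) i)) ≤
          (s - η / 8 + 1 / (l0 : ℝ) ^ 2) * (i * u) := by
      intro i hi
      have hiN : i ≤ N := by omega
      obtain ⟨-, -, e1⟩ := hLen n F N l0 r a b (-(i : ℝ)) 0 i hl0n (by omega)
      obtain ⟨-, -, e2⟩ := hLen n F N l0 r a b 0 (i : ℝ) i hl0n (by omega)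
      have n1 := hno (pt F N l0 r a b (-(i : ℝ)) i, pt F N l0 r a b 0 i)
        (Finset.mem_union_right _ (Finset.mem_biUnion.2 ⟨i, by simpa using hi, by simp⟩))
      have n2 := hno (pt F N l0 r a b 0 i, pt F N l0 r a b (i : ℝ) i)
        (Finset.mem_union_right _ (Finset.mem_biUnion.2 ⟨i, by simpa using hi, by simp⟩))
      unfold Str at n1 n2
      simp only [e1, e2, ← hu, sub_neg_eq_add, zero_add, sub_zero, not_le] at n1 n2
      rw [← hη]
      have : 0 ≤ η * ((i : ℝ) * u) := by positivity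
      constructor <;> nlinarith
    have fin := hjk' _ _ _ _ _ _ (cl _ (mA j hj (by omega))) (cl _ (mB j hj (by omega)))
      (cl _ (mA k (by omega) hk)) (cl _ (mB k (by omega) hk)) (mid j (Or.inl rfl)).1
      (mid j (Or.inl rfl)).2 (mid k (Or.inr rfl)).1 (mid k (Or.inr rfl)).2
    have sep := (hSep n F N l0 r j k P a b par hI).2.2
    have low := (hBL (pt F N l0 r a b 0 j) (by simp [Rd]) (pt F N l0 r a b 0 k) (by simp [Rd])).1
    rw [← hu] at sep
    rw [dist_eq_norm] at fin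
    linarith
  -- first move
  refine win_stepF (Finset.univ : Finset Unit) Finset.univ_nonempty _ _
    (fun _ => P ∪ AB F N l0 r a b) (fun _ => Str F a b (s - η / 8)) (η * u / 16) (by positivity)
    (fun _ _ => Finset.subset_union_left) (fun _ _ => W2) fun G hG _ =>
      ⟨(), Finset.mem_univ _, fun G' hG' _ => ?_⟩
  have := dist_perturb (hG' _ hI.ha) (hG' _ hI.hb)
  unfold Str at hG ⊢
  nlinarith [mul_le_mul_of_nonneg_left hul hη0.le]

end Crest.Agent.R254.G
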