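import Crest.Agent.R254.GDefs

/-! Row 254: task STOP of the game. -/

set_option autoImplicit false
noncomputable section
namespace Crest.Agent.R254.G

open Crest.Agent.R254.S

theorem stopp (Y : Type*) [NormedAddCommGroup Y] [NormedSpace ℝ Y] : StopProp Y := by
  intro n d F N l0 M P a b L s hl0 hL hLM hn hI hs G hS hB
  obtain ⟨θ, h1, h2⟩ := hI.tilt
  have hl := hI.hl
  have hM : (1 : ℝ) ≤ M := hL.trans hLM
  have hl0' : (0 : ℝ) < l0 := by exact_mod_cast hl0
  have h3 := F.nv (100 * M ^ 2 * l0 ^ 2 * N + 1) θ hn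
  have h4 : 7 * ((100 * M ^ 2 * l0 ^ 2 : ℕ) : ℝ) / (l0 : ℝ) ^ 2 = 700 * (M : ℝ) ^ 2 := by
    push_cast; field_simp; ring
  rw [h4] at h2
  set w := ∑ i ∈ Finset.range (100 * M ^ 2 * l0 ^ 2 * N + 1), θ i • F.v i with hw
  have h5 : ‖w‖ ≤ 27 * M := by
    refine abs_le_of_sq_le_sq' ?_ (by positivity) |>.2
    nlinarith
  have h6 : ‖b - a‖ ≤ len F a b * (1 + 27 * M) := by
    rw [h1, norm_smul, Real.norm_of_nonneg hl.le]
    refine mul_le_mul_of_nonneg_left ((norm_add_le _ _).trans ?_) hl.le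
    linarith [F.ne]
  have h7 := (hB b hI.hb a hI.ha).2
  unfold Str at hS
  rw [dist_comm, dist_eq_norm] at hS
  have h8 : L * ‖b - a‖ ≤ M * (len F a b * (1 + 27 * M)) :=
    mul_le_mul hLM h6 (norm_nonneg _) (by positivity)
  have h9 : 50 * (M : ℝ) ^ 2 * len F a b ≤ s * len F a b := mul_le_mul_of_nonneg_right hs hl.le
  have h10 : 0 < len F a b * ((M : ℝ) * (23 * M - 1)) :=
    mul_pos hl (mul_pos (by linarith) (by linarith))
  nlinarith

end Crest.Agent.R254.G
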