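import Crest.Agent.R254.SDefs

/-! Row 254: the most general form of the online game (translations allowed, `Good` at every node). -/

set_option autoImplicit false
noncomputable section
namespace Crest.Agent.R254.G

open Crest.Agent.R254.S (Eu BL)

variable {Y : Type*} [NormedAddCommGroup Y] [NormedSpace ℝ Y] {d : ℕ}

/-- the adversary wins from history `H` against all answers satisfying `Φ` -/
inductive GWin (L : ℝ) (Good : Finset Y → Prop) : Finset Y → ((Y → Eu d) → Prop) → Prop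
  | stop (H : Finset Y) (Φ : (Y → Eu d) → Prop) (hG : Good H)
      (h : ∀ G, Φ G → ¬ BL L G H) : GWin L Good H Φ
  | step (H : Finset Y) (Φ : (Y → Eu d) → Prop) (n : ℕ) (Hc : Fin (n + 1) → Finset Y)
      (Φc : Fin (n + 1) → (Y → Eu d) → Prop) (ε : ℝ) (hG : Good H) (hε : 0 < ε)
      (hsub : ∀ c, H ⊆ Hc c) (hW : ∀ c, GWin L Good (Hc c) (Φc c))
      (h : ∀ G, Φ G → BL L G H → ∃ c, ∀ (G' : Y → Eu d) (v : Eu d),
        (∀ y ∈ H, ‖G' y - G y - v‖ ≤ ε) → BL L G' (Hc c) → Φc c G') : GWin L Good H Φ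

theorem GWin.good {L : ℝ} {Good : Finset Y → Prop} {H : Finset Y} {Φ : (Y → Eu d) → Prop}
    (h : GWin L Good H Φ) : Good H := by
  cases h <;> assumption

theorem GWin.mono {L : ℝ} {Good Good' : Finset Y → Prop} (hg : ∀ H, Good H → Good' H)
    {H : Finset Y} {Φ : (Y → Eu d) → Prop} (h : GWin L Good H Φ) : GWin L Good' H Φ := by
  induction h with
  | stop H Φ hG h => exact .stop H Φ (hg _ hG) h
  | step H Φ n Hc Φc ε hG hε hsub _ h ih => exact .step H Φ n Hc Φc ε (hg _ hG) hε hsub ih h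

theorem GWin.anti {L : ℝ} {Good : Finset Y → Prop} {H : Finset Y} {Φ Φ' : (Y → Eu d) → Prop}
    (h : GWin L Good H Φ) (hΦ : ∀ G, Φ' G → BL L G H → Φ G) : GWin L Good H Φ' := by
  cases h with
  | stop H Φ hG h => exact .stop H Φ' hG fun G h1 h2 => h G (hΦ G h1 h2) h2
  | step H Φ n Hc Φc ε hG hε hsub hW h =>
    exact .step H Φ' n Hc Φc ε hG hε hsub hW fun G h1 h2 => h G (hΦ G h1 h2) h2

/-- `step` with an arbitrary finite nonempty index type -/
theorem GWin.step' {L : ℝ} {Good : Finset Y → Prop} {H : Finset Y} {Φ : (Y → Eu d) → Prop}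
    {ι : Type} [Finite ι] [Nonempty ι] (Hc : ι → Finset Y) (Φc : ι → (Y → Eu d) → Prop) (ε : ℝ)
    (hG : Good H) (hε : 0 < ε) (hsub : ∀ c, H ⊆ Hc c) (hW : ∀ c, GWin L Good (Hc c) (Φc c))
    (h : ∀ G, Φ G → BL L G H → ∃ c, ∀ (G' : Y → Eu d) (v : Eu d),
      (∀ y ∈ H, ‖G' y - G y - v‖ ≤ ε) → BL L G' (Hc c) → Φc c G') : GWin L Good H Φ := by
  obtain ⟨n, ⟨e⟩⟩ := Finite.exists_equiv_fin ι
  cases n with
  | zero => exact (e (Classical.arbitrary ι)).elim0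
  | succ n =>
    refine .step H Φ n (fun c => Hc (e.symm c)) (fun c => Φc (e.symm c)) ε hG hε
      (fun c => hsub _) (fun c => hW _) fun G h1 h2 => ?_
    obtain ⟨c, hc⟩ := h G h1 h2
    exact ⟨e c, by simpa using hc⟩

theorem GWin.toS {L : ℝ} {Good : Finset Y → Prop} {H : Finset Y} {Φ : (Y → Eu d) → Prop}
    (h : GWin L Good H Φ) : S.Win L Good H Φ := by
  induction h with
  | stop H Φ hG h => exact .stop H Φ hG h
  | step H Φ n Hc Φc ε hG hε hsub _ h ih =>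
    refine .step H Φ n Hc Φc ε hε hsub ih fun G h1 h2 => ?_
    obtain ⟨c, hc⟩ := h G h1 h2
    exact ⟨c, fun G' h3 h4 => hc G' 0 (by simpa using h3) h4⟩

/-- the admissible histories of the game, for a frame `T` -/
def GGood {m : ℕ} (T : Eu m →L[ℝ] Y) (Λ : ℕ) (H : Finset Y) : Prop :=
  (0 : Y) ∈ H ∧ (∀ y ∈ H, ‖y‖ ≤ 1 / 1000) ∧ Pk (↑H : Set Y) 100 Λ ∧ ∀ y ∈ H, ∃ x, y = T x

/-- **the game**, in the form that implies all three interfaces -/
def GameG (Λ : ℕ) (Y : Type*) [NormedAddCommGroup Y] [NormedSpace ℝ Y] : Prop :=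
  ∀ (d : ℕ) (L : ℝ), 1 ≤ L → ∃ m : ℕ, ∀ T : Eu m →L[ℝ] Y, (∀ x, ‖T x‖ ≤ ‖x‖) →
    (∀ (i : Fin m) (x : Eu m), (∀ j, i < j → x j = 0) → |x i| / 4 ≤ ‖T x‖) →
    GWin (d := d) L (GGood T Λ) {0} (fun _ => True)

end Crest.Agent.R254.G
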