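import Crest.Agent.R254.Defs

/-! Row 254: task GAD. -/

set_option autoImplicit false
noncomputable section
namespace Crest.Agent.R254

theorem Win.zero_mem {B : Type*} [NormedAddCommGroup B] [NormedSpace ℝ B] {d : ℕ} {L : ℝ} {b R : ℕ}
    {ε : ℝ} {Y : List (Fin b) → Finset B} {W : List (Fin b) → (B → Eu d) → Prop}
    (h : Win d L b R ε Y W) (l : List (Fin b)) : (0 : B) ∈ Y l := by
  induction l with
  | nil => exact h.zero
  | cons c l ih => exact h.mono c l ih

theorem gad (B : Type*) [NormedAddCommGroup B] [NormedSpace ℝ B] (hE : EnStmt) (hT : TreeStmt B)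
    (hB : BndStmt B) : GadStmt B := by
  intro d L b R ε Y W hW hL τ hτ N0
  obtain ⟨D, μ, hD, -, hDY⟩ := hB b R Y
  have hC : 0 ≤ 1 + 4 * (L * D + 1) * (L * τ) := by positivity
  obtain ⟨n, hn, c, hc, hG⟩ := hT d L b R ε Y W hW _ hC
  set N := max n N0 with hN
  have hnN : n ≤ N := le_max_left _ _
  have hN0 : 0 < N := lt_of_lt_of_le hn hnN
  have hNr : (0 : ℝ) < N := by exact_mod_cast hN0
  have hden : 0 < 2 * (L * τ) ^ 2 * (N : ℝ) ^ 2 + 1 := by positivity
  refine ⟨N, le_max_right _ _, hN0, 1 / (2 * (L * τ) ^ 2 * (N : ℝ) ^ 2 + 1), by positivity, c, hc, ?_⟩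
  set γ := 1 / (2 * (L * τ) ^ 2 * (N : ℝ) ^ 2 + 1) with hγ
  have hγ0 : 0 < γ := by positivity
  have hγ1 : 2 * γ * (L * τ) ^ 2 * (N : ℝ) ^ 2 ≤ 1 := by
    have : 2 * γ * (L * τ) ^ 2 * (N : ℝ) ^ 2
        = (2 * (L * τ) ^ 2 * (N : ℝ) ^ 2) / (2 * (L * τ) ^ 2 * (N : ℝ) ^ 2 + 1) := by
      rw [hγ]; field_simp
    rw [this, div_le_one hden]; linarith
  intro H S hS hSL hBL hEd
  by_contra hcon
  push Not at hcon
  set V : Eu d := (N : ℝ)⁻¹ • (H N 0 - H 0 0) with hV
  have hNV : (N : ℝ) • V = H N 0 - H 0 0 := by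
    rw [hV, smul_smul, mul_inv_cancel₀ hNr.ne', one_smul]
  have hVn : ‖H N 0 - H 0 0‖ = N * ‖V‖ := by
    rw [← hNV, norm_smul, Real.norm_of_nonneg hNr.le]
  have hσ : S * τ ≤ (1 + γ) * ‖V‖ := by
    rw [hVn] at hcon
    have : S * τ * N ≤ ((1 + γ) * ‖V‖) * N := by nlinarith
    exact le_of_mul_le_mul_right this hNr
  refine hG (fun i y => H i y - (i : ℝ) • V) ?_ ?_
  · intro i hi
    obtain ⟨h1, h2⟩ := hBL i (lt_of_lt_of_le hi hnN)
    constructor
    · intro x hx y hy
      simpa only [sub_sub_sub_cancel_right] using h1 x hx y hy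
    · intro x hx y hy
      simpa only [sub_sub_sub_cancel_right] using h2 x hx y hy
  · intro a k y hak hy
    rcases Nat.eq_zero_or_pos k with rfl | hk
    · simpa using hC
    have hb : ∀ i j, i < N → y ∈ Y (c i) → BL L (Y (c i)) (H j) → ‖H j y - H j 0‖ ≤ L * D := by
      intro i j _ hyi hbl
      have h1 := (hbl y hyi 0 (hW.zero_mem _)).2
      rw [sub_zero] at h1
      exact h1.trans (mul_le_mul_of_nonneg_left ((hDY _ (hc i)).1 y hyi) hL)
    have key := hE d N (S * τ) (L * τ) γ (L * D) (fun i => H i 0) (fun i => H i y) V a k hN0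
      (by positivity) (mul_le_mul_of_nonneg_right hSL hτ.le) hγ0 (by positivity) hγ1 hNV hσ
      (fun i hi => hEd i hi 0 (hW.zero_mem _)) (by omega)
      (fun i hi => hEd (a + i) (by omega) y (hy i hi))
      (hb a a (by omega) (by simpa using hy 0 hk) (hBL a (by omega)).1)
      (by
        have e : a + k = (a + (k - 1)) + 1 := by omega
        have h2 := (hBL (a + (k - 1)) (by omega)).2
        rw [← e] at h2
        exact hb (a + (k - 1)) (a + k) (by omega) (hy (k - 1) (by omega)) h2)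
    refine le_trans (le_of_eq (Finset.sum_congr rfl fun i _ => ?_)) key
    congr 2
    push_cast
    rw [add_smul (((a : ℝ) + i)) 1 V, one_smul]
    abel

end Crest.Agent.R254
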