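import Crest.Agent.R254.SDefs

/-! Row 254: the gadget lemma (`GadgetProp`). -/

set_option autoImplicit false
noncomputable section
namespace Crest.Agent.R254.S

namespace Gdg

theorem exists_dir {d : ℕ} (W : Eu d) : ∃ V : Eu d, ‖V‖ ≤ 1 ∧ inner ℝ V W = ‖W‖ := by
  by_cases h : W = 0
  · exact ⟨0, by simp, by simp [h]⟩
  · have hW : 0 < ‖W‖ := norm_pos_iff.2 h
    refine ⟨(‖W‖⁻¹ : ℝ) • W, ?_, ?_⟩
    · rw [norm_smul, norm_inv, norm_norm, inv_mul_cancel₀ hW.ne']
    · rw [real_inner_smul_left, real_inner_self_eq_norm_sq]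
      field_simp

theorem chain {d : ℕ} (P : ℕ → Eu d) (S : ℝ) (k n : ℕ)
    (h : ∀ j, k ≤ j → j < k + n → ‖P (j + 1) - P j‖ ≤ S) : ‖P (k + n) - P k‖ ≤ n * S := by
  induction n with
  | zero => simp
  | succ n ih =>
    have h1 := ih fun j h1 h2 => h j h1 (by omega)
    have h2 := h (k + n) (by omega) (by omega)
    have h3 : P (k + (n + 1)) - P k = (P (k + n + 1) - P (k + n)) + (P (k + n) - P k) := by
      rw [← add_assoc]; abel
    rw [h3]
    have := norm_add_le (P (k + n + 1) - P (k + n)) (P (k + n) - P k)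
    push_cast
    linarith

theorem chain' {d : ℕ} (P : ℕ → Eu d) (S : ℝ) (k k' : ℕ) (hk : k ≤ k')
    (h : ∀ j, k ≤ j → j < k' → ‖P (j + 1) - P j‖ ≤ S) : ‖P k' - P k‖ ≤ ((k' : ℝ) - k) * S := by
  obtain ⟨n, rfl⟩ := Nat.exists_eq_add_of_le hk
  have := chain P S k n h
  push_cast
  linarith

theorem inner_le {d : ℕ} (V W : Eu d) (hV : ‖V‖ ≤ 1) : inner ℝ V W ≤ ‖W‖ := by
  have h1 := real_inner_le_norm V W
  have h2 : ‖V‖ * ‖W‖ ≤ 1 * ‖W‖ := mul_le_mul_of_nonneg_right hV (norm_nonneg _)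
  linarith

end Gdg

open Gdg in
theorem gadget (Y : Type*) [NormedAddCommGroup Y] [NormedSpace ℝ Y] : GadgetProp Y := by
  intro d L S Q H hQ hSL hH hS F hF hE hlast
  by_contra hc
  rw [not_le] at hc
  have hS0 : 0 ≤ S := (norm_nonneg _).trans hlast
  have hL0 : 0 ≤ L := hS0.trans hSL
  obtain ⟨V, hV, hVW⟩ := exists_dir (F Q 0 - F 0 0)
  -- edges of the base line
  have h0 : ∀ j, j < Q → ‖F (j + 1) 0 - F j 0‖ ≤ S := by
    intro j hj
    by_cases e : j + 1 < Q
    · exact hE j 0 e (hH j).1 (hH (j + 1)).1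
    · have e1 : j + 1 = Q := by omega
      have e2 : j = Q - 1 := by omega
      rw [e1]
      rw [← e2] at hlast
      exact hlast
  have hbase : ∀ k k' : ℕ, k ≤ k' → k' < Q →
      ((k' : ℝ) - k) * S - inner ℝ V (F k' 0 - F k 0) ≤ 1 := by
    intro k k' hk hk'
    have a1 := chain' (fun j => F j 0) S 0 k (Nat.zero_le _) fun j _ h2 => h0 j (by omega)
    have a2 := chain' (fun j => F j 0) S k' Q hk'.le fun j _ h2 => h0 j h2
    have b1 := inner_le V (F k 0 - F 0 0) hV
    have b2 := inner_le V (F Q 0 - F k' 0) hV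
    have e : F Q 0 - F 0 0 = (F Q 0 - F k' 0) + (F k' 0 - F k 0) + (F k 0 - F 0 0) := by abel
    have e2 : inner ℝ V (F Q 0 - F 0 0) = inner ℝ V (F Q 0 - F k' 0) + inner ℝ V (F k' 0 - F k 0)
        + inner ℝ V (F k 0 - F 0 0) := by
      rw [e, inner_add_right, inner_add_right]
    simp only [Nat.cast_zero, sub_zero] at a1 a2
    nlinarith
  obtain ⟨k, -, hk⟩ := hS (fun k y => F k y - ((k : ℝ) * S) • V) (fun k hk x hx y hy => by
      have e : F k x - ((k : ℝ) * S) • V - (F k y - ((k : ℝ) * S) • V) = F k x - F k y := by abel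
      simp only [e]
      exact hF k hk x hx y hy)
    ⟨fun k y => (k : ℝ) * S - inner ℝ V (F k y), fun y k k' hk hk' hy => by
      have a := chain' (fun j => F j y) S k k' hk fun j h1 h2 =>
        hE j y (by omega) (hy j h1 (by omega)) (hy (j + 1) (by omega) (by omega))
      have hn : (0 : ℝ) ≤ (k' : ℝ) - k := sub_nonneg.2 (Nat.cast_le.2 hk)
      have e1 : (k' : ℝ) * S - inner ℝ V (F k' y) - ((k : ℝ) * S - inner ℝ V (F k y))
          = ((k' : ℝ) - k) * S - inner ℝ V (F k' y - F k y) := by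
        rw [inner_sub_right]; ring
      have b := inner_le V (F k' y - F k y) hV
      simp only [e1]
      refine ⟨by linarith, ?_, ?_⟩
      · have hyk := hy k le_rfl hk
        have hyk' := hy k' hk le_rfl
        have c1 := (hF k' hk' 0 (hH k').1 y hyk').2
        have c2 := (hF k (by omega) y hyk 0 (hH k).1).2
        have n1 := (hH k).2 y hyk
        rw [zero_sub, norm_neg] at c1
        rw [sub_zero] at c2
        have n2 : L * ‖y‖ ≤ L * 1 := mul_le_mul_of_nonneg_left n1 hL0
        have b1 := inner_le V (F k' 0 - F k' y) hV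
        have b2 := inner_le V (F k y - F k 0) hV
        have b3 := hbase k k' hk hk'
        have e : F k' 0 - F k 0 = (F k' 0 - F k' y) + (F k' y - F k y) + (F k y - F k 0) := by abel
        have e2 : inner ℝ V (F k' 0 - F k 0) = inner ℝ V (F k' 0 - F k' y)
            + inner ℝ V (F k' y - F k y) + inner ℝ V (F k y - F k 0) := by
          rw [e, inner_add_right, inner_add_right]
        linarith
      · have e : F k' y - ((k' : ℝ) * S) • V - (F k y - ((k : ℝ) * S) • V)
            = (F k' y - F k y) - (((k' : ℝ) - k) * S) • V := by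
          rw [sub_mul, sub_smul]; abel
        rw [e]
        set Δ := F k' y - F k y with hΔ
        set c := ((k' : ℝ) - k) * S with hc'
        have hc0 : 0 ≤ c := mul_nonneg hn hS0
        have e3 : ‖Δ - c • V‖ ^ 2 = ‖Δ‖ ^ 2 - 2 * (c * inner ℝ V Δ) + (c * ‖V‖) ^ 2 := by
          rw [norm_sub_sq_real, real_inner_smul_right, real_inner_comm, norm_smul,
            Real.norm_of_nonneg hc0]
        have e4 : ‖Δ‖ ^ 2 ≤ c ^ 2 := pow_le_pow_left₀ (norm_nonneg _) a 2
        have e5 : (c * ‖V‖) ^ 2 ≤ c ^ 2 := pow_le_pow_left₀ (by positivity)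
          (by nlinarith [norm_nonneg V]) 2
        have e6 : 0 ≤ c - inner ℝ V Δ := by linarith
        have e7 : c ≤ L * ((k' : ℝ) - k) := by
          rw [hc', mul_comm]; exact mul_le_mul_of_nonneg_right hSL hn
        have e8 : c * (c - inner ℝ V Δ) ≤ L * ((k' : ℝ) - k) * (c - inner ℝ V Δ) :=
          mul_le_mul_of_nonneg_right e7 e6
        nlinarith⟩
  exact hk trivial

end Crest.Agent.R254.S
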