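import Crest.Agent.R254.SDefs
import Crest.Agent.R254.Round

/-! Row 254: the abstract form of the game (target side and `ε` bookkeeping). -/

set_option autoImplicit false
set_option linter.unusedSectionVars false
noncomputable section
namespace Crest.Agent.R254.W29

open Crest.Agent.R254.S (Eu BL Win)

variable {Y : Type*} [NormedAddCommGroup Y] [NormedSpace ℝ Y] {d : ℕ}

theorem step' {L : ℝ} {Good : Finset Y → Prop} {H : Finset Y} {Φ : (Y → Eu d) → Prop}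
    {ι : Type} [Finite ι] [Nonempty ι] (Hc : ι → Finset Y) (Φc : ι → (Y → Eu d) → Prop) (ε : ℝ)
    (hε : 0 < ε) (hsub : ∀ c, H ⊆ Hc c) (hW : ∀ c, Win L Good (Hc c) (Φc c))
    (h : ∀ G, Φ G → BL L G H → ∃ c, ∀ (G' : Y → Eu d),
      (∀ y ∈ H, ‖G' y - G y‖ ≤ ε) → BL L G' (Hc c) → Φc c G') : Win L Good H Φ := by
  obtain ⟨n, ⟨e⟩⟩ := Finite.exists_equiv_fin ι
  cases n with
  | zero => exact (e (Classical.arbitrary ι)).elim0
  | succ n =>
    refine .step H Φ n (fun c => Hc (e.symm c)) (fun c => Φc (e.symm c)) ε hε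
      (fun c => hsub _) (fun c => hW _) fun G h1 h2 => ?_
    obtain ⟨c, hc⟩ := h G h1 h2
    exact ⟨e c, by simpa using hc⟩

/-- stretch at least `s` on the segment `x` -/
def St (s : ℝ) (x : Y × Y × ℝ) (G : Y → Eu d) : Prop := s * x.2.2 ≤ dist (G x.1) (G x.2.1)

theorem St.rob {s β ε : ℝ} {x : Y × Y × ℝ} {G G' : Y → Eu d} (h : St (s + β) x G)
    (h1 : ‖G' x.1 - G x.1‖ ≤ ε) (h2 : ‖G' x.2.1 - G x.2.1‖ ≤ ε) (h3 : 2 * ε ≤ β * x.2.2) :
    St s x G' := by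
  unfold St at h ⊢
  have e := dist_triangle4 (G x.1) (G' x.1) (G' x.2.1) (G x.2.1)
  rw [dist_comm (G x.1) (G' x.1), dist_eq_norm (G' x.1) (G x.1),
    dist_eq_norm (G' x.2.1) (G x.2.1)] at e
  linarith

/-- the five kinds of pieces -/
def pc (a b : Y) (P Q M : ℕ → Y) (l0 u : ℝ) (t : Fin 5) (i : ℕ) : Y × Y × ℝ :=
  ![(a, P i, (l0 / 2 - i) * u), (P i, Q i, 2 * i * u), (Q i, b, (l0 / 2 - i) * u),
    (P i, M i, i * u), (M i, Q i, i * u)] t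

/-- admissible pieces after the midpoints `j`, `k` were inserted -/
def Va (N j k : ℕ) (t : Fin 5) (i : ℕ) : Prop := 1 ≤ i ∧ i ≤ N ∧ (t.1 < 3 ∨ i = j ∨ i = k)

open Classical in
/-- points inserted in the first move -/
def A1 (N : ℕ) (P Q : ℕ → Y) : Finset Y := (Finset.Icc 1 N).image P ∪ (Finset.Icc 1 N).image Q

open Classical in
/-- points inserted in one round -/
def A2 (N : ℕ) (P Q M : ℕ → Y) (j k : ℕ) : Finset Y := A1 N P Q ∪ {M j, M k}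

theorem mem_A2 {N : ℕ} {P Q M : ℕ → Y} {j k : ℕ} {y : Y} : y ∈ A2 N P Q M j k ↔
    (∃ i, 1 ≤ i ∧ i ≤ N ∧ (y = P i ∨ y = Q i)) ∨ y = M j ∨ y = M k := by
  classical
  simp only [A2, A1, Finset.mem_union, Finset.mem_image, Finset.mem_Icc, Finset.mem_insert,
    Finset.mem_singleton]
  constructor
  · rintro ((⟨i, ⟨h1, h2⟩, rfl⟩ | ⟨i, ⟨h1, h2⟩, rfl⟩) | h)
    · exact Or.inl ⟨i, h1, h2, Or.inl rfl⟩
    · exact Or.inl ⟨i, h1, h2, Or.inr rfl⟩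
    · exact Or.inr h
  · rintro (⟨i, h1, h2, rfl | rfl⟩ | h)
    · exact Or.inl (Or.inl ⟨i, ⟨h1, h2⟩, rfl⟩)
    · exact Or.inl (Or.inr ⟨i, ⟨h1, h2⟩, rfl⟩)
    · exact Or.inr h

theorem P_mem {N : ℕ} (P Q : ℕ → Y) {i : ℕ} (h1 : 1 ≤ i) (h2 : i ≤ N) : P i ∈ A1 N P Q := by
  classical
  unfold A1
  exact Finset.mem_union.2 (Or.inl (Finset.mem_image.2 ⟨i, Finset.mem_Icc.2 ⟨h1, h2⟩, rfl⟩))

theorem Q_mem {N : ℕ} (P Q : ℕ → Y) {i : ℕ} (h1 : 1 ≤ i) (h2 : i ≤ N) : Q i ∈ A1 N P Q := by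
  classical
  unfold A1
  exact Finset.mem_union.2 (Or.inr (Finset.mem_image.2 ⟨i, Finset.mem_Icc.2 ⟨h1, h2⟩, rfl⟩))

theorem A1_sub (N : ℕ) (P Q M : ℕ → Y) (j k : ℕ) : A1 N P Q ⊆ A2 N P Q M j k := by
  classical
  unfold A2
  exact Finset.subset_union_left

/-- the conclusion of `round` -/
def RP (d : ℕ) (S : ℝ) (N l0 : ℕ) : Prop :=
    ∀ u : ℝ, 0 < u → ∀ s t : ℝ, 0 ≤ s → s ≤ S → t = s + 1 / (l0 : ℝ) ^ 2 →
    ∀ (A B : EuclideanSpace ℝ (Fin d)) (P Q : ℕ → EuclideanSpace ℝ (Fin d)),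
      s * (l0 * u) ≤ dist A B →
      (∀ k : ℕ, 1 ≤ k → k ≤ N →
        dist A (P k) ≤ t * (((l0 : ℝ) / 2 - k) * u) ∧ dist (P k) B ≤ t * (((l0 : ℝ) / 2 + k) * u) ∧
        dist A (Q k) ≤ t * (((l0 : ℝ) / 2 + k) * u) ∧ dist (Q k) B ≤ t * (((l0 : ℝ) / 2 - k) * u)) →
      ∃ j k : ℕ, 1 ≤ j ∧ j < k ∧ k ≤ N ∧
        ∀ v Pj Qj Pk Qk Mj Mk : EuclideanSpace ℝ (Fin d),
          dist Pj (P j + v) ≤ u / l0 → dist Qj (Q j + v) ≤ u / l0 →
          dist Pk (P k + v) ≤ u / l0 → dist Qk (Q k + v) ≤ u / l0 →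
          dist Pj Mj ≤ t * (j * u) → dist Mj Qj ≤ t * (j * u) →
          dist Pk Mk ≤ t * (k * u) → dist Mk Qk ≤ t * (k * u) → dist Mj Mk ≤ u / 40

open Classical in
theorem win_round {L S : ℝ} {N l0 : ℕ} (hN : 2 ≤ N) (hl : 10 * N ≤ l0) (hr : RP d S N l0)
    (Good : Finset Y → Prop) (H : Finset Y) (a b : Y) (P Q M : ℕ → Y) (u s : ℝ) (hu : 0 < u)
    (hs : 0 ≤ s) (hsS : s ≤ S) (ha : a ∈ H) (hb : b ∈ H)
    (hM : ∀ j k, 1 ≤ j → j < k → k ≤ N → u / 20 ≤ ‖M j - M k‖)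
    (hW : ∀ j k, 1 ≤ j → j < k → k ≤ N → ∀ t i, Va N j k t i →
      Win (d := d) L Good (H ∪ A2 N P Q M j k) (St (s + 1 / (l0 : ℝ) ^ 2 / 2) (pc a b P Q M l0 u t i))) :
    Win (d := d) L Good H (St (s + 1 / (l0 : ℝ) ^ 2 / 4) (a, b, l0 * u)) := by
  have hl' : (10 * N : ℝ) ≤ l0 := by exact_mod_cast hl
  have hN' : (2 : ℝ) ≤ N := by exact_mod_cast hN
  have l0p : (1 : ℝ) ≤ l0 := by linarith
  set η : ℝ := 1 / (l0 : ℝ) ^ 2 with hη
  have ηp : 0 < η := by positivity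
  set ε : ℝ := η / 8 * u with hε
  have εp : 0 < ε := by positivity
  have hεu : ε ≤ u / l0 := by
    have h1 : η / 8 ≤ 1 / l0 := by
      rw [hη, div_div, div_le_div_iff₀ (by positivity) (by positivity)]; nlinarith
    calc ε ≤ 1 / l0 * u := mul_le_mul_of_nonneg_right h1 hu.le
      _ = u / l0 := by ring
  have hlen : ∀ t i, 1 ≤ i → i ≤ N → u ≤ (pc a b P Q M l0 u t i).2.2 := by
    intro t i h1 h2
    have h1' : (1 : ℝ) ≤ i := by exact_mod_cast h1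
    have h2' : (i : ℝ) ≤ N := by exact_mod_cast h2
    have e1 : u ≤ ((l0 : ℝ) / 2 - i) * u := le_mul_of_one_le_left hu.le (by linarith)
    have e2 : u ≤ 2 * (i : ℝ) * u := le_mul_of_one_le_left hu.le (by linarith)
    have e3 : u ≤ (i : ℝ) * u := le_mul_of_one_le_left hu.le h1'
    fin_cases t
    exacts [e1, e2, e1, e3, e3]
  have hε2 : ∀ t i, 1 ≤ i → i ≤ N → 2 * ε ≤ η / 4 * (pc a b P Q M l0 u t i).2.2 := by
    intro t i h1 h2
    have := mul_le_mul_of_nonneg_left (hlen t i h1 h2) (by positivity : 0 ≤ η / 4)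
    rw [hε]; linarith
  have hm1 : ∀ t i, 1 ≤ i → i ≤ N → t.1 < 3 → (pc a b P Q M l0 u t i).1 ∈ H ∪ A1 N P Q ∧
      (pc a b P Q M l0 u t i).2.1 ∈ H ∪ A1 N P Q := by
    intro t i h1 h2 h3
    have e1 : a ∈ H ∪ A1 N P Q := Finset.mem_union_left _ ha
    have e2 : b ∈ H ∪ A1 N P Q := Finset.mem_union_left _ hb
    have e3 : P i ∈ H ∪ A1 N P Q := Finset.mem_union_right _ (P_mem P Q h1 h2)
    have e4 : Q i ∈ H ∪ A1 N P Q := Finset.mem_union_right _ (Q_mem P Q h1 h2)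
    fin_cases t
    exacts [⟨e1, e3⟩, ⟨e3, e4⟩, ⟨e4, e2⟩, absurd h3 (by decide), absurd h3 (by decide)]
  have hsub : ∀ j k, H ∪ A1 N P Q ⊆ H ∪ A2 N P Q M j k := fun j k =>
    Finset.union_subset_union le_rfl (A1_sub N P Q M j k)
  have hMm : ∀ j k i, i = j ∨ i = k → M i ∈ H ∪ A2 N P Q M j k := fun j k i h =>
    Finset.mem_union_right _ (mem_A2.2 (Or.inr (h.imp (congrArg M) (congrArg M))))
  have hm2 : ∀ j k t i, Va N j k t i → (pc a b P Q M l0 u t i).1 ∈ H ∪ A2 N P Q M j k ∧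
      (pc a b P Q M l0 u t i).2.1 ∈ H ∪ A2 N P Q M j k := by
    rintro j k t i ⟨h1, h2, h3⟩
    by_cases h4 : t.1 < 3
    · exact ⟨hsub j k (hm1 t i h1 h2 h4).1, hsub j k (hm1 t i h1 h2 h4).2⟩
    have e3 : P i ∈ H ∪ A2 N P Q M j k := hsub j k (Finset.mem_union_right _ (P_mem P Q h1 h2))
    have e4 : Q i ∈ H ∪ A2 N P Q M j k := hsub j k (Finset.mem_union_right _ (Q_mem P Q h1 h2))
    have e5 := hMm j k i (h3.resolve_left h4)
    fin_cases t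
    exacts [absurd (by decide) h4, absurd (by decide) h4, absurd (by decide) h4, ⟨e3, e5⟩, ⟨e5, e4⟩]
  have m3 : ∀ j k, 1 ≤ j → j < k → k ≤ N → Win (d := d) L Good (H ∪ A2 N P Q M j k)
      (fun G => ∃ t i, Va N j k t i ∧ St (s + η / 2 + η / 4) (pc a b P Q M l0 u t i) G) := by
    intro j k h1 h2 h3
    haveI : Nonempty {p : Fin 5 × Fin (N + 1) // Va N j k p.1 p.2} :=
      ⟨⟨(0, ⟨1, by omega⟩), le_rfl, by show 1 ≤ N; omega, Or.inl (by show 0 < 3; omega)⟩⟩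
    refine step' (ι := {p : Fin 5 × Fin (N + 1) // Va N j k p.1 p.2})
      (fun _ => H ∪ A2 N P Q M j k) (fun p => St (s + η / 2) (pc a b P Q M l0 u p.1.1 p.1.2)) ε εp
      (fun _ => le_rfl) (fun p => hW j k h1 h2 h3 _ _ p.2) ?_
    rintro G ⟨t, i, hv, hst⟩ -
    refine ⟨⟨(t, ⟨i, Nat.lt_succ_of_le hv.2.1⟩), hv⟩, fun G' hG' _ => ?_⟩
    exact hst.rob (hG' _ (hm2 j k t i hv).1) (hG' _ (hm2 j k t i hv).2) (hε2 t i hv.1 hv.2.1)
  have m2 : Win (d := d) L Good (H ∪ A1 N P Q) (St s (a, b, l0 * u)) := by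
    haveI : Nonempty {p : Fin (N + 1) × Fin (N + 1) // 1 ≤ p.1.1 ∧ p.1.1 < p.2.1} :=
      ⟨⟨(⟨1, by omega⟩, ⟨2, by omega⟩), le_rfl, by show 1 < 2; omega⟩⟩
    refine step' (ι := {p : Fin (N + 1) × Fin (N + 1) // 1 ≤ p.1.1 ∧ p.1.1 < p.2.1})
      (fun p => H ∪ A2 N P Q M p.1.1 p.1.2)
      (fun p G => ∃ t i, Va N p.1.1 p.1.2 t i ∧ St (s + η / 2 + η / 4) (pc a b P Q M l0 u t i) G)
      ε εp (fun _ => hsub _ _)
      (fun p => m3 _ _ p.2.1 p.2.2 (Nat.le_of_lt_succ p.1.2.2)) ?_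
    intro G hst _
    by_cases hA : ∃ t i, 1 ≤ i ∧ i ≤ N ∧ t.1 < 3 ∧ St (s + η) (pc a b P Q M l0 u t i) G
    · obtain ⟨t, i, h1, h2, h3, h4⟩ := hA
      refine ⟨⟨(⟨1, by omega⟩, ⟨2, by omega⟩), le_rfl, by show 1 < 2; omega⟩, fun G' hG' _ =>
        ⟨t, i, ⟨h1, h2, Or.inl h3⟩, ?_⟩⟩
      have h5 : St (s + η / 2 + η / 4 + η / 4) (pc a b P Q M l0 u t i) G := by
        rwa [show s + η / 2 + η / 4 + η / 4 = s + η by ring]
      exact h5.rob (hG' _ (hm1 t i h1 h2 h3).1) (hG' _ (hm1 t i h1 h2 h3).2) (hε2 t i h1 h2)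
    · obtain ⟨j, k, h1, h2, h3, h4⟩ := hr u hu s (s + η) hs hsS rfl (G a) (G b) (fun i => G (P i))
        (fun i => G (Q i)) hst (by
          intro i h1 h2
          have e0 : dist (G a) (G (P i)) ≤ (s + η) * (((l0 : ℝ) / 2 - i) * u) :=
            (not_le.1 fun h => hA ⟨0, i, h1, h2, by decide, h⟩).le
          have e1 : dist (G (P i)) (G (Q i)) ≤ (s + η) * (2 * (i : ℝ) * u) :=
            (not_le.1 fun h => hA ⟨1, i, h1, h2, by decide, h⟩).le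
          have e2 : dist (G (Q i)) (G b) ≤ (s + η) * (((l0 : ℝ) / 2 - i) * u) :=
            (not_le.1 fun h => hA ⟨2, i, h1, h2, by decide, h⟩).le
          have e3 := dist_triangle (G (P i)) (G (Q i)) (G b)
          have e4 := dist_triangle (G a) (G (P i)) (G (Q i))
          refine ⟨e0, by linarith, by linarith, e2⟩)
      refine ⟨⟨(⟨j, by omega⟩, ⟨k, by omega⟩), h1, h2⟩, fun G' hG' hB => ?_⟩
      by_contra hcon
      have cP : ∀ i, 1 ≤ i → i ≤ N → dist (G' (P i)) (G (P i) + 0) ≤ u / l0 := fun i e1 e2 => by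
        rw [add_zero, dist_eq_norm]
        exact (hG' _ (Finset.mem_union_right _ (P_mem P Q e1 e2))).trans hεu
      have cQ : ∀ i, 1 ≤ i → i ≤ N → dist (G' (Q i)) (G (Q i) + 0) ≤ u / l0 := fun i e1 e2 => by
        rw [add_zero, dist_eq_norm]
        exact (hG' _ (Finset.mem_union_right _ (Q_mem P Q e1 e2))).trans hεu
      have cM : ∀ i, 1 ≤ i → i ≤ N → i = j ∨ i = k →
          dist (G' (P i)) (G' (M i)) ≤ (s + η) * (i * u) ∧
            dist (G' (M i)) (G' (Q i)) ≤ (s + η) * (i * u) := fun i e1 e2 e3 => by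
        have f0 : dist (G' (P i)) (G' (M i)) ≤ (s + η / 2 + η / 4) * (i * u) :=
          (not_le.1 fun h => hcon ⟨3, i, ⟨e1, e2, Or.inr e3⟩, h⟩).le
        have f1 : dist (G' (M i)) (G' (Q i)) ≤ (s + η / 2 + η / 4) * (i * u) :=
          (not_le.1 fun h => hcon ⟨4, i, ⟨e1, e2, Or.inr e3⟩, h⟩).le
        have f2 : (s + η / 2 + η / 4) * (i * u) ≤ (s + η) * (i * u) :=
          mul_le_mul_of_nonneg_right (by linarith) (by positivity)
        exact ⟨f0.trans f2, f1.trans f2⟩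
      have g := h4 0 (G' (P j)) (G' (Q j)) (G' (P k)) (G' (Q k)) (G' (M j)) (G' (M k))
        (cP j h1 (by omega)) (cQ j h1 (by omega)) (cP k (by omega) h3) (cQ k (by omega) h3)
        (cM j h1 (by omega) (Or.inl rfl)).1 (cM j h1 (by omega) (Or.inl rfl)).2
        (cM k (by omega) h3 (Or.inr rfl)).1 (cM k (by omega) h3 (Or.inr rfl)).2
      have g1 := (hB _ (hMm j k j (Or.inl rfl)) _ (hMm j k k (Or.inr rfl))).1
      have g2 := hM j k h1 h2 h3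
      rw [dist_eq_norm] at g
      linarith
  refine step' (ι := Unit) (fun _ => H ∪ A1 N P Q) (fun _ => St s (a, b, l0 * u)) ε εp
    (fun _ => Finset.subset_union_left) (fun _ => m2) fun G hst _ => ⟨(), fun G' hG' _ => ?_⟩
  refine hst.rob (hG' _ ha) (hG' _ hb) ?_
  have : η / 4 * u ≤ η / 4 * (l0 * u) :=
    mul_le_mul_of_nonneg_left (le_mul_of_one_le_left hu.le l0p) (by positivity)
  show 2 * ε ≤ η / 4 * (l0 * u)
  rw [hε]; linarith

open Classical in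
/-- the abstract game -/
theorem win_abs (d : ℕ) (L : ℝ) (hL : 1 ≤ L) : ∃ N l0 R : ℕ, 2 ≤ N ∧ 10 * N ≤ l0 ∧
    (R : ℝ) ≤ 121 * L ^ 2 * (l0 : ℝ) ^ 2 ∧
    ∀ (Y : Type*) [NormedAddCommGroup Y] [NormedSpace ℝ Y] (Good : Finset Y → Prop)
      (I : ℕ → Finset Y → Y × Y × ℝ → Prop),
      (∀ r H x, I r H x → 0 < x.2.2 ∧ x.1 ∈ H ∧ x.2.1 ∈ H) →
      (∀ H x, I R H x → Good H ∧ ‖x.1 - x.2.1‖ ≤ 30 * L * x.2.2) →
      (∀ r H x, r < R → I r H x → ∃ P Q M : ℕ → Y, ∀ j k, 1 ≤ j → j < k → k ≤ N →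
        x.2.2 / l0 / 20 ≤ ‖M j - M k‖ ∧ ∀ t i, Va N j k t i →
          I (r + 1) (H ∪ A2 N P Q M j k) (pc x.1 x.2.1 P Q M l0 (x.2.2 / l0) t i)) →
      ∀ H x, I 0 H x → x.2.2 / 4 ≤ ‖x.1 - x.2.1‖ → (0 : Y) ∈ H →
        Win (d := d) L Good {0} (fun _ => True) := by
  obtain ⟨N, l0, hN, hl, hr⟩ := round d (30 * L ^ 2) (by positivity)
  have hl' : (10 * N : ℝ) ≤ l0 := by exact_mod_cast hl
  have hN' : (2 : ℝ) ≤ N := by exact_mod_cast hN
  have l0p : (1 : ℝ) ≤ l0 := by linarith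
  have l2p : (1 : ℝ) ≤ (l0 : ℝ) ^ 2 := one_le_pow₀ l0p
  have L2p : (1 : ℝ) ≤ L ^ 2 := one_le_pow₀ hL
  refine ⟨N, l0, ⌈120 * L ^ 2 * (l0 : ℝ) ^ 2⌉₊, hN, hl, ?_, ?_⟩
  · have := Nat.ceil_lt_add_one (show 0 ≤ 120 * L ^ 2 * (l0 : ℝ) ^ 2 by positivity)
    nlinarith
  intro Y _ _ Good I hI hend hstep
  set R := ⌈120 * L ^ 2 * (l0 : ℝ) ^ 2⌉₊ with hR
  set η : ℝ := 1 / (l0 : ℝ) ^ 2 with hη
  have ηp : 0 < η := by positivity
  have η1 : η * (l0 : ℝ) ^ 2 = 1 := by rw [hη]; field_simp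
  have key : ∀ n r, r + n = R → ∀ H x, I r H x →
      Win (d := d) L Good H (St (r * (η / 4) + η / 4) x) := by
    intro n
    induction n with
    | zero =>
      intro r hr0 H x hx
      obtain rfl : r = R := by omega
      obtain ⟨h1, h2, h3⟩ := hI _ _ _ hx
      obtain ⟨h4, h5⟩ := hend _ _ hx
      refine .stop _ _ h4 fun G hst hB => ?_
      have e1 := (hB _ h2 _ h3).2
      unfold St at hst
      rw [dist_eq_norm] at hst
      have e2 : 120 * L ^ 2 * (l0 : ℝ) ^ 2 ≤ R := Nat.le_ceil _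
      have e3 : 30 * L ^ 2 ≤ R * (η / 4) := by
        have := mul_le_mul_of_nonneg_right e2 (by positivity : 0 ≤ η / 4)
        calc 30 * L ^ 2 = 30 * L ^ 2 * (η * (l0 : ℝ) ^ 2) := by rw [η1, mul_one]
          _ = 120 * L ^ 2 * (l0 : ℝ) ^ 2 * (η / 4) := by ring
          _ ≤ _ := this
      have e4 : L * ‖x.1 - x.2.1‖ ≤ L * (30 * L * x.2.2) :=
        mul_le_mul_of_nonneg_left h5 (by linarith)
      have e5 : 30 * L ^ 2 * x.2.2 < (R * (η / 4) + η / 4) * x.2.2 :=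
        mul_lt_mul_of_pos_right (by linarith) h1
      nlinarith
    | succ n ih =>
      intro r hr0 H x hx
      obtain ⟨h1, h2, h3⟩ := hI _ _ _ hx
      obtain ⟨P, Q, M, h4⟩ := hstep r H x (by omega) hx
      have e1 : (r : ℝ) < 120 * L ^ 2 * (l0 : ℝ) ^ 2 := Nat.lt_ceil.1 (by omega)
      have e3 : r * (η / 4) ≤ 30 * L ^ 2 := by
        have := mul_le_mul_of_nonneg_right e1.le (by positivity : 0 ≤ η / 4)
        calc _ ≤ 120 * L ^ 2 * (l0 : ℝ) ^ 2 * (η / 4) := this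
          _ = 30 * L ^ 2 * (η * (l0 : ℝ) ^ 2) := by ring
          _ = _ := by rw [η1, mul_one]
      have := win_round (L := L) hN hl hr Good H x.1 x.2.1 P Q M (x.2.2 / l0) (r * (η / 4))
        (by positivity) (by positivity) e3 h2 h3 (fun j k a b c => (h4 j k a b c).1)
        (fun j k a b c t i hv => by
          have := ih (r + 1) (by omega) _ _ ((h4 j k a b c).2 t i hv)
          rwa [show ((r + 1 : ℕ) : ℝ) * (η / 4) + η / 4 = r * (η / 4) + η / 2 by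
            push_cast; ring] at this)
      rwa [show (l0 : ℝ) * (x.2.2 / l0) = x.2.2 by field_simp] at this
  intro H x hx hlow h0
  obtain ⟨h1, h2, h3⟩ := hI _ _ _ hx
  refine step' (ι := Unit) (fun _ => H) (fun _ => St ((0 : ℕ) * (η / 4) + η / 4) x) 1 one_pos
    (fun _ => Finset.singleton_subset_iff.2 h0) (fun _ => key R 0 (by omega) H x hx)
    fun G _ _ => ⟨(), fun G' _ hB => ?_⟩
  have e1 := (hB _ h2 _ h3).1
  unfold St
  rw [dist_eq_norm]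
  have e2 : η ≤ 1 := by nlinarith
  have e3 : η / 4 * x.2.2 ≤ 1 / 4 * x.2.2 := mul_le_mul_of_nonneg_right (by linarith) h1.le
  push_cast
  linarith

end Crest.Agent.R254.W29
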