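import Crest.Agent.R254.Geo14
import Crest.Agent.R254.W29

/-! Row 254: the game is won. -/

set_option autoImplicit false
noncomputable section
namespace Crest.Agent.R254.S.G14

open Crest.Agent.R254.W29

variable {K : ℕ} {Y : Type*} [NormedAddCommGroup Y] [NormedSpace ℝ Y]

open Classical in
theorem step14 {T : E K →L[ℝ] Y} {N l0 r : ℕ} {H : Finset Y} {α β : E K} {l : ℝ} (hF : Fr T)
    (h : Inv T N l0 r H α β l) (hl0 : 10 * N ≤ l0) (hK : (r + 1) * N ≤ K) :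
    ∃ P Q M : ℕ → Y, ∀ j k, 1 ≤ j → j < k → k ≤ N →
      l / l0 / 20 ≤ ‖M j - M k‖ ∧ ∀ t i, Va N j k t i → ∃ α' β',
        (pc (T α) (T β) P Q M l0 (l / l0) t i).1 = T α' ∧
        (pc (T α) (T β) P Q M l0 (l / l0) t i).2.1 = T β' ∧
        Inv T N l0 (r + 1) (H ∪ A2 N P Q M j k) α' β' (pc (T α) (T β) P Q M l0 (l / l0) t i).2.2 := by
  let Z : ℤ → ℕ → Y := fun n i => T (pt α β l (r * N) (l / 2 + n * (l / l0)) (l / l0) i)
  refine ⟨fun i => Z (-i) i, fun i => Z i i, fun i => Z 0 i, fun j k hj hjk hk => ⟨?_, ?_⟩⟩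
  · rw [norm_sub_rev]; exact sep_lt hF h hK hj hjk hk _ _
  intro t i ⟨h1, h2, h3⟩
  have hl := h.lpos
  have hu := h.hi.upos
  have e0 : (0 : ℝ) < l0 := by exact_mod_cast (by omega : 0 < l0)
  have el : (l0 : ℝ) * (l / l0) = l := by field_simp
  have hA : ∀ y ∈ A2 N (fun i => Z (-i) i) (fun i => Z i i) (fun i => Z 0 i) j k,
      NewP T N l0 r α β l y := by
    intro y hy
    rcases mem_A2.1 hy with ⟨i, h1, h2, rfl | rfl⟩ | rfl | rfl
    · exact ⟨-i, i, h1, h2, Or.inl rfl, rfl⟩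
    · exact ⟨i, i, h1, h2, Or.inr (Or.inr rfl), rfl⟩
    · exact ⟨0, j, hj, by omega, Or.inr (Or.inl rfl), rfl⟩
    · exact ⟨0, k, by omega, hk, Or.inr (Or.inl rfl), rfl⟩
  have hc : ∀ D : ℕ, ∀ S : Finset Y,
      S ⊆ A2 N (fun i => Z (-i) i) (fun i => Z i i) (fun i => Z 0 i) j k →
      (∀ x ∈ S, ∀ y ∈ S, dist x y ≤ D * (l / l0)) → S.card ≤ 4 * D + 3 := by
    intro D S hS hD
    have c1 := cnt hF h hK D (S \ {Z 0 j, Z 0 k}) (fun y hy => by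
      obtain ⟨y1, y2⟩ := Finset.mem_sdiff.1 hy
      rcases mem_A2.1 (hS y1) with ⟨i, h1, h2, rfl | rfl⟩ | rfl | rfl
      · exact ⟨-i, i, h1, h2, Or.inl rfl, rfl⟩
      · exact ⟨i, i, h1, h2, Or.inr rfl, rfl⟩
      · simp at y2
      · simp at y2)
      fun x hx y hy => hD x (Finset.mem_sdiff.1 hx).1 y (Finset.mem_sdiff.1 hy).1
    have c2 := Finset.le_card_sdiff ({Z 0 j, Z 0 k} : Finset Y) S
    have c3 : ({Z 0 j, Z 0 k} : Finset Y).card ≤ 2 := Finset.card_le_two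
    omega
  have mP : Z (-i) i ∈ H ∪ A2 N (fun i => Z (-i) i) (fun i => Z i i) (fun i => Z 0 i) j k :=
    Finset.mem_union_right _ (mem_A2.2 (Or.inl ⟨i, h1, h2, Or.inl rfl⟩))
  have mQ : Z i i ∈ H ∪ A2 N (fun i => Z (-i) i) (fun i => Z i i) (fun i => Z 0 i) j k :=
    Finset.mem_union_right _ (mem_A2.2 (Or.inl ⟨i, h1, h2, Or.inr rfl⟩))
  have mM : (i = j ∨ i = k) →
      Z 0 i ∈ H ∪ A2 N (fun i => Z (-i) i) (fun i => Z i i) (fun i => Z 0 i) j k := by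
    rintro (rfl | rfl)
    · exact Finset.mem_union_right _ (mem_A2.2 (Or.inr (Or.inl rfl)))
    · exact Finset.mem_union_right _ (mem_A2.2 (Or.inr (Or.inr rfl)))
  have ma : T (pt α β l (r * N) 0 0 i) ∈
      H ∪ A2 N (fun i => Z (-i) i) (fun i => Z i i) (fun i => Z 0 i) j k := by
    rw [pt_zero]; exact Finset.mem_union_left _ h.ha
  have mb : T (pt α β l (r * N) l 0 i) ∈
      H ∪ A2 N (fun i => Z (-i) i) (fun i => Z i i) (fun i => Z 0 i) j k := by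
    rw [pt_len hl]; exact Finset.mem_union_left _ h.hb
  have rP := range_s h hl0 h1 h2 (n := -i) (Or.inl rfl)
  have rQ := range_s h hl0 h1 h2 (n := i) (Or.inr (Or.inr rfl))
  have hi0 : 0 < (i : ℝ) * (l / l0) := by
    have : (0 : ℝ) < i := by exact_mod_cast h1
    positivity
  push_cast at rP rQ
  have q1 : ((l0 : ℝ) / 2 - i) * (l / l0) = l / 2 - i * (l / l0) := by linear_combination el / 2
  fin_cases t
  · refine ⟨_, _, congrArg T (pt_zero (α := α) (β := β) (l := l) (r * N) i).symm, rfl,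
      next hF h hl0 hK _ hA hc h1 h2 (l' := ((l0 : ℝ) / 2 - i) * (l / l0)) le_rfl ?_ ?_ ?_ ?_
        (Or.inl rfl) (Or.inr rfl) (Or.inr ?_) ma mP⟩
    all_goals (push_cast; linarith)
  · refine ⟨_, _, rfl, rfl,
      next hF h hl0 hK _ hA hc h1 h2 (l' := 2 * (i : ℝ) * (l / l0)) ?_ ?_ ?_ ?_ ?_
        (Or.inr rfl) (Or.inr rfl) (Or.inl rfl) mP mQ⟩
    all_goals (push_cast; linarith)
  · refine ⟨_, _, rfl, congrArg T (pt_len (α := α) (β := β) hl (r * N) i).symm,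
      next hF h hl0 hK _ hA hc h1 h2 (l' := ((l0 : ℝ) / 2 - i) * (l / l0)) ?_ le_rfl ?_ ?_ ?_
        (Or.inr rfl) (Or.inl rfl) (Or.inr ?_) mQ mb⟩
    all_goals (push_cast; linarith)
  · refine ⟨_, _, rfl, rfl,
      next hF h hl0 hK _ hA hc h1 h2 (l' := (i : ℝ) * (l / l0)) ?_ ?_ ?_ ?_ ?_
        (Or.inr rfl) (Or.inr rfl) (Or.inl rfl) mP (mM (h3.resolve_left (by simp)))⟩
    all_goals (push_cast; linarith)
  · refine ⟨_, _, rfl, rfl,
      next hF h hl0 hK _ hA hc h1 h2 (l' := (i : ℝ) * (l / l0)) ?_ ?_ ?_ ?_ ?_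
        (Or.inr rfl) (Or.inr rfl) (Or.inl rfl) (mM (h3.resolve_left (by simp))) mQ⟩
    all_goals (push_cast; linarith)

open Classical in
theorem init14 {T : E K →L[ℝ] Y} {N l0 : ℕ} (hF : Fr T) (hl0 : 20 ≤ l0) :
    Inv T N l0 0 {0, T ((1 / 2 : ℝ) • fv K K)} 0 ((1 / 2 : ℝ) • fv K K) (1 / 2) := by
  have e0 : (20 : ℝ) ≤ l0 := by exact_mod_cast hl0
  have hu : (1 / 2 : ℝ) / l0 ≤ 1 / 40 := by
    rw [div_le_div_iff₀ (by linarith) (by norm_num)]; linarith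
  have hn : ‖(1 / 2 : ℝ) • fv K K‖ = 1 / 2 := by rw [norm_smul, norm_fv]; norm_num
  have hs : Supp (0 * N) ((1 / 2 : ℝ) • fv K K) := fun j _ h2 => by
    simp [fv_apply le_rfl, h2.ne]
  have hz : Supp (0 * N) (0 : E K) := fun j _ _ => rfl
  have hb := hF.up ((1 / 2 : ℝ) • fv K K)
  refine ⟨by norm_num, by simp [fv_apply le_rfl], hz, hs, by rw [sub_zero, hn]; simp, by simp,
    by simp, by simp, fun y hy => ?_, HI.init 24 (Finset.card_le_two.trans (by norm_num)) _ _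
      (by positivity), fun y hy => ?_, by rw [map_zero, norm_zero]; linarith, by linarith⟩
  · rcases Finset.mem_insert.1 hy with rfl | hy
    · exact ⟨0, (map_zero T).symm, hz⟩
    · exact ⟨_, Finset.mem_singleton.1 hy, hs⟩
  · rcases Finset.mem_insert.1 hy with rfl | hy
    · simp
    · rw [Finset.mem_singleton.1 hy]; linarith

theorem game14 (Y : Type*) [NormedAddCommGroup Y] [NormedSpace ℝ Y] : GameProp (hLam 24) Y := by
  classical
  intro hY d L hL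
  obtain ⟨N, l0, R, hN, hl0, hR, hW⟩ := win_abs d L hL
  obtain ⟨T, h1, h2⟩ := frame Y hY (R * N + 1)
  have hF : Fr (K := R * N) T := ⟨h1, h2⟩
  have e0 : (0 : ℝ) < l0 := by exact_mod_cast (by omega : 0 < l0)
  refine hW Y (Good (hLam 24))
    (fun r H x => ∃ α β, x.1 = T α ∧ x.2.1 = T β ∧ Inv T N l0 r H α β x.2.2) ?_ ?_ ?_
    {0, T ((1 / 2 : ℝ) • fv _ (R * N))} (T 0, T ((1 / 2 : ℝ) • fv _ (R * N)), 1 / 2)
    ⟨_, _, rfl, rfl, init14 hF (by omega)⟩ ?_ (by simp)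
  · rintro r H ⟨a, b, l⟩ ⟨α, β, rfl, rfl, h⟩
    exact ⟨h.lpos, h.ha, h.hb⟩
  · rintro H ⟨a, b, l⟩ ⟨α, β, rfl, rfl, h⟩
    refine ⟨⟨h.h0, h.n1, by exact_mod_cast h.hi.pk⟩, ?_⟩
    have hl : 0 < l := h.lpos
    have e1 : ‖β - α‖ ^ 2 ≤ l ^ 2 * (1 + 7 * R / (l0 : ℝ) ^ 2) := h.nrm
    have e2 : 7 * (R : ℝ) / (l0 : ℝ) ^ 2 ≤ 847 * L ^ 2 := by
      rw [div_le_iff₀ (by positivity)]; linarith
    have e3 : (1 : ℝ) ≤ L ^ 2 := one_le_pow₀ hL
    have e4 : ‖β - α‖ ^ 2 ≤ (30 * L * l) ^ 2 := by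
      have : l ^ 2 * (1 + 7 * R / (l0 : ℝ) ^ 2) ≤ l ^ 2 * (900 * L ^ 2) :=
        mul_le_mul_of_nonneg_left (by linarith) (sq_nonneg _)
      nlinarith
    have e5 := (pow_le_pow_iff_left₀ (norm_nonneg _) (by positivity) two_ne_zero).1 e4
    show ‖T α - T β‖ ≤ 30 * L * l
    rw [norm_sub_rev, ← map_sub]
    exact (hF.up _).trans e5
  · rintro r H ⟨a, b, l⟩ hr ⟨α, β, rfl, rfl, h⟩
    exact step14 hF h hl0 (Nat.mul_le_mul_right _ hr)
  · have := hF.top ((1 / 2 : ℝ) • fv (R * N) (R * N))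
    show (1 / 2 : ℝ) / 4 ≤ ‖T 0 - T ((1 / 2 : ℝ) • fv (R * N) (R * N))‖
    rw [map_zero, zero_sub, norm_neg]
    refine le_trans (le_of_eq ?_) this
    simp [fv_apply le_rfl]

end Crest.Agent.R254.S.G14
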