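import Crest.Agent.R254.SDefs
import Crest.Agent.R254.HPack
import Crest.Agent.R254.Frame

/-! Row 254: geometry of the game (points of one round, invariant). -/

set_option autoImplicit false
noncomputable section
namespace Crest.Agent.R254.S.G14

abbrev E (K : ℕ) := EuclideanSpace ℝ (Fin (K + 1))

variable {K : ℕ} {Y : Type*} [NormedAddCommGroup Y] [NormedSpace ℝ Y]

def fv (K n : ℕ) : E K := EuclideanSpace.single (⟨min n K, by omega⟩ : Fin (K + 1)) 1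

theorem fv_apply {n : ℕ} (hn : n ≤ K) (j : Fin (K + 1)) :
    fv K n j = if j.val = n then 1 else 0 := by
  unfold fv
  rw [PiLp.single_apply]
  simp only [Fin.ext_iff, min_eq_left hn]

theorem norm_fv (n : ℕ) : ‖fv K n‖ = 1 := by simp [fv]

theorem inner_fv {n : ℕ} (hn : n ≤ K) (w : E K) : inner ℝ w (fv K n) = w ⟨n, by omega⟩ := by
  unfold fv
  rw [EuclideanSpace.inner_single_right]
  simp [min_eq_left hn]

def Supp (c : ℕ) (x : E K) : Prop := ∀ j : Fin (K + 1), c ≤ j.val → j.val < K → x j = 0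

theorem Supp.mono {c c' : ℕ} {x : E K} (h : Supp c x) (hc : c ≤ c') : Supp c' x :=
  fun j h1 h2 => h j (by omega) h2

theorem Supp.sub {c : ℕ} {x y : E K} (h : Supp c x) (h' : Supp c y) : Supp c (x - y) :=
  fun j h1 h2 => by simp [h j h1 h2, h' j h1 h2]

structure Fr (T : E K →L[ℝ] Y) : Prop where
  up : ∀ x, ‖T x‖ ≤ ‖x‖
  lo : ∀ (i : Fin (K + 1)) (x : E K), (∀ j, i < j → x j = 0) → |x i| / 4 ≤ ‖T x‖

theorem Fr.top {T : E K →L[ℝ] Y} (h : Fr T) (x : E K) : |x (Fin.last K)| / 4 ≤ ‖T x‖ :=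
  h.lo _ x fun j hj => absurd hj (not_lt.2 (Fin.le_last j))

theorem Fr.fresh {T : E K →L[ℝ] Y} (h : Fr T) {n : ℕ} (hn : n < K) {x : E K}
    (hx : Supp (n + 1) x) : |x ⟨n, by omega⟩| / 20 ≤ ‖T x‖ := by
  have h1 := h.top x
  have h2 := h.lo ⟨n, by omega⟩ (x - x (Fin.last K) • fv K K) fun j hj => by
    have hj' : n < j.val := hj
    simp only [PiLp.sub_apply, PiLp.smul_apply, fv_apply le_rfl, smul_eq_mul]
    by_cases e : j.val = K
    · have : j = Fin.last K := Fin.ext e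
      rw [if_pos e, this]; ring
    · rw [if_neg e, hx j (by omega) (by omega)]; ring
  simp only [PiLp.sub_apply, PiLp.smul_apply, fv_apply le_rfl, smul_eq_mul, if_neg hn.ne,
    mul_zero, sub_zero] at h2
  have h3 := h.up (x (Fin.last K) • fv K K)
  rw [norm_smul, norm_fv, mul_one, Real.norm_eq_abs] at h3
  rw [map_sub] at h2
  have h4 := norm_sub_le (T x) (T (x (Fin.last K) • fv K K))
  linarith

structure Inv (T : E K →L[ℝ] Y) (N l0 r : ℕ) (H : Finset Y) (α β : E K) (l : ℝ) : Prop where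
  lpos : 0 < l
  top : β (Fin.last K) - α (Fin.last K) = l
  sa : Supp (r * N) α
  sb : Supp (r * N) β
  nrm : ‖β - α‖ ^ 2 ≤ l ^ 2 * (1 + 7 * r / (l0 : ℝ) ^ 2)
  ha : T α ∈ H
  hb : T β ∈ H
  h0 : (0 : Y) ∈ H
  sup : ∀ y ∈ H, ∃ x, y = T x ∧ Supp (r * N) x
  hi : HI 24 H (T α) (T β) (l / l0)
  n1 : ∀ y ∈ H, ‖y‖ ≤ 1
  na : ‖T α‖ ≤ 1 - 5 / 2 * (l / l0)
  nb : ‖T β‖ ≤ 1 - 5 / 2 * (l / l0)

/-- the points of a round -/
def pt (α β : E K) (l : ℝ) (c : ℕ) (s σ : ℝ) (i : ℕ) : E K :=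
  α + s • (l⁻¹ • (β - α)) + σ • fv K (c + i - 1)

section
variable {T : E K →L[ℝ] Y} {N l0 r : ℕ} {H : Finset Y} {α β : E K} {l : ℝ}

theorem pt_zero (c i : ℕ) : pt α β l c 0 0 i = α := by simp [pt]

theorem pt_len (hl : 0 < l) (c i : ℕ) : pt α β l c l 0 i = β := by
  simp [pt, smul_smul, mul_inv_cancel₀ hl.ne']

theorem pt_top (h : Inv T N l0 r H α β l) {i : ℕ} (hi : r * N + i - 1 < K) (s σ : ℝ) :
    pt α β l (r * N) s σ i (Fin.last K) = α (Fin.last K) + s := by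
  have := h.lpos
  simp only [pt, PiLp.add_apply, PiLp.smul_apply, PiLp.sub_apply, fv_apply hi.le, smul_eq_mul,
    h.top, Fin.val_last, if_neg hi.ne']
  field_simp
  ring

theorem pt_co (h : Inv T N l0 r H α β l) {i : ℕ} (hi : r * N + i - 1 < K) (s σ : ℝ)
    (j : Fin (K + 1)) (h1 : r * N ≤ j.val) (h2 : j.val < K) :
    pt α β l (r * N) s σ i j = if j.val = r * N + i - 1 then σ else 0 := by
  simp only [pt, PiLp.add_apply, PiLp.smul_apply, PiLp.sub_apply, fv_apply hi.le, smul_eq_mul,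
    h.sa j h1 h2, h.sb j h1 h2]
  split_ifs <;> ring

theorem pt_supp (h : Inv T N l0 r H α β l) {i : ℕ} (h1 : 1 ≤ i) (hi : r * N + i - 1 < K)
    (s σ : ℝ) : Supp (r * N + i - 1 + 1) (pt α β l (r * N) s σ i) := fun j e1 e2 => by
  rw [pt_co h hi s σ j (by omega) e2, if_neg (by omega)]

theorem pt_seg (h : Inv T N l0 r H α β l) {s : ℝ} (h0 : 0 ≤ s) (h1 : s ≤ l) :
    T (α + s • (l⁻¹ • (β - α))) ∈ segment ℝ (T α) (T β) := by
  have := h.lpos
  rw [segment_eq_image']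
  refine ⟨s / l, ⟨by positivity, (div_le_one this).2 h1⟩, ?_⟩
  simp only [map_add, map_smul, map_sub, smul_smul, div_eq_mul_inv]

theorem pt_dist (hF : Fr T) (c i : ℕ) (s σ : ℝ) :
    dist (T (pt α β l c s σ i)) (T (α + s • (l⁻¹ • (β - α)))) ≤ |σ| := by
  rw [dist_eq_norm, ← map_sub]
  refine (hF.up _).trans ?_
  simp [pt, norm_smul, norm_fv]

theorem pt_tube (hF : Fr T) (h : Inv T N l0 r H α β l) (c i : ℕ) {s σ : ℝ} (h0 : 0 ≤ s)
    (h1 : s ≤ l) (hσ : |σ| ≤ l / l0) : T (pt α β l c s σ i) ∈ Tube (T α) (T β) (l / l0) :=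
  ⟨_, pt_seg h h0 h1, (pt_dist hF c i s σ).trans hσ⟩

theorem pt_norm (hF : Fr T) (h : Inv T N l0 r H α β l) (c i : ℕ) {s σ : ℝ} (h0 : 0 ≤ s)
    (h1 : s ≤ l) (hσ : |σ| ≤ l / l0) : ‖T (pt α β l c s σ i)‖ ≤ 1 - 3 / 2 * (l / l0) := by
  have e1 := pt_dist (α := α) (β := β) (l := l) hF c i s σ
  have e2 : ‖T (α + s • (l⁻¹ • (β - α)))‖ ≤ 1 - 5 / 2 * (l / l0) := by
    have := (convex_closedBall (0 : Y) (1 - 5 / 2 * (l / l0))).segment_subset
      (mem_closedBall_zero_iff.2 h.na) (mem_closedBall_zero_iff.2 h.nb) (pt_seg h h0 h1)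
    exact mem_closedBall_zero_iff.1 this
  have e3 := norm_le_norm_add_norm_sub' (T (pt α β l c s σ i)) (T (α + s • (l⁻¹ • (β - α))))
  rw [dist_eq_norm] at e1
  linarith

theorem pt_nrm (h : Inv T N l0 r H α β l) {i : ℕ} (h1 : 1 ≤ i) (hi : r * N + i - 1 < K)
    (s σ s' σ' : ℝ) : ‖pt α β l (r * N) s' σ' i - pt α β l (r * N) s σ i‖ ^ 2 ≤
      (s' - s) ^ 2 * (1 + 7 * r / (l0 : ℝ) ^ 2) + (σ' - σ) ^ 2 := by
  have hl := h.lpos
  have e : pt α β l (r * N) s' σ' i - pt α β l (r * N) s σ i =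
      ((s' - s) * l⁻¹) • (β - α) + (σ' - σ) • fv K (r * N + i - 1) := by
    simp only [pt, smul_smul, sub_mul, sub_smul]; abel
  rw [e, norm_add_sq_real, inner_smul_left, inner_smul_right, inner_fv hi.le,
    (h.sb.sub h.sa) _ (by simp only; omega) hi, norm_smul, norm_smul, norm_fv, mul_pow, mul_pow,
    Real.norm_eq_abs, Real.norm_eq_abs, sq_abs, sq_abs]
  have e2 : ((s' - s) * l⁻¹) ^ 2 * ‖β - α‖ ^ 2 ≤
      ((s' - s) * l⁻¹) ^ 2 * (l ^ 2 * (1 + 7 * r / (l0 : ℝ) ^ 2)) :=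
    mul_le_mul_of_nonneg_left h.nrm (sq_nonneg _)
  have e3 : ((s' - s) * l⁻¹) ^ 2 * (l ^ 2 * (1 + 7 * r / (l0 : ℝ) ^ 2)) =
      (s' - s) ^ 2 * (1 + 7 * r / (l0 : ℝ) ^ 2) := by field_simp
  simp only [mul_zero, add_zero, one_pow, mul_one]
  linarith

/-- the new points of a round -/
def NewP (T : E K →L[ℝ] Y) (N l0 r : ℕ) (α β : E K) (l : ℝ) (y : Y) : Prop :=
  ∃ (n : ℤ) (i : ℕ), 1 ≤ i ∧ i ≤ N ∧ (n = -i ∨ n = 0 ∨ n = i) ∧
    y = T (pt α β l (r * N) (l / 2 + n * (l / l0)) (l / l0) i)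

theorem range_s (h : Inv T N l0 r H α β l) (hl0 : 10 * N ≤ l0) {n : ℤ} {i : ℕ} (h1 : 1 ≤ i)
    (h2 : i ≤ N) (hn : n = -i ∨ n = 0 ∨ n = i) :
    2 / 5 * l ≤ l / 2 + n * (l / l0) ∧ l / 2 + n * (l / l0) ≤ 3 / 5 * l := by
  have hl := h.lpos
  have e0 : (0 : ℝ) < l0 := by exact_mod_cast (by omega : 0 < l0)
  have e1 : (10 : ℝ) * i ≤ l0 := by exact_mod_cast (by omega : 10 * i ≤ l0)
  have e2 : (i : ℝ) * (l / l0) ≤ l / 10 := by
    rw [← mul_div_assoc, div_le_div_iff₀ e0 (by norm_num)]; nlinarith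
  have e3 : 0 ≤ (i : ℝ) * (l / l0) := by positivity
  rcases hn with rfl | rfl | rfl <;> push_cast <;> constructor <;> linarith

theorem sep_old (hF : Fr T) (h : Inv T N l0 r H α β l) (hK : (r + 1) * N ≤ K) {y z : Y}
    (hy : NewP T N l0 r α β l y) (hz : z ∈ H) : l / l0 / 20 ≤ dist y z := by
  obtain ⟨n, i, h1, h2, -, rfl⟩ := hy
  obtain ⟨x, rfl, hx⟩ := h.sup z hz
  have hi : r * N + i - 1 < K := by rw [Nat.succ_mul] at hK; omega
  have := hF.fresh hi ((pt_supp h h1 hi (l / 2 + n * (l / l0)) (l / l0)).sub (hx.mono (by omega)))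
  rw [PiLp.sub_apply, pt_co h hi _ _ _ (by simp only; omega) hi, if_pos rfl,
    hx _ (by simp only; omega) hi, sub_zero, map_sub] at this
  rw [dist_eq_norm]
  have := le_abs_self (l / l0)
  linarith

theorem sep_lt (hF : Fr T) (h : Inv T N l0 r H α β l) (hK : (r + 1) * N ≤ K) {i i' : ℕ}
    (h1 : 1 ≤ i') (h2 : i' < i) (h3 : i ≤ N) (s s' : ℝ) : l / l0 / 20 ≤
      ‖T (pt α β l (r * N) s (l / l0) i) - T (pt α β l (r * N) s' (l / l0) i')‖ := by
  have hi : r * N + i - 1 < K := by rw [Nat.succ_mul] at hK; omega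
  have hi' : r * N + i' - 1 < K := by omega
  have := hF.fresh hi ((pt_supp h (by omega) hi s (l / l0)).sub
    ((pt_supp h h1 hi' s' (l / l0)).mono (by omega)))
  rw [PiLp.sub_apply, pt_co h hi _ _ _ (by simp only; omega) hi, if_pos rfl,
    pt_co h hi' _ _ _ (by simp only; omega) hi, if_neg (by simp only; omega), sub_zero,
    map_sub] at this
  have := le_abs_self (l / l0)
  linarith

theorem int_sep {n n' : ℤ} (h : n ≠ n') {u c : ℝ} (hu : 0 ≤ u) :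
    u ≤ |(c + n * u) - (c + n' * u)| := by
  have e : (c + n * u) - (c + n' * u) = ((n - n' : ℤ) : ℝ) * u := by push_cast; ring
  rw [e, abs_mul, abs_of_nonneg hu]
  have : (1 : ℝ) ≤ |((n - n' : ℤ) : ℝ)| := by
    exact_mod_cast Int.one_le_abs (sub_ne_zero.2 h)
  nlinarith

theorem sep_new (hF : Fr T) (h : Inv T N l0 r H α β l) (hK : (r + 1) * N ≤ K) {y z : Y}
    (hy : NewP T N l0 r α β l y) (hz : NewP T N l0 r α β l z) (hne : z ≠ y) :
    l / l0 / 20 ≤ dist y z := by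
  obtain ⟨n, i, h1, h2, -, rfl⟩ := hy
  obtain ⟨n', i', h1', h2', -, rfl⟩ := hz
  rw [dist_eq_norm]
  rcases lt_trichotomy i i' with e | rfl | e
  · rw [norm_sub_rev]; exact sep_lt hF h hK h1 e h2' _ _
  · have hi : r * N + i - 1 < K := by rw [Nat.succ_mul] at hK; omega
    have hn : n ≠ n' := fun e => hne (by rw [e])
    have hu : 0 ≤ l / l0 := h.hi.upos.le
    have e1 := hF.top (pt α β l (r * N) (l / 2 + n * (l / l0)) (l / l0) i -
      pt α β l (r * N) (l / 2 + n' * (l / l0)) (l / l0) i)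
    rw [PiLp.sub_apply, pt_top h hi, pt_top h hi, map_sub, add_sub_add_left_eq_sub] at e1
    have e2 := int_sep hn (c := l / 2) hu
    linarith
  · exact sep_lt hF h hK h1' e h2 _ _

open Classical in
/-- the top coordinate of a point of the range of `T` -/
def tc (T : E K →L[ℝ] Y) (y : Y) : ℝ :=
  if h : ∃ x, y = T x then h.choose (Fin.last K) else 0

theorem tc_T (hF : Fr T) (x : E K) : tc T (T x) = x (Fin.last K) := by
  have h : ∃ x', T x = T x' := ⟨x, rfl⟩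
  rw [tc, dif_pos h]
  have e := hF.top (h.choose - x)
  rw [map_sub, ← h.choose_spec, sub_self, norm_zero, PiLp.sub_apply] at e
  have := abs_nonneg (h.choose (Fin.last K) - x (Fin.last K))
  exact sub_eq_zero.1 (abs_eq_zero.1 (by linarith))

theorem cnt (hF : Fr T) (h : Inv T N l0 r H α β l) (hK : (r + 1) * N ≤ K) (D : ℕ) (S : Finset Y)
    (hS : ∀ y ∈ S, ∃ (n : ℤ) (i : ℕ), 1 ≤ i ∧ i ≤ N ∧ (n = -i ∨ n = i) ∧
      y = T (pt α β l (r * N) (l / 2 + n * (l / l0)) (l / l0) i))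
    (hD : ∀ x ∈ S, ∀ y ∈ S, dist x y ≤ D * (l / l0)) : S.card ≤ 4 * D + 1 := by
  have hu := h.hi.upos
  rw [Nat.succ_mul] at hK
  refine HP.real_pack S (tc T) hu (4 * D) (fun x hx y hy hne => ?_) fun x hx y hy => ?_
  · obtain ⟨n, i, h1, h2, hn, rfl⟩ := hS x hx
    obtain ⟨n', i', h1', h2', hn', rfl⟩ := hS y hy
    have hnn : n ≠ n' := fun e => hne (by
      have : i = i' := by omega
      rw [e, this])
    rw [tc_T hF, tc_T hF, pt_top h (by omega), pt_top h (by omega), add_sub_add_left_eq_sub]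
    exact int_sep hnn hu.le
  · have e := hD x hx y hy
    obtain ⟨n, i, h1, h2, hn, rfl⟩ := hS x hx
    obtain ⟨n', i', h1', h2', hn', rfl⟩ := hS y hy
    rw [tc_T hF, tc_T hF, ← PiLp.sub_apply]
    rw [dist_eq_norm, ← map_sub] at e
    have e1 := hF.top (pt α β l (r * N) (l / 2 + n * (l / l0)) (l / l0) i -
      pt α β l (r * N) (l / 2 + n' * (l / l0)) (l / l0) i')
    push_cast
    linarith

theorem next [DecidableEq Y] (hF : Fr T) (h : Inv T N l0 r H α β l) (hl0 : 10 * N ≤ l0)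
    (hK : (r + 1) * N ≤ K) (A : Finset Y) (hA : ∀ y ∈ A, NewP T N l0 r α β l y)
    (hc : ∀ D : ℕ, ∀ S : Finset Y, S ⊆ A → (∀ x ∈ S, ∀ y ∈ S, dist x y ≤ D * (l / l0)) →
      S.card ≤ 4 * D + 3) {i : ℕ} (h1 : 1 ≤ i) (h2 : i ≤ N) {s σ s' σ' l' : ℝ} (hs : 0 ≤ s)
    (hs' : s' ≤ l) (hl' : s' - s = l') (hp : 0 < l') (h35 : l' ≤ 3 / 5 * l)
    (hσ : σ = 0 ∨ σ = l / l0) (hσ' : σ' = 0 ∨ σ' = l / l0) (hcase : σ = σ' ∨ 2 / 5 * l ≤ l')
    (ma : T (pt α β l (r * N) s σ i) ∈ H ∪ A) (mb : T (pt α β l (r * N) s' σ' i) ∈ H ∪ A) :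
    Inv T N l0 (r + 1) (H ∪ A) (pt α β l (r * N) s σ i) (pt α β l (r * N) s' σ' i) l' := by
  have hl := h.lpos
  have hu := h.hi.upos
  have hK' := hK
  rw [Nat.succ_mul] at hK'
  have hi : r * N + i - 1 < K := by omega
  have e0 : (0 : ℝ) < l0 := by exact_mod_cast (by omega : 0 < l0)
  have a1 : |σ| ≤ l / l0 := by rcases hσ with rfl | rfl <;> simp [abs_of_pos, hu, hu.le]
  have a2 : |σ'| ≤ l / l0 := by rcases hσ' with rfl | rfl <;> simp [abs_of_pos, hu, hu.le]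
  have hu' : l' / l0 ≤ 3 / 5 * (l / l0) := by
    rw [← mul_div_assoc]; exact div_le_div_of_nonneg_right h35 e0.le
  have hsup : ∀ (s σ : ℝ) (i : ℕ), 1 ≤ i → i ≤ N → Supp ((r + 1) * N) (pt α β l (r * N) s σ i) :=
    fun s σ i h1 h2 => (pt_supp h h1 (by omega) s σ).mono (by rw [Nat.succ_mul]; omega)
  have hau : |l / l0| ≤ l / l0 := (abs_of_pos hu).le
  refine ⟨hp, ?_, hsup _ _ _ h1 h2, hsup _ _ _ h1 h2, ?_, ma, mb, Finset.mem_union_left _ h.h0,
    fun y hy => ?_, ?_, fun y hy => ?_, ?_, ?_⟩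
  · rw [pt_top h hi, pt_top h hi]; linarith
  · have e1 := pt_nrm h h1 hi s σ s' σ'
    rw [hl'] at e1
    have e2 : (σ' - σ) ^ 2 ≤ l' ^ 2 * (7 / (l0 : ℝ) ^ 2) := by
      rcases hcase with rfl | e
      · simp only [sub_self]; rw [zero_pow two_ne_zero]; positivity
      · have e3 : (σ' - σ) ^ 2 ≤ (l / l0) ^ 2 := by
          rcases hσ with rfl | rfl <;> rcases hσ' with rfl | rfl <;> nlinarith
        have e4 : (l / l0) ^ 2 ≤ l' ^ 2 * (7 / (l0 : ℝ) ^ 2) := by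
          rw [div_pow, ← mul_div_assoc]
          exact div_le_div_of_nonneg_right (by nlinarith) (by positivity)
        linarith
    have e5 : l' ^ 2 * (1 + 7 * ((r + 1 : ℕ) : ℝ) / (l0 : ℝ) ^ 2) =
        l' ^ 2 * (1 + 7 * r / (l0 : ℝ) ^ 2) + l' ^ 2 * (7 / (l0 : ℝ) ^ 2) := by
      push_cast; ring
    linarith
  · rcases Finset.mem_union.1 hy with hy | hy
    · obtain ⟨x, e, hx⟩ := h.sup y hy
      exact ⟨x, e, hx.mono (by rw [Nat.succ_mul]; omega)⟩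
    · obtain ⟨n, i, h1, h2, -, rfl⟩ := hA y hy
      exact ⟨_, rfl, hsup _ _ _ h1 h2⟩
  · refine h.hi.step A (fun y hy => ?_) (fun y hy z hz hne => ?_) hc
      (pt_tube hF h _ _ hs (by linarith) a1) (pt_tube hF h _ _ (by linarith) hs' a2)
      (by positivity) hu'
    · obtain ⟨n, i, h1, h2, hn, rfl⟩ := hA y hy
      have := range_s h hl0 h1 h2 hn
      exact pt_tube hF h _ _ (by linarith) (by linarith) hau
    · rcases Finset.mem_union.1 hz with hz | hz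
      · exact sep_old hF h hK (hA y hy) hz
      · exact sep_new hF h hK (hA y hy) (hA z hz) hne
  · rcases Finset.mem_union.1 hy with hy | hy
    · exact h.n1 y hy
    · obtain ⟨n, i, h1, h2, hn, rfl⟩ := hA y hy
      have := range_s h hl0 h1 h2 hn
      have := pt_norm hF h (r * N) i (s := l / 2 + n * (l / l0)) (by linarith) (by linarith) hau
      linarith
  · have := pt_norm hF h (r * N) i hs (by linarith) a1
    linarith
  · have := pt_norm hF h (r * N) i (s := s') (by linarith) hs' a2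
    linarith

end

end Crest.Agent.R254.S.G14
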