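import Crest.Agent.R254.GeoDef
import Crest.Agent.R254.HPack
import Crest.Agent.R254.Frame

/-! Row 254: geometry of the game (invariant of one round). -/

set_option autoImplicit false
noncomputable section
namespace Crest.Agent.R254.G2

open Crest.Agent.R254.S (Eu)

variable {Y : Type*} [NormedAddCommGroup Y] [NormedSpace ℝ Y] {M : ℕ}

/-- `i`-th basis vector -/
def ee (M i : ℕ) : Eu (M + 1) := WithLp.toLp 2 fun j => if j.val = i then 1 else 0

theorem ee_apply (i : ℕ) (j : Fin (M + 1)) : ee M i j = if j.val = i then 1 else 0 := rfl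

theorem ee_sq (i : ℕ) : ‖ee M i‖ ^ 2 ≤ 1 := by
  rw [EuclideanSpace.real_norm_sq_eq]
  by_cases h : i < M + 1
  · rw [Finset.sum_eq_single ⟨i, h⟩]
    · simp [ee_apply]
    · intro j _ hj
      have : j.val ≠ i := fun e => hj (Fin.ext e)
      simp [ee_apply, this]
    · simp
  · rw [Finset.sum_eq_zero]
    · norm_num
    · intro j _
      have : j.val ≠ i := fun e => h (e ▸ j.2)
      simp [ee_apply, this]

theorem ee_norm (i : ℕ) : ‖ee M i‖ ≤ 1 := by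
  have := ee_sq (M := M) i
  nlinarith [norm_nonneg (ee M i)]

/-- supported on the indices `< n` and the last one -/
def Sp (n : ℕ) (x : Eu (M + 1)) : Prop := ∀ j : Fin (M + 1), n ≤ j.val → j.val < M → x j = 0

theorem Sp.mono {n n' : ℕ} {x : Eu (M + 1)} (h : Sp n x) (hn : n ≤ n') : Sp n' x :=
  fun j h1 h2 => h j (hn.trans h1) h2

/-- triangular frame -/
def Fr (T : Eu (M + 1) →L[ℝ] Y) : Prop :=
  (∀ x, ‖T x‖ ≤ ‖x‖) ∧ ∀ (i : Fin (M + 1)) (x : Eu (M + 1)), (∀ j, i < j → x j = 0) → |x i| / 4 ≤ ‖T x‖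

variable {T : Eu (M + 1) →L[ℝ] Y}

theorem Fr.low (hT : Fr T) (x : Eu (M + 1)) : |x (Fin.last M)| / 4 ≤ ‖T x‖ :=
  hT.2 _ x fun j hj => absurd hj (not_lt.2 (Fin.le_last j))

theorem Fr.sep (hT : Fr T) (x : Eu (M + 1)) (i : ℕ) (hi : i < M) (hx : Sp (i + 1) x) {u : ℝ}
    (hu : |x ⟨i, by omega⟩| = u) : u / 20 ≤ ‖T x‖ := by
  have h1 := hT.low x
  have h2 := hT.2 ⟨i, by omega⟩ (x - x (Fin.last M) • ee M M) (by
    intro j hj
    have hj' : i < j.val := hj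
    by_cases e : j.val = M
    · have : j = Fin.last M := Fin.ext e
      subst this
      simp [ee_apply]
    · have := hx j (by omega) (by omega)
      simp [ee_apply, e, this])
  have h3 : (x - x (Fin.last M) • ee M M) ⟨i, by omega⟩ = x ⟨i, by omega⟩ := by
    simp [ee_apply, hi.ne]
  rw [h3, hu, map_sub, map_smul] at h2
  have h4 : ‖x (Fin.last M) • T (ee M M)‖ ≤ |x (Fin.last M)| := by
    rw [norm_smul, Real.norm_eq_abs]
    have := (hT.1 (ee M M)).trans (ee_norm M)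
    nlinarith [abs_nonneg (x (Fin.last M))]
  have h5 := norm_sub_le (T x) (x (Fin.last M) • T (ee M M))
  linarith

theorem norm_add_ee (w : Eu (M + 1)) (i : ℕ) (hi : i < M) (n : ℕ) (hn : n ≤ i) (hw : Sp n w) (c : ℝ) :
    ‖w + c • ee M i‖ ^ 2 ≤ ‖w‖ ^ 2 + c ^ 2 := by
  have h0 : inner ℝ w (ee M i) = 0 := by
    rw [PiLp.inner_apply]
    refine Finset.sum_eq_zero fun j _ => ?_
    by_cases e : j.val = i
    · simp [hw j (by omega) (by omega)]
    · simp [ee_apply, e]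
  rw [norm_add_sq_real, inner_smul_right, h0, norm_smul, mul_pow, Real.norm_eq_abs, sq_abs]
  have := ee_sq (M := M) i
  nlinarith [sq_nonneg c]

/-- the invariant -/
structure Inv (T : Eu (M + 1) →L[ℝ] Y) (N l0 ρ : ℕ) (c0 : ℝ) (r : ℕ) (H : Finset Y) (a b : Y) (l : ℝ) :
    Prop where
  lpos : 0 < l
  ha : a ∈ H
  hb : b ∈ H
  zero : (0 : Y) ∈ H
  nrm : ∀ y ∈ H, ‖y‖ ≤ c0
  na : ‖a‖ ≤ c0 - 5 / 2 * (l / l0)
  nb : ‖b‖ ≤ c0 - 5 / 2 * (l / l0)
  hi : HI ρ H a b (l / l0)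
  sup : ∀ y ∈ H, ∃ x, y = T x ∧ Sp (r * N) x
  seg : ∃ xa w : Eu (M + 1), a = T xa ∧ b = T (xa + l • w) ∧ Sp (r * N) xa ∧ Sp (r * N) w ∧
    w (Fin.last M) = 1 ∧ ‖w‖ ^ 2 ≤ 1 + 25 / 4 * r / (l0 : ℝ) ^ 2

theorem Inv.len {N l0 ρ : ℕ} {c0 : ℝ} {r : ℕ} {H : Finset Y} {a b : Y} {l : ℝ} (hT : Fr T)
    (h : Inv T N l0 ρ c0 r H a b l) {C : ℝ} (hC : 0 ≤ C) (hr : 1 + 25 / 4 * r / (l0 : ℝ) ^ 2 ≤ C ^ 2) :
    ‖a - b‖ ≤ C * l := by
  obtain ⟨xa, w, rfl, rfl, -, -, -, hw⟩ := h.seg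
  have h1 : ‖w‖ ≤ C := abs_le_of_sq_le_sq' (hw.trans hr) hC |>.2
  rw [norm_sub_rev, ← map_sub, add_sub_cancel_left]
  refine (hT.1 _).trans ?_
  rw [norm_smul, Real.norm_of_nonneg h.lpos.le, mul_comm]
  exact mul_le_mul_of_nonneg_right h1 h.lpos.le

theorem Inv.init (hT : Fr T) [DecidableEq Y] (N l0 ρ : ℕ) {c0 : ℝ} (hc : 0 < c0) (hl : 10 ≤ l0) :
    Inv T N l0 ρ c0 0 {0, T ((c0 / 2) • ee M M)} 0 (T ((c0 / 2) • ee M M)) (c0 / 2) ∧
      c0 / 2 / 4 ≤ ‖(0 : Y) - T ((c0 / 2) • ee M M)‖ := by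
  have hl' : (10 : ℝ) ≤ l0 := by exact_mod_cast hl
  have hu : c0 / 2 / l0 ≤ c0 / 20 := by
    rw [div_le_iff₀ (by linarith)]; nlinarith
  have hn : ‖T ((c0 / 2) • ee M M)‖ ≤ c0 / 2 := by
    refine (hT.1 _).trans ?_
    rw [norm_smul, Real.norm_of_nonneg (by linarith)]
    have := ee_norm (M := M) M
    nlinarith
  have hsp : ∀ n, Sp n (ee M M) := fun n j _ h2 => by simp [ee_apply, h2.ne]
  refine ⟨⟨by linarith, by simp, by simp, by simp, ?_, by rw [norm_zero]; linarith, by linarith,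
    HI.init ρ (Finset.card_le_two.trans (by norm_num)) _ _ (by positivity), ?_,
    ⟨0, ee M M, by simp, by simp, fun j _ _ => rfl, hsp _, by simp [ee_apply], by
      simpa using ee_sq (M := M) M⟩⟩, ?_⟩
  · intro y hy
    rcases Finset.mem_insert.1 hy with rfl | hy
    · rw [norm_zero]; linarith
    · rw [Finset.mem_singleton.1 hy]; linarith
  · intro y hy
    rcases Finset.mem_insert.1 hy with rfl | hy
    · exact ⟨0, by simp, fun j _ _ => rfl⟩
    · refine ⟨_, Finset.mem_singleton.1 hy, fun j h1 h2 => ?_⟩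
      simp [hsp _ j h1 h2]
  · have := hT.low ((c0 / 2) • ee M M)
    rw [zero_sub, norm_neg]
    refine le_trans (le_of_eq ?_) this
    simp [ee_apply, abs_of_pos (half_pos hc)]

/-- point at horizontal position `s u`, height `c u` in direction `i` -/
def zz (xa w : Eu (M + 1)) (u s c : ℝ) (i : ℕ) : Eu (M + 1) := xa + (s * u) • w + (c * u) • ee M i

theorem zz_apply (xa w : Eu (M + 1)) (u s c : ℝ) (i : ℕ) (j : Fin (M + 1)) :
    zz xa w u s c i j = xa j + s * u * w j + c * u * (if j.val = i then 1 else 0) := by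
  simp [zz, ee_apply]

theorem zz_tube (hT : Fr T) (xa w : Eu (M + 1)) {u s c l0 : ℝ} (i : ℕ) (hu : 0 < u) (hl : 0 < l0)
    (hs : 0 ≤ s) (hs' : s ≤ l0) (hc : 0 ≤ c) (hc' : c ≤ 1) :
    T (zz xa w u s c i) ∈ Tube (T xa) (T (xa + (l0 * u) • w)) u := by
  refine ⟨T (xa + (s * u) • w), ?_, ?_⟩
  · rw [segment_eq_image']
    refine ⟨s / l0, ⟨by positivity, by rw [div_le_one hl]; exact hs'⟩, ?_⟩
    simp only [map_add, map_smul, add_sub_cancel_left, smul_smul]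
    congr 2
    field_simp
  · rw [dist_eq_norm, ← map_sub, zz, add_sub_cancel_left]
    refine (hT.1 _).trans ?_
    rw [norm_smul, Real.norm_of_nonneg (by positivity)]
    have := ee_norm (M := M) i
    have h2 : c * u ≤ u := by nlinarith
    have h3 : 0 ≤ c * u := by positivity
    nlinarith

theorem tube_norm {p q z : Y} {δ C : ℝ} (hz : z ∈ Tube p q δ) (hp : ‖p‖ ≤ C) (hq : ‖q‖ ≤ C) :
    ‖z‖ ≤ C + δ := by
  obtain ⟨y, hy, hd⟩ := hz
  have h1 : y ∈ Metric.closedBall (0 : Y) C :=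
    (convex_closedBall _ _).segment_subset (by simpa using hp) (by simpa using hq) hy
  have h2 : ‖y‖ ≤ C := by simpa using h1
  rw [dist_eq_norm] at hd
  have := norm_le_insert' z y
  linarith

theorem zz_hor (hT : Fr T) {xa w : Eu (M + 1)} (hw : w (Fin.last M) = 1) {u : ℝ} (hu : 0 < u)
    (s s' c c' : ℝ) {i i' : ℕ} (hi : i < M) (hi' : i' < M) :
    |s - s'| * u / 4 ≤ dist (T (zz xa w u s c i)) (T (zz xa w u s' c' i')) := by
  rw [dist_eq_norm, ← map_sub]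
  refine le_trans (le_of_eq ?_) (hT.low _)
  rw [PiLp.sub_apply, zz_apply, zz_apply, hw]
  simp only [Fin.val_last, hi.ne', hi'.ne', if_false]
  rw [show xa (Fin.last M) + s * u * 1 + c * u * 0 - (xa (Fin.last M) + s' * u * 1 + c' * u * 0)
    = (s - s') * u by ring, abs_mul, abs_of_pos hu]

theorem zz_sp {xa w : Eu (M + 1)} {n : ℕ} (h1 : Sp n xa) (h2 : Sp n w) (u s c : ℝ) {i n' : ℕ}
    (hn : n ≤ n') (hi : i < n') : Sp n' (zz xa w u s c i) := by
  intro j h3 h4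
  rw [zz_apply, h1 j (by omega) h4, h2 j (by omega) h4, if_neg (by omega)]
  ring

theorem zz_old (hT : Fr T) {xa w x : Eu (M + 1)} {n : ℕ} (h1 : Sp n xa) (h2 : Sp n w) {u : ℝ}
    (hu : 0 < u) (s : ℝ) {i n' : ℕ} (hn : n ≤ i) (hn' : n' ≤ i) (hi : i < M) (hx : Sp n' x) :
    u / 20 ≤ dist (T (zz xa w u s 1 i)) (T x) := by
  rw [dist_eq_norm, ← map_sub]
  refine hT.sep _ i hi (fun j h3 h4 => ?_) ?_
  · rw [PiLp.sub_apply, zz_sp h1 h2 u s 1 (n' := i + 1) (by omega) (by omega) j h3 h4,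
      hx j (by omega) h4, sub_zero]
  · rw [PiLp.sub_apply, zz_apply, h1 _ hn hi, h2 _ hn hi, hx _ hn' hi]
    simp [abs_of_pos hu]

theorem zz_two (hT : Fr T) {xa w : Eu (M + 1)} {n : ℕ} (h1 : Sp n xa) (h2 : Sp n w) {u : ℝ}
    (hu : 0 < u) (s s' : ℝ) {i i' : ℕ} (hn : n ≤ i) (hn' : n ≤ i') (hi : i < M) (hi' : i' < M)
    (hne : i ≠ i') : u / 20 ≤ dist (T (zz xa w u s 1 i)) (T (zz xa w u s' 1 i')) := by
  rcases lt_or_gt_of_ne hne with h | h
  · rw [dist_comm]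
    exact zz_old hT h1 h2 hu s' hn' (n' := i + 1) h hi' (zz_sp h1 h2 u s 1 (by omega) (by omega))
  · exact zz_old hT h1 h2 hu s hn (n' := i' + 1) h hi (zz_sp h1 h2 u s' 1 (by omega) (by omega))


theorem zz_a (xa w : Eu (M + 1)) (u : ℝ) (i : ℕ) : zz xa w u 0 0 i = xa := by simp [zz]

theorem zz_b (xa w : Eu (M + 1)) (u s : ℝ) (i : ℕ) : zz xa w u s 0 i = xa + (s * u) • w := by simp [zz]

theorem Inv.piece [DecidableEq Y] (hT : Fr T) {N l0 ρ : ℕ} {c0 : ℝ} {r : ℕ} {H : Finset Y}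
    {xa w : Eu (M + 1)} {u : ℝ} (hl : 0 < l0)
    (h : Inv T N l0 ρ c0 r H (T xa) (T (xa + ((l0 : ℝ) * u) • w)) (l0 * u))
    (h1 : Sp (r * N) xa) (h2 : Sp (r * N) w) (h3 : w (Fin.last M) = 1)
    (h4 : ‖w‖ ^ 2 ≤ 1 + 25 / 4 * r / (l0 : ℝ) ^ 2) (hM : (r + 1) * N ≤ M) (A : Finset Y)
    (hA : ∀ y ∈ A, ∃ (s : ℝ) (i : ℕ), 0 ≤ s ∧ s ≤ l0 ∧ r * N ≤ i ∧ i < (r + 1) * N ∧
      y = T (zz xa w u s 1 i))
    (hsep : ∀ y ∈ A, ∀ y' ∈ A, y' ≠ y → u / 20 ≤ dist y y')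
    (hcnt : ∀ D : ℕ, ∀ S : Finset Y, S ⊆ A → (∀ x ∈ S, ∀ y ∈ S, dist x y ≤ D * u) →
      S.card ≤ 4 * D + 3)
    (s1 s2 c1 c2 l' : ℝ) (i : ℕ) (hi : r * N ≤ i) (hi' : i < (r + 1) * N) (a1 : 0 ≤ s1) (a2 : s1 < s2)
    (a3 : s2 ≤ l0) (a4 : s2 - s1 ≤ 3 / 5 * l0) (b1 : 0 ≤ c1) (b2 : c1 ≤ 1) (b3 : 0 ≤ c2) (b4 : c2 ≤ 1)
    (hc : c1 = c2 ∨ 2 / 5 * l0 ≤ s2 - s1) (m1 : T (zz xa w u s1 c1 i) ∈ H ∪ A)
    (m2 : T (zz xa w u s2 c2 i) ∈ H ∪ A) (hl' : l' = (s2 - s1) * u) :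
    Inv T N l0 ρ c0 (r + 1) (H ∪ A) (T (zz xa w u s1 c1 i)) (T (zz xa w u s2 c2 i)) l' := by
  have l0p : (0 : ℝ) < l0 := by exact_mod_cast hl
  have hu : 0 < u := (pos_iff_pos_of_mul_pos h.lpos).1 l0p
  have eu : (l0 : ℝ) * u / l0 = u := by field_simp
  have hna := h.na
  have hnb := h.nb
  have hhi := h.hi
  rw [eu] at hna hnb hhi
  have hd : 0 < s2 - s1 := by linarith
  have hl'0 : 0 < l' := by rw [hl']; positivity
  have hu' : l' / l0 ≤ 3 / 5 * u := by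
    rw [div_le_iff₀ l0p, hl']; nlinarith
  have t1 := zz_tube hT xa w i hu l0p a1 (by linarith) b1 b2
  have t2 := zz_tube hT xa w i hu l0p (s := s2) (by linarith) a3 b3 b4
  have n1 := tube_norm t1 hna hnb
  have n2 := tube_norm t2 hna hnb
  have hle : r * N ≤ (r + 1) * N := Nat.mul_le_mul_right _ (Nat.le_succ r)
  have hAt : ∀ y ∈ A, y ∈ Tube (T xa) (T (xa + ((l0 : ℝ) * u) • w)) u := by
    intro y hy
    obtain ⟨s, i, e1, e2, -, -, rfl⟩ := hA y hy
    exact zz_tube hT xa w i hu l0p e1 e2 zero_le_one le_rfl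
  refine ⟨hl'0, m1, m2, Finset.mem_union_left _ h.zero, ?_, by linarith, by linarith,
    hhi.step A hAt ?_ hcnt t1 t2 (by positivity) hu', ?_,
    zz xa w u s1 c1 i, w + ((c2 - c1) / (s2 - s1)) • ee M i, rfl, ?_,
    zz_sp h1 h2 _ _ _ hle hi', ?_, ?_, ?_⟩
  · intro y hy
    rcases Finset.mem_union.1 hy with hy | hy
    · exact h.nrm y hy
    · have := tube_norm (hAt y hy) hna hnb
      linarith
  · intro y hy y' hy' hne
    rcases Finset.mem_union.1 hy' with hy' | hy'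
    · obtain ⟨s, i, -, -, e3, e4, rfl⟩ := hA y hy
      obtain ⟨x, rfl, hx⟩ := h.sup y' hy'
      exact zz_old hT h1 h2 hu s e3 e3 (by omega) hx
    · exact hsep y hy y' hy' hne
  · intro y hy
    rcases Finset.mem_union.1 hy with hy | hy
    · obtain ⟨x, rfl, hx⟩ := h.sup y hy
      exact ⟨x, rfl, hx.mono hle⟩
    · obtain ⟨s, i, -, -, e3, e4, rfl⟩ := hA y hy
      exact ⟨_, rfl, zz_sp h1 h2 _ _ _ hle e4⟩
  · congr 1
    ext j
    rw [PiLp.add_apply, PiLp.smul_apply, PiLp.add_apply, PiLp.smul_apply, zz_apply, zz_apply,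
      ee_apply, hl', smul_eq_mul, smul_eq_mul]
    field_simp
    ring
  · intro j e1 e2
    rw [PiLp.add_apply, PiLp.smul_apply, ee_apply, h2 j (by omega) e2, if_neg (by omega)]
    simp
  · rw [PiLp.add_apply, PiLp.smul_apply, ee_apply, h3, if_neg (by simp; omega)]
    simp
  · refine (norm_add_ee w i (by omega) _ hi h2 _).trans ?_
    have e : ((c2 - c1) / (s2 - s1)) ^ 2 ≤ 25 / 4 / (l0 : ℝ) ^ 2 := by
      rcases hc with rfl | hc
      · simp only [sub_self, zero_div]; norm_num; positivity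
      · rw [div_pow, div_le_div_iff₀ (by positivity) (by positivity)]
        have f1 : (c2 - c1) ^ 2 ≤ 1 := by nlinarith
        have f2 : (2 / 5 * (l0 : ℝ)) ^ 2 ≤ (s2 - s1) ^ 2 := pow_le_pow_left₀ (by positivity) hc 2
        nlinarith [sq_nonneg (l0 : ℝ)]
    have e2 : 1 + 25 / 4 * ((r + 1 : ℕ) : ℝ) / (l0 : ℝ) ^ 2
        = 1 + 25 / 4 * r / (l0 : ℝ) ^ 2 + 25 / 4 / (l0 : ℝ) ^ 2 := by push_cast; ring
    rw [e2]; linarith

theorem geo2 (Y : Type*) [NormedAddCommGroup Y] [NormedSpace ℝ Y] : G.GeoTask (hLam 24) Y := by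
  classical
  intro hY N l0 R hN hl C hC hR
  obtain ⟨T, hT⟩ := frame Y hY (R * N + 1)
  have hT : Fr T := hT
  have hN' : (2 : ℝ) ≤ N := by exact_mod_cast hN
  have hl' : (10 : ℝ) * N ≤ l0 := by exact_mod_cast hl
  have l0p : (0 : ℝ) < l0 := by linarith
  refine ⟨Inv T N l0 24 1, ⟨_, _, _, _, by simp, (Inv.init hT N l0 24 one_pos (by omega)).1⟩, ?_, ?_⟩
  · intro r H a b l hr h
    refine ⟨⟨h.zero, h.nrm, by exact_mod_cast h.hi.pk⟩, h.ha, h.hb, h.lpos, h.len hT hC (le_trans ?_ hR)⟩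
    have : (r : ℝ) ≤ R := by exact_mod_cast hr
    have h2 : (0 : ℝ) ≤ r := by positivity
    have : 25 / 4 * r / (l0 : ℝ) ^ 2 ≤ 16 * (R : ℝ) / (l0 : ℝ) ^ 2 :=
      div_le_div_of_nonneg_right (by linarith) (by positivity)
    linarith
  intro r H a b u hr h
  obtain ⟨xa, w, rfl, rfl, h1, h2, h3, h4⟩ := h.seg
  have hu : 0 < u := (pos_iff_pos_of_mul_pos h.lpos).1 l0p
  have hM : (r + 1) * N ≤ R * N := Nat.mul_le_mul_right _ hr
  have hrN : (r + 1) * N = r * N + N := by ring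
  let pt : ℤ → ℕ → Y := fun n i => T (zz xa w u ((l0 : ℝ) / 2 + n) 1 (r * N + i - 1))
  refine ⟨fun i => pt (-i) i, fun i => pt i i, fun i => pt 0 i, fun j k hj hjk hk => ⟨?_, ?_⟩⟩
  · rw [← dist_eq_norm]
    exact zz_two hT h1 h2 hu _ _ (by omega) (by omega) (by omega) (by omega) (by omega)
  let A0 : Finset Y := (Finset.Icc 1 N).image (fun i : ℕ => pt (-i) i) ∪
    (Finset.Icc 1 N).image (fun i : ℕ => pt i i)
  have hA0 : ∀ y ∈ A0, ∃ n : ℤ, 1 ≤ n.natAbs ∧ n.natAbs ≤ N ∧ y = pt n n.natAbs := by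
    intro y hy
    rcases Finset.mem_union.1 hy with hy | hy <;> obtain ⟨i, hi, rfl⟩ := Finset.mem_image.1 hy <;>
      rw [Finset.mem_Icc] at hi
    · exact ⟨-i, by simpa using hi.1, by simpa using hi.2, by simp⟩
    · exact ⟨i, by simpa using hi.1, by simpa using hi.2, by simp⟩
  let A : Finset Y := A0 ∪ {pt 0 j, pt 0 k}
  have hA : ∀ y ∈ A, ∃ (n : ℤ) (i : ℕ), n.natAbs ≤ N ∧ 1 ≤ i ∧ i ≤ N ∧ y = pt n i := by
    intro y hy
    rcases Finset.mem_union.1 hy with hy | hy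
    · obtain ⟨n, e1, e2, e3⟩ := hA0 y hy
      exact ⟨n, _, e2, e1, e2, e3⟩
    · rcases Finset.mem_insert.1 hy with rfl | hy
      · exact ⟨0, j, by simp, hj, by omega, rfl⟩
      · exact ⟨0, k, by simp, by omega, hk, Finset.mem_singleton.1 hy⟩
  have hor : ∀ (n n' : ℤ) (i i' : ℕ), i ≤ N → i' ≤ N →
      |(n : ℝ) - n'| * u / 4 ≤ dist (pt n i) (pt n' i') := by
    intro n n' i i' e1 e2
    have := zz_hor hT (xa := xa) h3 hu ((l0 : ℝ) / 2 + n) ((l0 : ℝ) / 2 + n') 1 1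
      (i := r * N + i - 1) (i' := r * N + i' - 1) (by omega) (by omega)
    rwa [add_sub_add_left_eq_sub] at this
  have hne1 : ∀ n n' : ℤ, n ≠ n' → (1 : ℝ) ≤ |(n : ℝ) - n'| := by
    intro n n' e
    have : (1 : ℤ) ≤ |n - n'| := Int.one_le_abs (sub_ne_zero.2 e)
    exact_mod_cast this
  have key := h.piece hT (by omega) h1 h2 h3 h4 hM A
    (by
      intro y hy
      obtain ⟨n, i, e1, e2, e3, rfl⟩ := hA y hy
      have f1 : (n : ℝ) ≤ N := by exact_mod_cast (by omega : n ≤ (N : ℤ))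
      have f2 : -(N : ℝ) ≤ n := by exact_mod_cast (by omega : -(N : ℤ) ≤ n)
      exact ⟨_, _, by linarith, by linarith, by omega, by omega, rfl⟩)
    (by
      intro y hy y' hy' hne
      obtain ⟨n, i, e1, e2, e3, rfl⟩ := hA y hy
      obtain ⟨n', i', e1', e2', e3', rfl⟩ := hA y' hy'
      by_cases e : i = i'
      · subst e
        have f1 := hne1 n n' (fun e => hne (by rw [e]))
        have f2 := hor n n' i i e3 e3
        nlinarith
      · exact zz_two hT h1 h2 hu _ _ (by omega) (by omega) (by omega) (by omega) (by omega))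
    (by
      intro D S hS hd
      have e0 : ∀ y : Y, ∃ n : ℤ, y ∈ A0 → n.natAbs ≤ N ∧ y = pt n n.natAbs := by
        intro y
        by_cases hy : y ∈ A0
        · obtain ⟨n, -, e2, e3⟩ := hA0 y hy
          exact ⟨n, fun _ => ⟨e2, e3⟩⟩
        · exact ⟨0, fun e => absurd e hy⟩
      choose f hf using e0
      have c1 : (S ∩ A0).card ≤ 4 * D + 1 := by
        refine HP.real_pack _ (fun y => (f y : ℝ)) one_pos (4 * D) ?_ ?_
        · intro x hx y hy hne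
          refine hne1 _ _ fun e => hne ?_
          rw [(hf x (Finset.mem_inter.1 hx).2).2, (hf y (Finset.mem_inter.1 hy).2).2, e]
        · intro x hx y hy
          obtain ⟨g1, g2⟩ := hf x (Finset.mem_inter.1 hx).2
          obtain ⟨g3, g4⟩ := hf y (Finset.mem_inter.1 hy).2
          have g5 := hor (f x) (f y) _ _ g1 g3
          rw [← g2, ← g4] at g5
          have g6 := hd x (Finset.mem_inter.1 hx).1 y (Finset.mem_inter.1 hy).1
          push_cast
          have : |(f x : ℝ) - f y| * u ≤ 4 * D * 1 * u := by linarith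
          exact le_of_mul_le_mul_right this hu
      have c2 : S ⊆ (S ∩ A0) ∪ {pt 0 j, pt 0 k} := by
        intro y hy
        rcases Finset.mem_union.1 (hS hy) with e | e
        · exact Finset.mem_union_left _ (Finset.mem_inter.2 ⟨hy, e⟩)
        · exact Finset.mem_union_right _ e
      have c3 := (Finset.card_le_card c2).trans (Finset.card_union_le _ _)
      have c4 : ({pt 0 j, pt 0 k} : Finset Y).card ≤ 2 := Finset.card_le_two
      omega)
  have mP : ∀ i : ℕ, 1 ≤ i → i ≤ N → pt (-i) i ∈ H ∪ A := fun i e1 e2 =>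
    Finset.mem_union_right _ (Finset.mem_union_left _ (Finset.mem_union_left _
      (Finset.mem_image.2 ⟨i, Finset.mem_Icc.2 ⟨e1, e2⟩, rfl⟩)))
  have mQ : ∀ i : ℕ, 1 ≤ i → i ≤ N → pt i i ∈ H ∪ A := fun i e1 e2 =>
    Finset.mem_union_right _ (Finset.mem_union_left _ (Finset.mem_union_right _
      (Finset.mem_image.2 ⟨i, Finset.mem_Icc.2 ⟨e1, e2⟩, rfl⟩)))
  have ma : ∀ i, T (zz xa w u 0 0 i) ∈ H ∪ A := fun i => by
    rw [zz_a]; exact Finset.mem_union_left _ h.ha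
  have mb : ∀ i, T (zz xa w u l0 0 i) ∈ H ∪ A := fun i => by
    rw [zz_b]; exact Finset.mem_union_left _ h.hb
  refine ⟨H ∪ A, Finset.subset_union_left, fun i e1 e2 => ?_, fun i hi => ?_⟩
  · have f1 : (1 : ℝ) ≤ i := by exact_mod_cast e1
    have f2 : (i : ℝ) ≤ N := by exact_mod_cast e2
    have g1 : (((-(i : ℤ)) : ℤ) : ℝ) = -(i : ℝ) := by simp
    have g2 : (((i : ℤ) : ℤ) : ℝ) = (i : ℝ) := by simp
    refine ⟨?_, ?_, ?_, ?_⟩
    · have := key 0 _ 0 1 (((l0 : ℝ) / 2 - i) * u) (r * N + i - 1) (by omega) (by omega) le_rfl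
        (by rw [g1]; linarith) (by rw [g1]; linarith) (by rw [g1]; linarith) le_rfl zero_le_one
        zero_le_one le_rfl (Or.inr (by rw [g1]; linarith)) (ma _) (mP i e1 e2) (by rw [g1]; ring)
      rwa [zz_a] at this
    · have := key _ l0 1 0 (((l0 : ℝ) / 2 + i) * u) (r * N + i - 1) (by omega) (by omega)
        (by rw [g1]; linarith) (by rw [g1]; linarith) le_rfl (by rw [g1]; linarith) zero_le_one le_rfl
        le_rfl zero_le_one (Or.inr (by rw [g1]; linarith)) (mP i e1 e2) (mb _) (by rw [g1]; ring)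
      rwa [zz_b] at this
    · have := key 0 _ 0 1 (((l0 : ℝ) / 2 + i) * u) (r * N + i - 1) (by omega) (by omega) le_rfl
        (by rw [g2]; linarith) (by rw [g2]; linarith) (by rw [g2]; linarith) le_rfl zero_le_one
        zero_le_one le_rfl (Or.inr (by rw [g2]; linarith)) (ma _) (mQ i e1 e2) (by rw [g2]; ring)
      rwa [zz_a] at this
    · have := key _ l0 1 0 (((l0 : ℝ) / 2 - i) * u) (r * N + i - 1) (by omega) (by omega)
        (by rw [g2]; linarith) (by rw [g2]; linarith) le_rfl (by rw [g2]; linarith) zero_le_one le_rfl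
        le_rfl zero_le_one (Or.inr (by rw [g2]; linarith)) (mQ i e1 e2) (mb _) (by rw [g2]; ring)
      rwa [zz_b] at this
  · have e1 : 1 ≤ i := by omega
    have e2 : i ≤ N := by omega
    have f1 : (1 : ℝ) ≤ i := by exact_mod_cast e1
    have f2 : (i : ℝ) ≤ N := by exact_mod_cast e2
    have g0 : ((0 : ℤ) : ℝ) = 0 := by simp
    have g1 : (((-(i : ℤ)) : ℤ) : ℝ) = -(i : ℝ) := by simp
    have g2 : (((i : ℤ) : ℤ) : ℝ) = (i : ℝ) := by simp
    have mM : pt 0 i ∈ H ∪ A := by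
      refine Finset.mem_union_right _ (Finset.mem_union_right _ ?_)
      rcases hi with rfl | rfl <;> simp
    exact ⟨key _ _ 1 1 ((i : ℝ) * u) (r * N + i - 1) (by omega) (by omega)
        (by rw [g1]; linarith) (by rw [g1, g0]; linarith) (by rw [g0]; linarith)
        (by rw [g1, g0]; linarith) zero_le_one le_rfl zero_le_one le_rfl (Or.inl rfl) (mP i e1 e2) mM
        (by rw [g1, g0]; ring),
      key _ _ 1 1 ((i : ℝ) * u) (r * N + i - 1) (by omega) (by omega)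
        (by rw [g0]; linarith) (by rw [g2, g0]; linarith) (by rw [g2]; linarith)
        (by rw [g2, g0]; linarith) zero_le_one le_rfl zero_le_one le_rfl (Or.inl rfl) mM (mQ i e1 e2)
        (by rw [g2, g0]; ring)⟩

end Crest.Agent.R254.G2
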