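import Crest.Agent.R254.GeoDef
import Crest.Agent.R254.HPack
import Crest.Agent.R254.Frame

/-! Row 254: the geometry oracle of the online game, from a triangular frame. -/

set_option autoImplicit false
noncomputable section
namespace Crest.Agent.R254.G3

open Crest.Agent.R254.S (Eu)

variable {Y : Type*} [NormedAddCommGroup Y] [NormedSpace ℝ Y] {m : ℕ}

/-- coordinate vector -/
def ev (m n : ℕ) : Eu (m + 1) := WithLp.toLp 2 fun i => if (i : ℕ) = n then (1 : ℝ) else 0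

theorem ev_apply (n : ℕ) (i : Fin (m + 1)) : ev m n i = if (i : ℕ) = n then (1 : ℝ) else 0 := rfl

theorem norm_add_ev (w : Eu (m + 1)) (n : ℕ) (θ : ℝ) (h : ∀ i : Fin (m + 1), (i : ℕ) = n → w i = 0) :
    ‖w + θ • ev m n‖ ^ 2 ≤ ‖w‖ ^ 2 + θ ^ 2 := by
  rw [EuclideanSpace.real_norm_sq_eq, EuclideanSpace.real_norm_sq_eq]
  have h1 : ∀ i : Fin (m + 1), (w + θ • ev m n) i ^ 2 =
      w i ^ 2 + if (i : ℕ) = n then θ ^ 2 else 0 := by
    intro i
    simp only [PiLp.add_apply, PiLp.smul_apply, ev_apply, smul_eq_mul]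
    split_ifs with hi
    · rw [h i hi]; ring
    · ring
  simp only [h1, Finset.sum_add_distrib]
  gcongr
  rw [← Finset.sum_filter, Finset.sum_const, nsmul_eq_mul]
  have : (Finset.univ.filter fun i : Fin (m + 1) => (i : ℕ) = n).card ≤ 1 :=
    Finset.card_le_one.2 fun a ha b hb =>
      Fin.ext ((Finset.mem_filter.1 ha).2.trans (Finset.mem_filter.1 hb).2.symm)
  have h2 : ((Finset.univ.filter fun i : Fin (m + 1) => (i : ℕ) = n).card : ℝ) ≤ 1 := by
    exact_mod_cast this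
  nlinarith [sq_nonneg θ]

theorem norm_ev (n : ℕ) : ‖ev m n‖ ≤ 1 := by
  have := norm_add_ev (0 : Eu (m + 1)) n 1 (fun _ _ => rfl)
  simp only [zero_add, one_smul, norm_zero] at this
  nlinarith [norm_nonneg (ev m n)]

/-- frame -/
structure Fr (T : Eu (m + 1) →L[ℝ] Y) : Prop where
  up : ∀ x, ‖T x‖ ≤ ‖x‖
  low : ∀ (i : Fin (m + 1)) (x : Eu (m + 1)), (∀ j, i < j → x j = 0) → |x i| / 4 ≤ ‖T x‖

/-- vanishing of the fresh coordinates from `n` on -/
def Sup (n : ℕ) (x : Eu (m + 1)) : Prop := ∀ i : Fin (m + 1), n ≤ (i : ℕ) → (i : ℕ) < m → x i = 0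

theorem Sup.mono {n n' : ℕ} {x : Eu (m + 1)} (h : Sup n x) (hn : n ≤ n') : Sup n' x :=
  fun i h1 h2 => h i (hn.trans h1) h2

variable {T : Eu (m + 1) →L[ℝ] Y}

theorem Fr.last (h : Fr T) (x : Eu (m + 1)) : |x (Fin.last m)| ≤ 4 * ‖T x‖ := by
  have := h.low (Fin.last m) x fun j hj => absurd hj (not_lt.2 (Fin.le_last j))
  linarith

theorem Fr.fresh (h : Fr T) (n : ℕ) (hn : n < m) (x : Eu (m + 1)) (hx : Sup (n + 1) x) :
    |x ⟨n, by omega⟩| / 20 ≤ ‖T x‖ := by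
  have h1 := h.last x
  have h2 := h.low ⟨n, by omega⟩ (x - x (Fin.last m) • ev m m) (by
    intro j hj
    simp only [PiLp.sub_apply, PiLp.smul_apply, ev_apply, smul_eq_mul]
    have hj' : n < (j : ℕ) := hj
    split_ifs with h3
    · have : j = Fin.last m := Fin.ext h3
      rw [this]; ring
    · rw [hx j hj' (by have := j.2; omega)]; ring)
  have h3 : (x - x (Fin.last m) • ev m m) ⟨n, by omega⟩ = x ⟨n, by omega⟩ := by
    simp only [PiLp.sub_apply, PiLp.smul_apply, ev_apply, smul_eq_mul]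
    rw [if_neg (by omega)]; ring
  rw [h3, map_sub, map_smul] at h2
  have h4 := norm_sub_le (T x) (x (Fin.last m) • T (ev m m))
  rw [norm_smul, Real.norm_eq_abs] at h4
  have h5 : ‖T (ev m m)‖ ≤ 1 := (h.up _).trans (norm_ev _)
  have h6 : |x (Fin.last m)| * ‖T (ev m m)‖ ≤ |x (Fin.last m)| * 1 :=
    mul_le_mul_of_nonneg_left h5 (abs_nonneg _)
  linarith

theorem tube_norm {p q z : Y} {δ c : ℝ} (hz : z ∈ Tube p q δ) (hp : ‖p‖ ≤ c) (hq : ‖q‖ ≤ c) :
    ‖z‖ ≤ c + δ := by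
  obtain ⟨y, hy, hd⟩ := hz
  have : y ∈ Metric.closedBall (0 : Y) c :=
    (convex_closedBall (0 : Y) c).segment_subset (by simpa using hp) (by simpa using hq) hy
  have h1 : ‖y‖ ≤ c := by simpa using this
  rw [dist_eq_norm] at hd
  have h2 := norm_add_le (z - y) y
  rw [sub_add_cancel] at h2
  linarith

/-- the state -/
structure St (T : Eu (m + 1) →L[ℝ] Y) (N l0 : ℕ) (r : ℕ) (H : Finset Y) (a b : Y) (l : ℝ) :
    Prop where
  ex : ∃ α w : Eu (m + 1), a = T α ∧ b = T (α + l • w) ∧ w (Fin.last m) = 1 ∧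
    ‖w‖ ^ 2 ≤ 1 + 16 * (r : ℝ) / (l0 : ℝ) ^ 2 ∧ Sup (r * N) α ∧ Sup (r * N) w
  lpos : 0 < l
  ha : a ∈ H
  hb : b ∈ H
  h0 : (0 : Y) ∈ H
  sup : ∀ y ∈ H, ∃ x, y = T x ∧ Sup (r * N) x
  nrm : ∀ y ∈ H, ‖y‖ ≤ 1
  na : ‖a‖ ≤ 1 - 3 * (l / l0)
  nb : ‖b‖ ≤ 1 - 3 * (l / l0)
  hi : HI 24 H a b (l / l0)

/-- the inserted points, in coordinates -/
def vec (α w : Eu (m + 1)) (u : ℝ) (l0 n0 : ℕ) (z : ℤ) (i : ℕ) : Eu (m + 1) :=
  α + (((l0 : ℝ) / 2 + z) * u) • w + u • ev m (n0 + i - 1)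

theorem vec_sup {α w : Eu (m + 1)} {u : ℝ} {l0 n0 : ℕ} (hα : Sup n0 α) (hw : Sup n0 w) (z : ℤ)
    (i : ℕ) (hi : 1 ≤ i) : Sup (n0 + i - 1 + 1) (vec α w u l0 n0 z i) := by
  intro j h1 h2
  simp only [vec, PiLp.add_apply, PiLp.smul_apply, ev_apply, smul_eq_mul]
  rw [hα j (by omega) h2, hw j (by omega) h2, if_neg (by omega)]; ring

theorem vec_idx {α w : Eu (m + 1)} {u : ℝ} {l0 n0 : ℕ} (hα : Sup n0 α) (hw : Sup n0 w) (z : ℤ)
    (i : ℕ) (j : Fin (m + 1)) (h1 : n0 ≤ (j : ℕ)) (h2 : (j : ℕ) < m) :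
    vec α w u l0 n0 z i j = if (j : ℕ) = n0 + i - 1 then u else 0 := by
  simp only [vec, PiLp.add_apply, PiLp.smul_apply, ev_apply, smul_eq_mul]
  rw [hα j h1 h2, hw j h1 h2]; split_ifs <;> ring

theorem vec_last {α w : Eu (m + 1)} {u : ℝ} {l0 n0 : ℕ} (hw : w (Fin.last m) = 1) (z : ℤ)
    (i : ℕ) (h : n0 + i - 1 < m) :
    vec α w u l0 n0 z i (Fin.last m) = α (Fin.last m) + ((l0 : ℝ) / 2 + z) * u := by
  simp only [vec, PiLp.add_apply, PiLp.smul_apply, ev_apply, smul_eq_mul]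
  rw [hw, if_neg (by simp; omega)]; ring

theorem Sup.sub {n : ℕ} {x y : Eu (m + 1)} (hx : Sup n x) (hy : Sup n y) : Sup n (x - y) :=
  fun i h1 h2 => by rw [PiLp.sub_apply, hx i h1 h2, hy i h1 h2, sub_zero]

theorem vec_tube (hT : Fr T) {α w : Eu (m + 1)} {u : ℝ} {l0 n0 : ℕ} (hu : 0 < u) (hl0 : 0 < l0)
    (z : ℤ) (i : ℕ) (hz : |(z : ℝ)| ≤ (l0 : ℝ) / 2) :
    T (vec α w u l0 n0 z i) ∈ Tube (T α) (T (α + ((l0 : ℝ) * u) • w)) u := by
  have hl : (0 : ℝ) < l0 := by exact_mod_cast hl0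
  have hz' := abs_le.1 hz
  refine ⟨T (α + (((l0 : ℝ) / 2 + z) * u) • w), ?_, ?_⟩
  · refine ⟨1 - ((l0 : ℝ) / 2 + z) / l0, ((l0 : ℝ) / 2 + z) / l0, ?_, ?_, by ring, ?_⟩
    · rw [sub_nonneg, div_le_one hl]; linarith
    · exact div_nonneg (by linarith) hl.le
    · rw [← map_smul, ← map_smul, ← map_add]
      congr 1
      have : ((l0 : ℝ) / 2 + z) * u = ((l0 : ℝ) / 2 + z) / l0 * (l0 * u) := by field_simp
      rw [this, smul_add, smul_smul, ← add_assoc, ← add_smul]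
      simp
  · rw [dist_eq_norm, ← map_sub]
    refine (hT.up _).trans ?_
    have : vec α w u l0 n0 z i - (α + (((l0 : ℝ) / 2 + z) * u) • w) = u • ev m (n0 + i - 1) := by
      simp [vec]
    rw [this, norm_smul, Real.norm_of_nonneg hu.le]
    have := norm_ev (m := m) (n0 + i - 1)
    nlinarith

theorem mul_inv1 {c : ℝ} (u : ℝ) (hc : 0 < c) : c * u * (1 / c) = u := by field_simp
theorem mul_inv2 {c : ℝ} (u : ℝ) (hc : 0 < c) : c * u * (-(1 / c)) = -u := by field_simp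

theorem vec_def (α w : Eu (m + 1)) (u : ℝ) (l0 n0 : ℕ) (z : ℤ) (i : ℕ) : vec α w u l0 n0 z i =
    α + (((l0 : ℝ) / 2 + z) * u) • w + u • ev m (n0 + i - 1) := rfl

/-- separation of a new point from a point of lower index -/
theorem sep_low (hT : Fr T) {α w : Eu (m + 1)} {u : ℝ} {l0 n0 : ℕ} (hu : 0 < u) (hα : Sup n0 α)
    (hw : Sup n0 w) (z : ℤ) (i : ℕ) (hi : 1 ≤ i) (h : n0 + i - 1 < m) (x : Eu (m + 1))
    (hx : Sup (n0 + i - 1) x) : u / 20 ≤ ‖T (vec α w u l0 n0 z i) - T x‖ := by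
  have h1 := hT.fresh (n0 + i - 1) h _ ((vec_sup (u := u) (l0 := l0) hα hw z i hi).sub
    (hx.mono (Nat.le_succ _)))
  rw [PiLp.sub_apply, vec_idx hα hw z i _ (by simp; omega) h, if_pos rfl, hx _ le_rfl h, sub_zero,
    abs_of_pos hu, map_sub] at h1
  exact h1

theorem sep_last (hT : Fr T) {α w : Eu (m + 1)} {u : ℝ} {l0 n0 : ℕ} (hu : 0 < u)
    (hw : w (Fin.last m) = 1) (z z' : ℤ) (i i' : ℕ) (h : n0 + i - 1 < m) (h' : n0 + i' - 1 < m) :
    |(z : ℝ) - z'| * u ≤ 4 * ‖T (vec α w u l0 n0 z i) - T (vec α w u l0 n0 z' i')‖ := by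
  have h1 := hT.last (vec α w u l0 n0 z i - vec α w u l0 n0 z' i')
  rw [PiLp.sub_apply, vec_last hw z i h, vec_last hw z' i' h', map_sub] at h1
  have : α (Fin.last m) + ((l0 : ℝ) / 2 + z) * u - (α (Fin.last m) + ((l0 : ℝ) / 2 + z') * u) =
      ((z : ℝ) - z') * u := by ring
  rwa [this, abs_mul, abs_of_pos hu] at h1

theorem sep_vec (hT : Fr T) {α w : Eu (m + 1)} {u : ℝ} {l0 n0 : ℕ} (hu : 0 < u) (hα : Sup n0 α)
    (hw : Sup n0 w) (hw1 : w (Fin.last m) = 1) (z z' : ℤ) (i i' : ℕ) (hi : 1 ≤ i) (hi' : 1 ≤ i')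
    (h : n0 + i - 1 < m) (h' : n0 + i' - 1 < m)
    (hne : T (vec α w u l0 n0 z' i') ≠ T (vec α w u l0 n0 z i)) :
    u / 20 ≤ ‖T (vec α w u l0 n0 z i) - T (vec α w u l0 n0 z' i')‖ := by
  rcases lt_trichotomy i i' with hlt | rfl | hlt
  · rw [norm_sub_rev]
    exact sep_low hT hu hα hw z' i' hi' h' _ ((vec_sup hα hw z i hi).mono (by omega))
  · have hz : z ≠ z' := fun e => hne (by rw [e])
    have h1 := sep_last (α := α) (l0 := l0) hT hu hw1 z z' i i h h
    have h2 : (1 : ℝ) ≤ |(z : ℝ) - z'| := by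
      have : (1 : ℤ) ≤ |z - z'| := Int.one_le_abs (sub_ne_zero.2 hz)
      exact_mod_cast this
    nlinarith
  · exact sep_low hT hu hα hw z i hi h _ ((vec_sup hα hw z' i' hi').mono (by omega))

theorem step (hT : Fr T) {N l0 R r : ℕ} (hm : m = R * N) (hN : 2 ≤ N) (hl0 : 10 * N ≤ l0)
    (hr : r < R) {H : Finset Y} {a b : Y} {u : ℝ} (h : St T N l0 r H a b ((l0 : ℝ) * u)) :
    ∃ P Q M : ℕ → Y, ∀ j k : ℕ, 1 ≤ j → j < k → k ≤ N → u / 20 ≤ ‖M j - M k‖ ∧
        ∃ H2 : Finset Y, H ⊆ H2 ∧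
          (∀ i : ℕ, 1 ≤ i → i ≤ N →
            St T N l0 (r + 1) H2 a (P i) (((l0 : ℝ) / 2 - i) * u) ∧
            St T N l0 (r + 1) H2 (P i) b (((l0 : ℝ) / 2 + i) * u) ∧
            St T N l0 (r + 1) H2 a (Q i) (((l0 : ℝ) / 2 + i) * u) ∧
            St T N l0 (r + 1) H2 (Q i) b (((l0 : ℝ) / 2 - i) * u)) ∧
          ∀ i : ℕ, i = j ∨ i = k →
            St T N l0 (r + 1) H2 (P i) (M i) ((i : ℝ) * u) ∧
            St T N l0 (r + 1) H2 (M i) (Q i) ((i : ℝ) * u) := by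
  classical
  obtain ⟨α, w, rfl, rfl, hw1, hwn, hα, hw⟩ := h.ex
  have hl0n : 0 < l0 := by omega
  have hl : (0 : ℝ) < l0 := by exact_mod_cast hl0n
  have hlN : 10 * (N : ℝ) ≤ l0 := by exact_mod_cast hl0
  have hu : 0 < u := (mul_pos_iff_of_pos_left hl).1 h.lpos
  have hlu : (l0 : ℝ) * u / l0 = u := by field_simp
  have hidx : ∀ i, 1 ≤ i → i ≤ N → r * N + i - 1 < m := by
    intro i h1 h2
    have : (r + 1) * N ≤ R * N := Nat.mul_le_mul_right _ hr
    rw [add_mul] at this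
    omega
  have hidx2 : ∀ i, 1 ≤ i → i ≤ N → r * N + i - 1 + 1 ≤ (r + 1) * N := by
    intro i h1 h2
    rw [add_mul]; omega
  have hrN : r * N ≤ (r + 1) * N := Nat.mul_le_mul_right _ (Nat.le_succ _)
  set v : ℤ → ℕ → Eu (m + 1) := vec α w u l0 (r * N) with hv
  refine ⟨fun i => T (v (-i) i), fun i => T (v i i), fun i => T (v 0 i), fun j k hj hjk hk => ?_⟩
  refine ⟨?_, ?_⟩
  · rw [norm_sub_rev]
    exact sep_low hT hu hα hw 0 k (by omega) (hidx k (by omega) hk) _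
      ((vec_sup hα hw 0 j hj).mono (by omega))
  set A1 : Finset Y := (Finset.Icc 1 N).image (fun i : ℕ => T (v (-i) i)) ∪
    (Finset.Icc 1 N).image (fun i : ℕ => T (v i i)) with hA1
  set A : Finset Y := A1 ∪ {T (v 0 j), T (v 0 k)} with hA
  have mem1 : ∀ y ∈ A1, ∃ z : ℤ, 1 ≤ z.natAbs ∧ z.natAbs ≤ N ∧ y = T (v z z.natAbs) := by
    intro y hy
    rcases Finset.mem_union.1 hy with hy | hy <;> obtain ⟨i, hi, rfl⟩ := Finset.mem_image.1 hy <;>
      rw [Finset.mem_Icc] at hi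
    · exact ⟨-i, by simpa using hi.1, by simpa using hi.2, by simp⟩
    · exact ⟨i, by simpa using hi.1, by simpa using hi.2, by simp⟩
  have memA : ∀ y ∈ A, ∃ (z : ℤ) (i : ℕ), 1 ≤ i ∧ i ≤ N ∧ z.natAbs ≤ N ∧ y = T (v z i) := by
    intro y hy
    rcases Finset.mem_union.1 hy with hy | hy
    · obtain ⟨z, h1, h2, h3⟩ := mem1 y hy
      exact ⟨z, _, h1, h2, h2, h3⟩
    · rcases Finset.mem_insert.1 hy with rfl | hy
      · exact ⟨0, j, hj, by omega, by simp, rfl⟩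
      · rw [Finset.mem_singleton.1 hy]
        exact ⟨0, k, by omega, hk, by simp, rfl⟩
  have htube : ∀ y ∈ A, y ∈ Tube (T α) (T (α + ((l0 : ℝ) * u) • w)) u := by
    intro y hy
    obtain ⟨z, i, -, -, h3, rfl⟩ := memA y hy
    refine vec_tube hT hu hl0n z i ?_
    have : |(z : ℝ)| ≤ N := by
      have : |z| ≤ (N : ℤ) := by rw [Int.abs_eq_natAbs]; exact_mod_cast h3
      exact_mod_cast this
    have h0 : (0 : ℝ) ≤ N := Nat.cast_nonneg _
    linarith
  have hsep : ∀ a ∈ A, ∀ y ∈ H ∪ A, y ≠ a → u / 20 ≤ dist a y := by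
    intro a ha y hy hne
    obtain ⟨z, i, h1, h2, -, rfl⟩ := memA a ha
    rw [dist_eq_norm]
    rcases Finset.mem_union.1 hy with hy | hy
    · obtain ⟨x, rfl, hx⟩ := h.sup y hy
      exact sep_low hT hu hα hw z i h1 (hidx i h1 h2) x (hx.mono (by omega))
    · obtain ⟨z', i', h1', h2', -, rfl⟩ := memA y hy
      exact sep_vec hT hu hα hw hw1 z z' i i' h1 h1' (hidx i h1 h2) (hidx i' h1' h2') hne
  have hcnt : ∀ D : ℕ, ∀ S : Finset Y, S ⊆ A → (∀ x ∈ S, ∀ y ∈ S, dist x y ≤ D * u) →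
      S.card ≤ 4 * D + 3 := by
    intro D S hS hD
    have e1 : S ⊆ S.filter (fun y => y ∈ A1) ∪ {T (v 0 j), T (v 0 k)} := by
      intro y hy
      rcases Finset.mem_union.1 (hS hy) with h1 | h1
      · exact Finset.mem_union_left _ (Finset.mem_filter.2 ⟨hy, h1⟩)
      · exact Finset.mem_union_right _ h1
    have e2 : ({T (v 0 j), T (v 0 k)} : Finset Y).card ≤ 2 := Finset.card_le_two
    have hz : ∀ y : Y, ∃ z : ℤ, y ∈ A1 → 1 ≤ z.natAbs ∧ z.natAbs ≤ N ∧ y = T (v z z.natAbs) := by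
      intro y
      by_cases hy : y ∈ A1
      · obtain ⟨z, hz⟩ := mem1 y hy
        exact ⟨z, fun _ => hz⟩
      · exact ⟨0, fun h => absurd h hy⟩
    choose f hf using hz
    have e3 := HP.real_pack (S.filter fun y => y ∈ A1) (fun y => (f y : ℝ)) one_pos (4 * D)
      (fun x hx y hy hne => by
        have hx' := hf x (Finset.mem_filter.1 hx).2
        have hy' := hf y (Finset.mem_filter.1 hy).2
        have : f x ≠ f y := fun e => hne (by rw [hx'.2.2, hy'.2.2, e])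
        have : (1 : ℤ) ≤ |f x - f y| := Int.one_le_abs (sub_ne_zero.2 this)
        exact_mod_cast this)
      (fun x hx y hy => by
        have hx' := hf x (Finset.mem_filter.1 hx).2
        have hy' := hf y (Finset.mem_filter.1 hy).2
        have e4 := hD x (Finset.mem_filter.1 hx).1 y (Finset.mem_filter.1 hy).1
        have e5 := sep_last (α := α) (l0 := l0) hT hu hw1 (f x) (f y) _ _
          (hidx _ hx'.1 hx'.2.1) (hidx _ hy'.1 hy'.2.1)
        rw [← hv, ← hx'.2.2, ← hy'.2.2, ← dist_eq_norm] at e5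
        push_cast
        refine le_of_mul_le_mul_right ?_ hu
        linarith)
    have := (Finset.card_le_card e1).trans (Finset.card_union_le _ _)
    omega
  have hna := h.na
  have hnb := h.nb
  have hhi := h.hi
  rw [hlu] at hna hnb hhi
  have key : ∀ (α' w' : Eu (m + 1)) (c : ℝ) (p q : Y), p = T α' → q = T (α' + (c * u) • w') →
      p ∈ H ∪ A → q ∈ H ∪ A → p ∈ Tube (T α) (T (α + ((l0 : ℝ) * u) • w)) u →
      q ∈ Tube (T α) (T (α + ((l0 : ℝ) * u) • w)) u → 0 < c → c ≤ 3 / 5 * l0 →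
      w' (Fin.last m) = 1 → ‖w'‖ ^ 2 ≤ ‖w‖ ^ 2 + 16 / (l0 : ℝ) ^ 2 → Sup ((r + 1) * N) α' →
      Sup ((r + 1) * N) w' → St T N l0 (r + 1) (H ∪ A) p q (c * u) := by
    intro α' w' c p q hp hq hpH hqH hpT hqT hc hc' h1 h2 h3 h4
    have hcu : c * u / l0 ≤ 3 / 5 * u := by
      rw [div_le_iff₀ hl]; nlinarith
    have hcu0 : 0 < c * u / l0 := by positivity
    refine ⟨⟨α', w', hp, hq, h1, ?_, h3, h4⟩, by positivity, hpH, hqH,
      Finset.mem_union_left _ h.h0, ?_, ?_, ?_, ?_, hhi.step A htube hsep hcnt hpT hqT hcu0 hcu⟩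
    · have : 16 * ((r + 1 : ℕ) : ℝ) / (l0 : ℝ) ^ 2 =
          16 * (r : ℝ) / (l0 : ℝ) ^ 2 + 16 / (l0 : ℝ) ^ 2 := by push_cast; ring
      rw [this]; linarith
    · intro y hy
      rcases Finset.mem_union.1 hy with hy | hy
      · obtain ⟨x, hx, hx'⟩ := h.sup y hy
        exact ⟨x, hx, hx'.mono hrN⟩
      · obtain ⟨z, i, e1, e2, -, rfl⟩ := memA y hy
        exact ⟨_, rfl, (vec_sup hα hw z i e1).mono (hidx2 i e1 e2)⟩
    · intro y hy
      rcases Finset.mem_union.1 hy with hy | hy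
      · exact h.nrm y hy
      · have := tube_norm (htube y hy) hna hnb
        linarith
    · have := tube_norm hpT hna hnb
      linarith
    · have := tube_norm hqT hna hnb
      linarith
  have haT : T α ∈ Tube (T α) (T (α + ((l0 : ℝ) * u) • w)) u :=
    Tube.of_mem hu.le (left_mem_segment _ _ _)
  have hbT : T (α + ((l0 : ℝ) * u) • w) ∈ Tube (T α) (T (α + ((l0 : ℝ) * u) • w)) u :=
    Tube.of_mem hu.le (right_mem_segment _ _ _)
  have haH : T α ∈ H ∪ A := Finset.mem_union_left _ h.ha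
  have hbH : T (α + ((l0 : ℝ) * u) • w) ∈ H ∪ A := Finset.mem_union_left _ h.hb
  have hPA : ∀ i : ℕ, 1 ≤ i → i ≤ N → T (v (-i) i) ∈ A := fun i h1 h2 =>
    Finset.mem_union_left _ (Finset.mem_union_left _
      (Finset.mem_image.2 ⟨i, Finset.mem_Icc.2 ⟨h1, h2⟩, rfl⟩))
  have hQA : ∀ i : ℕ, 1 ≤ i → i ≤ N → T (v i i) ∈ A := fun i h1 h2 =>
    Finset.mem_union_left _ (Finset.mem_union_right _
      (Finset.mem_image.2 ⟨i, Finset.mem_Icc.2 ⟨h1, h2⟩, rfl⟩))
  have slope : ∀ (i : ℕ) (c θ : ℝ), 1 ≤ i → i ≤ N → 2 / 5 * l0 ≤ c → θ ^ 2 = (1 / c) ^ 2 →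
      (w + θ • ev m (r * N + i - 1)) (Fin.last m) = 1 ∧
      ‖w + θ • ev m (r * N + i - 1)‖ ^ 2 ≤ ‖w‖ ^ 2 + 16 / (l0 : ℝ) ^ 2 ∧
      Sup ((r + 1) * N) (w + θ • ev m (r * N + i - 1)) := by
    intro i c θ h1 h2 hc hθ
    have e1 := hidx i h1 h2
    have e2 := hidx2 i h1 h2
    refine ⟨?_, ?_, ?_⟩
    · simp only [PiLp.add_apply, PiLp.smul_apply, ev_apply, smul_eq_mul]
      rw [hw1, if_neg (by simp; omega)]; ring
    · refine (norm_add_ev w _ θ fun i' hi' => hw i' (by omega) (by omega)).trans ?_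
      have : 1 / c ≤ 4 / l0 := by
        rw [div_le_div_iff₀ (by linarith) hl]; linarith
      have h3 : (1 / c) ^ 2 ≤ (4 / l0) ^ 2 :=
        pow_le_pow_left₀ (by have : 0 < c := by linarith
                             positivity) this 2
      have h4 : (4 / (l0 : ℝ)) ^ 2 = 16 / (l0 : ℝ) ^ 2 := by ring
      linarith
    · intro i' e3 e4
      simp only [PiLp.add_apply, PiLp.smul_apply, ev_apply, smul_eq_mul]
      rw [hw i' (by omega) e4, if_neg (by omega)]; ring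
  refine ⟨H ∪ A, Finset.subset_union_left, fun i h1 h2 => ?_, fun i hi => ?_⟩
  · have hi1 : (1 : ℝ) ≤ i := by exact_mod_cast h1
    have hi2 : (i : ℝ) ≤ N := by exact_mod_cast h2
    have c1 : (0 : ℝ) < (l0 : ℝ) / 2 - i := by linarith
    have c2 : (0 : ℝ) < (l0 : ℝ) / 2 + i := by linarith
    have hP := hPA i h1 h2
    have hQ := hQA i h1 h2
    have sv : ∀ z : ℤ, Sup ((r + 1) * N) (v z i) := fun z =>
      (vec_sup hα hw z i h1).mono (hidx2 i h1 h2)
    refine ⟨?_, ?_, ?_, ?_⟩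
    · obtain ⟨s1, s2, s3⟩ := slope i ((l0 : ℝ) / 2 - i) (1 / ((l0 : ℝ) / 2 - i)) h1 h2
        (by linarith) rfl
      refine key α _ _ _ _ rfl ?_ haH (Finset.mem_union_right _ hP) haT (htube _ hP) c1
        (by linarith) s1 s2 (hα.mono hrN) s3
      refine congrArg T ?_
      rw [smul_add, smul_smul, mul_inv1 u c1, hv, vec_def]; push_cast; module
    · obtain ⟨s1, s2, s3⟩ := slope i ((l0 : ℝ) / 2 + i) (-(1 / ((l0 : ℝ) / 2 + i))) h1 h2
        (by linarith) (by ring)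
      refine key (v (-i) i) _ _ _ _ rfl ?_ (Finset.mem_union_right _ hP) hbH (htube _ hP) hbT c2
        (by linarith) s1 s2 (sv _) s3
      refine congrArg T ?_
      rw [smul_add, smul_smul, mul_inv2 u c2, hv, vec_def]; push_cast; module
    · obtain ⟨s1, s2, s3⟩ := slope i ((l0 : ℝ) / 2 + i) (1 / ((l0 : ℝ) / 2 + i)) h1 h2
        (by linarith) rfl
      refine key α _ _ _ _ rfl ?_ haH (Finset.mem_union_right _ hQ) haT (htube _ hQ) c2
        (by linarith) s1 s2 (hα.mono hrN) s3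
      refine congrArg T ?_
      rw [smul_add, smul_smul, mul_inv1 u c2, hv, vec_def]; push_cast; module
    · obtain ⟨s1, s2, s3⟩ := slope i ((l0 : ℝ) / 2 - i) (-(1 / ((l0 : ℝ) / 2 - i))) h1 h2
        (by linarith) (by ring)
      refine key (v i i) _ _ _ _ rfl ?_ (Finset.mem_union_right _ hQ) hbH (htube _ hQ) hbT c1
        (by linarith) s1 s2 (sv _) s3
      refine congrArg T ?_
      rw [smul_add, smul_smul, mul_inv2 u c1, hv, vec_def]; push_cast; module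
  · have h1 : 1 ≤ i := by omega
    have h2 : i ≤ N := by omega
    have hi1 : (1 : ℝ) ≤ i := by exact_mod_cast h1
    have hi2 : (i : ℝ) ≤ N := by exact_mod_cast h2
    have hP := hPA i h1 h2
    have hQ := hQA i h1 h2
    have hM : T (v 0 i) ∈ A := Finset.mem_union_right _ (by rcases hi with rfl | rfl <;> simp)
    have sv : ∀ z : ℤ, Sup ((r + 1) * N) (v z i) := fun z =>
      (vec_sup hα hw z i h1).mono (hidx2 i h1 h2)
    have h16 : (0 : ℝ) ≤ 16 / (l0 : ℝ) ^ 2 := by positivity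
    refine ⟨?_, ?_⟩
    · refine key (v (-i) i) w _ _ _ rfl ?_ (Finset.mem_union_right _ hP)
        (Finset.mem_union_right _ hM) (htube _ hP) (htube _ hM) (by linarith) (by linarith) hw1
        (by linarith) (sv _) (hw.mono hrN)
      refine congrArg T ?_
      rw [hv, vec_def, vec_def]; push_cast; module
    · refine key (v 0 i) w _ _ _ rfl ?_ (Finset.mem_union_right _ hM)
        (Finset.mem_union_right _ hQ) (htube _ hM) (htube _ hQ) (by linarith) (by linarith) hw1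
        (by linarith) (sv _) (hw.mono hrN)
      refine congrArg T ?_
      rw [hv, vec_def, vec_def]; push_cast; module

end Crest.Agent.R254.G3

namespace Crest.Agent.R254.G
open Crest.Agent.R254.G3

theorem geo3 (Y : Type*) [NormedAddCommGroup Y] [NormedSpace ℝ Y] : GeoTask (hLam 24) Y := by
  classical
  intro hY N l0 R hN hl0 C hC hCR
  obtain ⟨T, h1, h2⟩ := frame Y hY (R * N + 1)
  have hT : Fr T := ⟨h1, h2⟩
  have hl0n : 0 < l0 := by omega
  have hl : (20 : ℝ) ≤ l0 := by exact_mod_cast (by omega : 20 ≤ l0)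
  refine ⟨St T N l0, ?_, ?_, fun r H a b u hr h => step hT rfl hN hl0 hr h⟩
  · have hn : ‖T ((0 : S.Eu (R * N + 1)) + (1 / 2 : ℝ) • ev (R * N) (R * N))‖ ≤ 1 / 2 := by
      refine (h1 _).trans ?_
      rw [zero_add, norm_smul]
      have := norm_ev (m := R * N) (R * N)
      norm_num
      linarith
    have hs : Sup (0 * N) (ev (R * N) (R * N)) := fun i _ hi => by
      rw [ev_apply, if_neg (by omega)]
    have hq : (1 / 2 : ℝ) / l0 ≤ 1 / 40 := by
      rw [div_le_iff₀ (by linarith)]; linarith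
    refine ⟨{0, T (0 + (1 / 2 : ℝ) • ev (R * N) (R * N))}, 0,
      T (0 + (1 / 2 : ℝ) • ev (R * N) (R * N)), 1 / 2, by simp, ⟨0, ev (R * N) (R * N), by simp, rfl,
        by simp [ev_apply], ?_, fun _ _ _ => rfl, hs⟩, by norm_num, by simp, by simp, by simp, ?_, ?_,
        ?_, by linarith, HI.init 24 (Finset.card_le_two.trans (by norm_num)) _ _ (by positivity)⟩
    · have := norm_ev (m := R * N) (R * N)
      have h0 := norm_nonneg (ev (R * N) (R * N))
      simp only [Nat.cast_zero, mul_zero, zero_div, add_zero]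
      nlinarith
    · intro y hy
      rcases Finset.mem_insert.1 hy with rfl | hy
      · exact ⟨0, by simp, fun _ _ _ => rfl⟩
      · refine ⟨_, Finset.mem_singleton.1 hy, fun i e1 e2 => ?_⟩
        rw [zero_add, PiLp.smul_apply, hs i e1 e2, smul_zero]
    · intro y hy
      rcases Finset.mem_insert.1 hy with rfl | hy
      · simp
      · rw [Finset.mem_singleton.1 hy]; linarith
    · rw [norm_zero]; linarith
  · intro r H a b l hr h
    refine ⟨⟨h.h0, h.nrm, by exact_mod_cast h.hi.pk⟩, h.ha, h.hb, h.lpos, ?_⟩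
    obtain ⟨α, w, rfl, rfl, -, hwn, -, -⟩ := h.ex
    rw [norm_sub_rev, ← map_sub, add_sub_cancel_left]
    refine (h1 _).trans ?_
    rw [norm_smul, Real.norm_of_nonneg h.lpos.le, mul_comm]
    refine mul_le_mul_of_nonneg_right ?_ h.lpos.le
    have hr' : (r : ℝ) ≤ R := by exact_mod_cast hr
    have : 16 * (r : ℝ) / (l0 : ℝ) ^ 2 ≤ 16 * (R : ℝ) / (l0 : ℝ) ^ 2 := by gcongr
    exact (pow_le_pow_iff_left₀ (norm_nonneg _) hC two_ne_zero).1 (by linarith)

end Crest.Agent.R254.G
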