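import Crest.Agent.R254.GeoDef
import Crest.Agent.R254.Frame
import Crest.Agent.R254.HPack

/-! Row 254: the geometry oracle from a triangular frame. -/

set_option autoImplicit false
noncomputable section
namespace Crest.Agent.R254.GB

open Crest.Agent.R254

abbrev E (n : ℕ) := EuclideanSpace ℝ (Fin (n + 1))

variable {Y : Type*} [NormedAddCommGroup Y] [NormedSpace ℝ Y] {n : ℕ}

/-- the two properties of the frame -/
def Fr (T : E n →L[ℝ] Y) : Prop :=
  (∀ x, ‖T x‖ ≤ ‖x‖) ∧ ∀ (i : Fin (n + 1)) (x : E n), (∀ j, i < j → x j = 0) → |x i| / 4 ≤ ‖T x‖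

theorem Fr.top {T : E n →L[ℝ] Y} (h : Fr T) (x : E n) : |x (Fin.last n)| / 4 ≤ ‖T x‖ :=
  h.2 _ x fun j hj => absurd hj (not_lt.2 (Fin.le_last j))

theorem Fr.fresh {T : E n →L[ℝ] Y} (h : Fr T) (f : Fin (n + 1)) (hf : f ≠ Fin.last n) (x : E n)
    (hx : ∀ j, f < j → j ≠ Fin.last n → x j = 0) : |x f| / 20 ≤ ‖T x‖ := by
  have e1 := h.top x
  have e2 := h.2 f (x - EuclideanSpace.single (Fin.last n) (x (Fin.last n))) (fun j hj => by
    by_cases e : j = Fin.last n
    · subst e; simp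
    · simp [hx j hj e, e])
  have e3 : (x - EuclideanSpace.single (Fin.last n) (x (Fin.last n)) : E n) f = x f := by
    simp [hf]
  rw [e3, map_sub] at e2
  have e4 := norm_sub_le (T x) (T (EuclideanSpace.single (Fin.last n) (x (Fin.last n))))
  have e5 := h.1 (EuclideanSpace.single (Fin.last n) (x (Fin.last n)))
  rw [EuclideanSpace.norm_single, Real.norm_eq_abs] at e5
  linarith

/-- supported on the first `m` indices and the top index -/
def Old (m : ℕ) (x : E n) : Prop := ∀ j : Fin (n + 1), m ≤ j.val → j ≠ Fin.last n → x j = 0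

theorem Old.mono {m m' : ℕ} {x : E n} (h : Old m x) (hm : m ≤ m') : Old m' x :=
  fun j hj => h j (hm.trans hj)

/-- state of the game -/
def St (T : E n →L[ℝ] Y) (N l0 : ℕ) (r : ℕ) (H : Finset Y) (a b : Y) (l : ℝ) : Prop :=
  ∃ α w : E n, a = T α ∧ b = T (α + l • w) ∧ w (Fin.last n) = 1 ∧
    ‖w‖ ^ 2 ≤ 1 + 16 * (r : ℝ) / (l0 : ℝ) ^ 2 ∧ 0 < l ∧ Old (r * N) α ∧ Old (r * N) w ∧
    (∀ y ∈ H, ‖y‖ ≤ 1 ∧ ∃ η : E n, y = T η ∧ Old (r * N) η) ∧ a ∈ H ∧ b ∈ H ∧ (0 : Y) ∈ H ∧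
    ‖a‖ ≤ 1 - 3 * (l / l0) ∧ ‖b‖ ≤ 1 - 3 * (l / l0) ∧ HI 24 H a b (l / l0)

theorem tube_norm {a b z : Y} {u c : ℝ} (ha : ‖a‖ ≤ c) (hb : ‖b‖ ≤ c) (hz : z ∈ Tube a b u) :
    ‖z‖ ≤ c + u := by
  obtain ⟨y, hy, hd⟩ := hz
  have : y ∈ Metric.closedBall (0 : Y) c :=
    (convex_closedBall (0 : Y) c).segment_subset (by simpa using ha) (by simpa using hb) hy
  have e : ‖y‖ ≤ c := by simpa using this
  have e2 := norm_le_norm_add_norm_sub' z y
  rw [dist_eq_norm] at hd
  linarith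

theorem norm_sq_add_single (w : E n) (f : Fin (n + 1)) (hw : w f = 0) (θ : ℝ) :
    ‖w + θ • EuclideanSpace.single f (1 : ℝ)‖ ^ 2 = ‖w‖ ^ 2 + θ ^ 2 := by
  rw [norm_add_sq_real, inner_smul_right, EuclideanSpace.inner_single_right, norm_smul,
    EuclideanSpace.norm_single]
  simp [hw]

/-- new points -/
def pt (α w : E n) (u c : ℝ) (f : Fin (n + 1)) : E n :=
  α + (c * u) • w + u • EuclideanSpace.single f (1 : ℝ)

theorem pt_apply (α w : E n) (u c : ℝ) (f j : Fin (n + 1)) :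
    pt α w u c f j = α j + c * u * w j + if j = f then u else 0 := by
  by_cases h : j = f <;> simp [pt, h]

theorem pt_tube {T : E n →L[ℝ] Y} (h : Fr T) (α w : E n) {u c l0 : ℝ} (hu : 0 < u) (hl : 0 < l0)
    (hc : 0 ≤ c) (hc' : c ≤ l0) (f : Fin (n + 1)) :
    T (pt α w u c f) ∈ Tube (T α) (T (α + (l0 * u) • w)) u := by
  refine ⟨T (α + (c * u) • w), ?_, ?_⟩
  · rw [segment_eq_image']
    refine ⟨c / l0, ⟨by positivity, (div_le_one hl).2 hc'⟩, ?_⟩
    have : c / l0 * (l0 * u) = c * u := by field_simp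
    simp only [map_add, map_smul, add_sub_cancel_left, smul_smul, this]
  · rw [dist_eq_norm, ← map_sub]
    refine (h.1 _).trans ?_
    have : pt α w u c f - (α + (c * u) • w) = u • EuclideanSpace.single f (1 : ℝ) := by
      simp [pt]
    rw [this, norm_smul, EuclideanSpace.norm_single]
    simp [abs_of_pos hu]

theorem geo_step [DecidableEq Y] {T : E n →L[ℝ] Y} (hT : Fr T) {N l0 R : ℕ} (hn : n = R * N)
    (hN : 2 ≤ N) (hl0 : 10 * N ≤ l0) (r : ℕ) (H : Finset Y) (a b : Y) (u : ℝ) (hr : r < R)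
    (hS : St T N l0 r H a b ((l0 : ℝ) * u)) :
    ∃ P Q M : ℕ → Y, ∀ j k : ℕ, 1 ≤ j → j < k → k ≤ N → u / 20 ≤ ‖M j - M k‖ ∧
      ∃ H2 : Finset Y, H ⊆ H2 ∧
        (∀ i : ℕ, 1 ≤ i → i ≤ N →
          St T N l0 (r + 1) H2 a (P i) (((l0 : ℝ) / 2 - i) * u) ∧
          St T N l0 (r + 1) H2 (P i) b (((l0 : ℝ) / 2 + i) * u) ∧
          St T N l0 (r + 1) H2 a (Q i) (((l0 : ℝ) / 2 + i) * u) ∧
          St T N l0 (r + 1) H2 (Q i) b (((l0 : ℝ) / 2 - i) * u)) ∧
        ∀ i : ℕ, i = j ∨ i = k →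
          St T N l0 (r + 1) H2 (P i) (M i) ((i : ℝ) * u) ∧
          St T N l0 (r + 1) H2 (M i) (Q i) ((i : ℝ) * u) := by
  obtain ⟨α, w, rfl, rfl, hw1, hwn, hl, hα, hw, hH, haH, hbH, h0H, hna, hnb, hI⟩ := hS
  have hNr : (2 : ℝ) ≤ N := by exact_mod_cast hN
  have hlr : 10 * (N : ℝ) ≤ l0 := by exact_mod_cast hl0
  have hl0p : (0 : ℝ) < l0 := by linarith
  have hu : 0 < u := pos_of_mul_pos_left (by rwa [mul_comm] at hl) hl0p.le
  have hul : (l0 : ℝ) * u / l0 = u := by field_simp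
  rw [hul] at hna hnb hI
  have hrn : (r + 1) * N ≤ n := hn ▸ Nat.mul_le_mul_right N hr
  have hrn' : (r + 1) * N = r * N + N := by ring
  let idx : ℕ → Fin (n + 1) := fun i => ⟨min (r * N + (i - 1)) n, by omega⟩
  have hidx : ∀ i, 1 ≤ i → i ≤ N → (idx i).val = r * N + (i - 1) := fun i h1 h2 => by
    simp only [idx]; omega
  have hidt : ∀ i, 1 ≤ i → i ≤ N → idx i ≠ Fin.last n := fun i h1 h2 e => by
    have := congrArg Fin.val e
    rw [hidx i h1 h2, Fin.val_last] at this; omega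
  let p : ℝ → ℕ → E n := fun z i => pt α w u (l0 / 2 + z) (idx i)
  have hpold : ∀ z i, 1 ≤ i → i ≤ N → Old ((r + 1) * N) (p z i) := by
    intro z i h1 h2 j hj hjt
    have e : j ≠ idx i := fun e => by
      have := congrArg Fin.val e
      rw [hidx i h1 h2] at this; omega
    simp only [p, pt_apply, hα j (by omega) hjt, hw j (by omega) hjt, if_neg e]; ring
  have hptop : ∀ z i, 1 ≤ i → i ≤ N →
      p z i (Fin.last n) = α (Fin.last n) + (l0 / 2 + z) * u := by
    intro z i h1 h2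
    simp only [p, pt_apply, hw1, if_neg (hidt i h1 h2).symm]; ring
  have hpj : ∀ z i (j : Fin (n + 1)), r * N ≤ j.val → j ≠ Fin.last n →
      p z i j = if j = idx i then u else 0 := by
    intro z i j hj hjt
    simp only [p, pt_apply, hα j hj hjt, hw j hj hjt]; ring
  have hptube : ∀ (z : ℝ) i, |z| ≤ N → T (p z i) ∈ Tube (T α) (T (α + ((l0 : ℝ) * u) • w)) u := by
    intro z i hz
    have := abs_le.1 hz
    exact pt_tube hT α w hu hl0p (by linarith) (by linarith) _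
  -- separation of two new points with different fresh directions
  have hsep2 : ∀ z z' i i', 1 ≤ i' → i' < i → i ≤ N → u / 20 ≤ ‖T (p z i) - T (p z' i')‖ := by
    intro z z' i i' h1 h2 h3
    have e := hT.fresh (idx i) (hidt i (by omega) h3) (p z i - p z' i') (fun j hj hjt => by
      have hj' : (idx i).val < j.val := hj
      rw [hidx i (by omega) h3] at hj'
      have e1 : j ≠ idx i := ne_of_gt hj
      have e2 : j ≠ idx i' := fun e => by
        have := congrArg Fin.val e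
        rw [hidx i' h1 (by omega)] at this; omega
      rw [PiLp.sub_apply, hpj z i j (by omega) hjt, hpj z' i' j (by omega) hjt, if_neg e1,
        if_neg e2, sub_zero])
    have e2 : idx i ≠ idx i' := fun e => by
      have := congrArg Fin.val e
      rw [hidx i' h1 (by omega), hidx i (by omega) h3] at this; omega
    have e3 : r * N ≤ (idx i).val := by rw [hidx i (by omega) h3]; omega
    rw [PiLp.sub_apply, hpj z i _ e3 (hidt i (by omega) h3), hpj z' i' _ e3 (hidt i (by omega) h3),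
      if_pos rfl, if_neg e2, sub_zero, abs_of_pos hu, map_sub] at e
    exact e
  have hsep1 : ∀ z z' i i', 1 ≤ i → i ≤ N → 1 ≤ i' → i' ≤ N →
      |z - z'| * u / 4 ≤ ‖T (p z i) - T (p z' i')‖ := by
    intro z z' i i' h1 h2 h3 h4
    have e := hT.top (p z i - p z' i')
    rw [PiLp.sub_apply, hptop z i h1 h2, hptop z' i' h3 h4, map_sub] at e
    have : α (Fin.last n) + (l0 / 2 + z) * u - (α (Fin.last n) + (l0 / 2 + z') * u) =
        (z - z') * u := by ring
    rwa [this, abs_mul, abs_of_pos hu] at e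
  refine ⟨fun i => T (p (-i) i), fun i => T (p i i), fun i => T (p 0 i), fun j k hj hjk hk => ?_⟩
  refine ⟨by rw [norm_sub_rev]; exact hsep2 0 0 k j hj hjk hk, ?_⟩
  let A1 : Finset Y := (Finset.Icc 1 N).image (fun i : ℕ => T (p (-i) i)) ∪
    (Finset.Icc 1 N).image (fun i : ℕ => T (p i i))
  let A : Finset Y := A1 ∪ {T (p 0 j), T (p 0 k)}
  have hA1 : ∀ y ∈ A1, ∃ (z : ℤ) (i : ℕ), 1 ≤ i ∧ i ≤ N ∧ z.natAbs = i ∧ y = T (p z i) := by
    intro y hy
    rcases Finset.mem_union.1 hy with e | e <;> obtain ⟨i, hi, rfl⟩ := Finset.mem_image.1 e <;>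
      have hi' := Finset.mem_Icc.1 hi
    · exact ⟨-i, i, hi'.1, hi'.2, by simp, by push_cast; rfl⟩
    · exact ⟨i, i, hi'.1, hi'.2, by simp, by push_cast; rfl⟩
  have hA : ∀ y ∈ A, ∃ (z : ℤ) (i : ℕ), 1 ≤ i ∧ i ≤ N ∧ z.natAbs ≤ N ∧ y = T (p z i) := by
    intro y hy
    rcases Finset.mem_union.1 hy with e | e
    · obtain ⟨z, i, h1, h2, h3, h4⟩ := hA1 y e
      exact ⟨z, i, h1, h2, by omega, h4⟩
    · rcases Finset.mem_insert.1 e with e | e
      · exact ⟨0, j, hj, by omega, by simp, by rw [e]; push_cast; rfl⟩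
      · exact ⟨0, k, by omega, hk, by simp, by rw [Finset.mem_singleton.1 e]; push_cast; rfl⟩
  have hzabs : ∀ z : ℤ, z.natAbs ≤ N → |(z : ℝ)| ≤ N := by
    intro z hz
    have : |z| ≤ (N : ℤ) := by rw [abs_le]; omega
    exact_mod_cast this
  have hzsep : ∀ z z' : ℤ, z ≠ z' → (1 : ℝ) ≤ |(z : ℝ) - z'| := by
    intro z z' hz
    have : (1 : ℤ) ≤ |z - z'| := Int.one_le_abs (sub_ne_zero.2 hz)
    exact_mod_cast this
  have hAt : ∀ y ∈ A, y ∈ Tube (T α) (T (α + ((l0 : ℝ) * u) • w)) u := by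
    intro y hy
    obtain ⟨z, i, -, -, h3, rfl⟩ := hA y hy
    exact hptube _ _ (hzabs z h3)
  have hsep : ∀ y ∈ A, ∀ y' ∈ H ∪ A, y' ≠ y → u / 20 ≤ dist y y' := by
    intro y hy y' hy' hne
    obtain ⟨z, i, h1, h2, h3, rfl⟩ := hA y hy
    rw [dist_eq_norm]
    rcases Finset.mem_union.1 hy' with e | e
    · obtain ⟨-, η, rfl, hη⟩ := hH y' e
      have e3 : r * N ≤ (idx i).val := by rw [hidx i h1 h2]; omega
      have e := hT.fresh (idx i) (hidt i h1 h2) (p z i - η) (fun j hj hjt => by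
        have hj' : (idx i).val < j.val := hj
        rw [PiLp.sub_apply, hpj z i j (by omega) hjt, hη j (by omega) hjt, if_neg (ne_of_gt hj),
          sub_zero])
      rw [PiLp.sub_apply, hpj z i _ e3 (hidt i h1 h2), hη _ e3 (hidt i h1 h2), if_pos rfl,
        sub_zero, abs_of_pos hu, map_sub] at e
      exact e
    · obtain ⟨z', i', h1', h2', h3', rfl⟩ := hA y' e
      rcases lt_trichotomy i i' with c | c | c
      · rw [norm_sub_rev]; exact hsep2 _ _ _ _ h1 c h2'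
      · subst c
        have hz : z ≠ z' := fun e => hne (by rw [e])
        have e1 := hsep1 z z' i i h1 h2 h1 h2
        have e2 := mul_le_mul_of_nonneg_right (hzsep z z' hz) hu.le
        linarith
      · exact hsep2 _ _ _ _ h1' c h2
  have hcnt : ∀ D : ℕ, ∀ S : Finset Y, S ⊆ A → (∀ x ∈ S, ∀ y ∈ S, dist x y ≤ D * u) →
      S.card ≤ 4 * D + 3 := by
    intro D S hS hd
    have : ∀ y : Y, ∃ (z : ℤ), y ∈ A1 → 1 ≤ z.natAbs ∧ z.natAbs ≤ N ∧ y = T (p z z.natAbs) := by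
      intro y
      by_cases hy : y ∈ A1
      · obtain ⟨z, i, h1, h2, rfl, h4⟩ := hA1 y hy
        exact ⟨z, fun _ => ⟨h1, h2, h4⟩⟩
      · exact ⟨0, fun h => absurd h hy⟩
    choose z hz using this
    have e1 := HP.real_pack (S.filter fun y => y ∈ A1) (fun y => (z y : ℝ)) one_pos (4 * D)
      (fun x hx y hy hne => hzsep _ _ fun e => hne (by
        rw [(hz x (Finset.mem_filter.1 hx).2).2.2, (hz y (Finset.mem_filter.1 hy).2).2.2]
        simp only [e]))
      (fun x hx y hy => by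
        obtain ⟨a1, a2, a3⟩ := hz x (Finset.mem_filter.1 hx).2
        obtain ⟨b1, b2, b3⟩ := hz y (Finset.mem_filter.1 hy).2
        have e1 := hsep1 (z x) (z y) _ _ a1 a2 b1 b2
        have e2 := hd x (Finset.mem_filter.1 hx).1 y (Finset.mem_filter.1 hy).1
        rw [← a3, ← b3, ← dist_eq_norm] at e1
        have e3 : |(z x : ℝ) - z y| * u ≤ (4 * D) * u := by linarith
        have := le_of_mul_le_mul_right e3 hu
        push_cast
        linarith)
    have e2 : S ⊆ (S.filter fun y => y ∈ A1) ∪ {T (p 0 j), T (p 0 k)} := by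
      intro y hy
      rcases Finset.mem_union.1 (hS hy) with e | e
      · exact Finset.mem_union_left _ (Finset.mem_filter.2 ⟨hy, e⟩)
      · exact Finset.mem_union_right _ e
    have e3 := (Finset.card_le_card e2).trans (Finset.card_union_le _ _)
    have e4 : ({T (p 0 j), T (p 0 k)} : Finset Y).card ≤ 2 := Finset.card_le_two
    omega
  -- the generic new state
  have next : ∀ (α' β' : E n) (c θ : ℝ) (i : ℕ), 1 ≤ i → i ≤ N → 0 < c → c ≤ 3 / 5 * l0 →
      θ ^ 2 ≤ 16 / (l0 : ℝ) ^ 2 →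
      β' = α' + (c * u) • (w + θ • EuclideanSpace.single (idx i) (1 : ℝ)) →
      Old ((r + 1) * N) α' → T α' ∈ H ∪ A → T β' ∈ H ∪ A →
      T α' ∈ Tube (T α) (T (α + ((l0 : ℝ) * u) • w)) u →
      T β' ∈ Tube (T α) (T (α + ((l0 : ℝ) * u) • w)) u →
      St T N l0 (r + 1) (H ∪ A) (T α') (T β') (c * u) := by
    intro α' β' c θ i h1 h2 hc hc' hθ hβ hα' m1 m2 t1 t2
    have e3 : r * N ≤ (idx i).val := by rw [hidx i h1 h2]; omega
    have hu' : c * u / l0 ≤ 3 / 5 * u := by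
      rw [div_le_iff₀ hl0p]
      have := mul_le_mul_of_nonneg_right hc' hu.le
      linarith
    have n1 := tube_norm hna hnb t1
    have n2 := tube_norm hna hnb t2
    refine ⟨α', w + θ • EuclideanSpace.single (idx i) (1 : ℝ), rfl, by rw [hβ], ?_, ?_,
      by positivity, hα', ?_, ?_, m1, m2, Finset.mem_union_left _ h0H, by linarith, by linarith,
      hI.step A hAt hsep hcnt t1 t2 (by positivity) hu'⟩
    · simp [hw1, (hidt i h1 h2).symm]
    · rw [norm_sq_add_single w _ (hw _ e3 (hidt i h1 h2))]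
      have : 16 * ((r + 1 : ℕ) : ℝ) / (l0 : ℝ) ^ 2 = 16 * r / (l0 : ℝ) ^ 2 + 16 / (l0 : ℝ) ^ 2 := by
        push_cast; ring
      rw [this]; linarith
    · intro j hj hjt
      have e : j ≠ idx i := fun e => by
        have := congrArg Fin.val e
        rw [hidx i h1 h2] at this; omega
      simp [hw j (by omega) hjt, e]
    · intro y hy
      rcases Finset.mem_union.1 hy with e | e
      · obtain ⟨a1, η, a2, a3⟩ := hH y e
        exact ⟨a1, η, a2, a3.mono (by omega)⟩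
      · have := tube_norm hna hnb (hAt y e)
        obtain ⟨z, i, h1, h2, -, rfl⟩ := hA y e
        exact ⟨by linarith, _, rfl, hpold _ _ h1 h2⟩
  have hθ : ∀ c : ℝ, 2 / 5 * (l0 : ℝ) ≤ c → (1 / c) ^ 2 ≤ 16 / (l0 : ℝ) ^ 2 := by
    intro c hc
    have hc0 : 0 < c := by linarith
    rw [div_pow, div_le_div_iff₀ (by positivity) (by positivity)]
    nlinarith
  have mP : ∀ i, 1 ≤ i → i ≤ N → T (p (-(i : ℕ)) i) ∈ A := fun i h1 h2 =>
    Finset.mem_union_left _ (Finset.mem_union_left _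
      (Finset.mem_image.2 ⟨i, Finset.mem_Icc.2 ⟨h1, h2⟩, rfl⟩))
  have mQ : ∀ i, 1 ≤ i → i ≤ N → T (p (i : ℕ) i) ∈ A := fun i h1 h2 =>
    Finset.mem_union_left _ (Finset.mem_union_right _
      (Finset.mem_image.2 ⟨i, Finset.mem_Icc.2 ⟨h1, h2⟩, rfl⟩))
  have ta : T α ∈ Tube (T α) (T (α + ((l0 : ℝ) * u) • w)) u :=
    Tube.of_mem hu.le (left_mem_segment _ _ _)
  have tb : T (α + ((l0 : ℝ) * u) • w) ∈ Tube (T α) (T (α + ((l0 : ℝ) * u) • w)) u :=
    Tube.of_mem hu.le (right_mem_segment _ _ _)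
  have hαo : Old ((r + 1) * N) α := hα.mono (by omega)
  have fwd : ∀ (z : ℝ) (i : ℕ), (l0 : ℝ) / 2 + z ≠ 0 → p z i = α + (((l0 : ℝ) / 2 + z) * u) •
      (w + (1 / ((l0 : ℝ) / 2 + z)) • EuclideanSpace.single (idx i) (1 : ℝ)) := by
    intro z i hz
    have : ((l0 : ℝ) / 2 + z) * u * (1 / ((l0 : ℝ) / 2 + z)) = u := by
      rw [mul_right_comm, mul_one_div_cancel hz, one_mul]
    simp only [p, pt, smul_add, smul_smul, this, add_assoc]
  have bwd : ∀ (z : ℝ) (i : ℕ), (l0 : ℝ) / 2 - z ≠ 0 → α + ((l0 : ℝ) * u) • w =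
      p z i + (((l0 : ℝ) / 2 - z) * u) •
      (w + (-(1 / ((l0 : ℝ) / 2 - z))) • EuclideanSpace.single (idx i) (1 : ℝ)) := by
    intro z i hz
    have : ((l0 : ℝ) / 2 - z) * u * (-(1 / ((l0 : ℝ) / 2 - z))) = -u := by
      rw [mul_neg, mul_right_comm, mul_one_div_cancel hz, one_mul]
    simp only [p, pt, smul_add, smul_smul, this]
    have e : (l0 : ℝ) * u = ((l0 : ℝ) / 2 + z) * u + ((l0 : ℝ) / 2 - z) * u := by ring
    rw [e, add_smul, neg_smul]
    abel
  have par : ∀ (z c : ℝ) (i : ℕ), p (z + c) i = p z i + (c * u) •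
      (w + (0 : ℝ) • EuclideanSpace.single (idx i) (1 : ℝ)) := by
    intro z c i
    simp only [p, pt, zero_smul, add_zero]
    have e : ((l0 : ℝ) / 2 + (z + c)) * u = ((l0 : ℝ) / 2 + z) * u + c * u := by ring
    rw [e, add_smul]
    abel
  refine ⟨H ∪ A, Finset.subset_union_left, fun i h1 h2 => ?_, fun i hi => ?_⟩
  · have hi1 : (1 : ℝ) ≤ i := by exact_mod_cast h1
    have hi2 : (i : ℝ) ≤ N := by exact_mod_cast h2
    refine ⟨?_, ?_, ?_, ?_⟩
    · have := next α (p (-(i : ℝ)) i) ((l0 : ℝ) / 2 + -(i : ℝ)) _ i h1 h2 (by linarith)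
        (by linarith) (hθ _ (by linarith)) (fwd _ _ (by linarith)) hαo
        (Finset.mem_union_left _ haH) (Finset.mem_union_right _ (mP i h1 h2)) ta
        (hAt _ (mP i h1 h2))
      rwa [← sub_eq_add_neg] at this
    · have := next (p (-(i : ℝ)) i) _ ((l0 : ℝ) / 2 - -(i : ℝ)) _ i h1 h2 (by linarith)
        (by linarith) (by rw [neg_sq]; exact hθ _ (by linarith)) (bwd _ _ (by linarith))
        (hpold _ _ h1 h2) (Finset.mem_union_right _ (mP i h1 h2)) (Finset.mem_union_left _ hbH)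
        (hAt _ (mP i h1 h2)) tb
      rwa [sub_neg_eq_add] at this
    · exact next α (p (i : ℝ) i) ((l0 : ℝ) / 2 + (i : ℝ)) _ i h1 h2 (by linarith)
        (by linarith) (hθ _ (by linarith)) (fwd _ _ (by linarith)) hαo
        (Finset.mem_union_left _ haH) (Finset.mem_union_right _ (mQ i h1 h2)) ta
        (hAt _ (mQ i h1 h2))
    · exact next (p (i : ℝ) i) _ ((l0 : ℝ) / 2 - (i : ℝ)) _ i h1 h2 (by linarith)
        (by linarith) (by rw [neg_sq]; exact hθ _ (by linarith)) (bwd _ _ (by linarith))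
        (hpold _ _ h1 h2) (Finset.mem_union_right _ (mQ i h1 h2)) (Finset.mem_union_left _ hbH)
        (hAt _ (mQ i h1 h2)) tb
  · have h1 : 1 ≤ i := by omega
    have h2 : i ≤ N := by omega
    have hi1 : (1 : ℝ) ≤ i := by exact_mod_cast h1
    have hi2 : (i : ℝ) ≤ N := by exact_mod_cast h2
    have mM : T (p 0 i) ∈ A := by
      refine Finset.mem_union_right _ ?_
      rcases hi with rfl | rfl <;> simp
    have h00 : (0 : ℝ) ^ 2 ≤ 16 / (l0 : ℝ) ^ 2 := by
      rw [zero_pow two_ne_zero]; positivity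
    constructor
    · refine next (p (-(i : ℝ)) i) (p 0 i) i 0 i h1 h2 (by linarith) (by linarith) h00 ?_
        (hpold _ _ h1 h2) (Finset.mem_union_right _ (mP i h1 h2)) (Finset.mem_union_right _ mM)
        (hAt _ (mP i h1 h2)) (hAt _ mM)
      rw [← par, neg_add_cancel]
    · refine next (p 0 i) (p (i : ℝ) i) i 0 i h1 h2 (by linarith) (by linarith) h00 ?_
        (hpold _ _ h1 h2) (Finset.mem_union_right _ mM) (Finset.mem_union_right _ (mQ i h1 h2))
        (hAt _ mM) (hAt _ (mQ i h1 h2))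
      rw [← par, zero_add]

/-- the geometry oracle -/
theorem geoB (Y : Type*) [NormedAddCommGroup Y] [NormedSpace ℝ Y] : G.GeoTask (hLam 24) Y := by
  classical
  intro hY N l0 R hN hl0 C hC0 hC
  obtain ⟨T, hT1, hT2⟩ := frame Y hY (R * N + 1)
  have hT : Fr (n := R * N) T := ⟨hT1, hT2⟩
  have hNr : (2 : ℝ) ≤ N := by exact_mod_cast hN
  have hlr : 10 * (N : ℝ) ≤ l0 := by exact_mod_cast hl0
  have hl0p : (0 : ℝ) < l0 := by linarith
  refine ⟨St T N l0, ?_, ?_, fun r H a b u hr hS => geo_step hT rfl hN hl0 r H a b u hr hS⟩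
  · let e : E (R * N) := EuclideanSpace.single (Fin.last _) (1 : ℝ)
    have he : ‖e‖ = 1 := by simp [e]
    have heo : Old (0 * N) ((0 : E (R * N)) + (1 / 2 : ℝ) • e) := fun j _ hj => by simp [e, hj]
    have hb : ‖T (0 + (1 / 2 : ℝ) • e)‖ ≤ 1 / 2 := by
      refine (hT.1 _).trans ?_
      rw [zero_add, norm_smul, he]; norm_num
    have hs : 3 * ((1 / 2 : ℝ) / l0) ≤ 1 / 2 := by
      rw [← mul_div_assoc, div_le_iff₀ hl0p]; linarith
    refine ⟨{T 0, T (0 + (1 / 2 : ℝ) • e)}, T 0, T (0 + (1 / 2 : ℝ) • e), 1 / 2, by simp, 0, e, rfl,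
      rfl, by simp [e], by rw [he]; simp, by norm_num, fun j _ _ => rfl,
      fun j _ hj => by simp [e, hj], ?_, by simp, by simp, by simp, ?_, by linarith,
      HI.init 24 (Finset.card_le_two.trans (by norm_num)) _ _ (by positivity)⟩
    · intro y hy
      rcases Finset.mem_insert.1 hy with rfl | hy
      · exact ⟨by simp, 0, rfl, fun j _ _ => rfl⟩
      · rw [Finset.mem_singleton.1 hy]
        exact ⟨by linarith, _, rfl, heo⟩
    · rw [map_zero, norm_zero]; linarith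
  · rintro r H a b l hr ⟨α, w, rfl, rfl, -, hwn, hl, -, -, hH, haH, hbH, h0H, -, -, hI⟩
    refine ⟨⟨h0H, fun y hy => (hH y hy).1, by simpa using hI.pk⟩, haH, hbH, hl, ?_⟩
    have hw : ‖w‖ ≤ C := by
      have hr' : (r : ℝ) ≤ R := by exact_mod_cast hr
      have : 16 * (r : ℝ) / (l0 : ℝ) ^ 2 ≤ 16 * (R : ℝ) / (l0 : ℝ) ^ 2 := by gcongr
      exact abs_le_of_sq_le_sq' (by linarith) hC0 |>.2
    rw [norm_sub_rev, ← map_sub, add_sub_cancel_left]
    refine (hT.1 _).trans ?_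
    rw [norm_smul, Real.norm_of_nonneg hl.le, mul_comm]
    exact mul_le_mul_of_nonneg_right hw hl.le

end Crest.Agent.R254.GB
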