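import Crest.Agent.R254.SDefs

/-! Row 254: the geometry oracle of the online game. -/

set_option autoImplicit false
noncomputable section
namespace Crest.Agent.R254.G

/-- Geometry oracle. `St r H a b l`: after `r` rounds the history is `H`, the current segment is
`[a,b]` with horizontal length `l`. -/
def GeoProp (Y : Type*) [NormedAddCommGroup Y] (Good : Finset Y → Prop) (N l0 R : ℕ) (C : ℝ) :
    Prop :=
  ∃ St : ℕ → Finset Y → Y → Y → ℝ → Prop,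
    (∃ H a b l, (0 : Y) ∈ H ∧ St 0 H a b l) ∧
    (∀ r H a b l, r ≤ R → St r H a b l → Good H ∧ a ∈ H ∧ b ∈ H ∧ 0 < l ∧ ‖a - b‖ ≤ C * l) ∧
    ∀ (r : ℕ) (H : Finset Y) (a b : Y) (u : ℝ), r < R → St r H a b ((l0 : ℝ) * u) →
      ∃ P Q M : ℕ → Y, ∀ j k : ℕ, 1 ≤ j → j < k → k ≤ N → u / 20 ≤ ‖M j - M k‖ ∧
        ∃ H2 : Finset Y, H ⊆ H2 ∧
          (∀ i : ℕ, 1 ≤ i → i ≤ N →
            St (r + 1) H2 a (P i) (((l0 : ℝ) / 2 - i) * u) ∧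
            St (r + 1) H2 (P i) b (((l0 : ℝ) / 2 + i) * u) ∧
            St (r + 1) H2 a (Q i) (((l0 : ℝ) / 2 + i) * u) ∧
            St (r + 1) H2 (Q i) b (((l0 : ℝ) / 2 - i) * u)) ∧
          ∀ i : ℕ, i = j ∨ i = k →
            St (r + 1) H2 (P i) (M i) ((i : ℝ) * u) ∧ St (r + 1) H2 (M i) (Q i) ((i : ℝ) * u)

/-- task GEO -/
def GeoTask (Λ : ℕ) (Y : Type*) [NormedAddCommGroup Y] [NormedSpace ℝ Y] : Prop :=
  ¬ FiniteDimensional ℝ Y → ∀ N l0 R : ℕ, 2 ≤ N → 10 * N ≤ l0 → ∀ C : ℝ, 0 ≤ C →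
    1 + 16 * (R : ℝ) / (l0 : ℝ) ^ 2 ≤ C ^ 2 → GeoProp Y (S.Good Λ) N l0 R C

end Crest.Agent.R254.G
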