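import Crest.Prelude.Def_Doubling

/-! Row 254: packing form of doubling, and gluing of a sequence of bad sets into one compact set. -/

set_option autoImplicit false
open Crest.GeometryTopology Metric
noncomputable section
namespace Crest.Agent.R254

/-- packing form of doubling with ratio `ρ` -/
def Pk {X : Type*} [PseudoMetricSpace X] (K : Set X) (ρ : ℝ) (Λ : ℕ) : Prop :=
  ∀ r : ℝ, 0 < r → ∀ S : Finset X, (↑S : Set X) ⊆ K →
    (∀ x ∈ S, ∀ y ∈ S, x ≠ y → r < dist x y) → (∀ x ∈ S, ∀ y ∈ S, dist x y ≤ ρ * r) → S.card ≤ Λ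

/-- no embedding into Euclidean `d`-space with distortion `L` -/
def NoEmb {B : Type*} [PseudoMetricSpace B] (K : Set B) (d : ℕ) (L : ℝ) : Prop :=
  ∀ f : B → EuclideanSpace ℝ (Fin d),
    ¬ ∀ x ∈ K, ∀ y ∈ K, dist x y ≤ dist (f x) (f y) ∧ dist (f x) (f y) ≤ L * dist x y

section pk
variable {X X' : Type*} [PseudoMetricSpace X] [PseudoMetricSpace X']

theorem Pk.mono {K K' : Set X} {ρ ρ' : ℝ} {Λ Λ' : ℕ} (h : Pk K ρ Λ) (hK : K' ⊆ K) (hρ : ρ' ≤ ρ)
    (hΛ : Λ ≤ Λ') : Pk K' ρ' Λ' := fun r hr S h1 h2 h3 =>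
  (h r hr S (h1.trans hK) h2 fun x hx y hy =>
    (h3 x hx y hy).trans (mul_le_mul_of_nonneg_right hρ hr.le)).trans hΛ

theorem Pk.union {K K' : Set X} {ρ : ℝ} {Λ Λ' : ℕ} (h : Pk K ρ Λ) (h' : Pk K' ρ Λ') :
    Pk (K ∪ K') ρ (Λ + Λ') := by
  classical
  intro r hr S h1 h2 h3
  rw [← Finset.card_filter_add_card_filter_not (s := S) (fun x => x ∈ K)]
  refine add_le_add (h r hr _ (fun x hx => (Finset.mem_filter.1 hx).2)
    (fun x hx y hy => h2 x (Finset.mem_filter.1 hx).1 y (Finset.mem_filter.1 hy).1)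
    fun x hx y hy => h3 x (Finset.mem_filter.1 hx).1 y (Finset.mem_filter.1 hy).1)
    (h' r hr _ (fun x hx => ?_)
    (fun x hx y hy => h2 x (Finset.mem_filter.1 hx).1 y (Finset.mem_filter.1 hy).1)
    fun x hx y hy => h3 x (Finset.mem_filter.1 hx).1 y (Finset.mem_filter.1 hy).1)
  have := Finset.mem_filter.1 hx
  exact (h1 this.1).resolve_left this.2

theorem Pk.single (x : X) (ρ : ℝ) : Pk {x} ρ 1 := fun r _ S h1 _ _ =>
  Finset.card_le_one.2 fun a ha b hb => (h1 ha).trans (h1 hb).symm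

/-- transfer along a map `g` with `a * dist ≤ dist (g ·) (g ·) ≤ b * dist` on `K` -/
theorem Pk.image {K : Set X} {ρ ρ' a b : ℝ} {Λ : ℕ} (h : Pk K ρ Λ) (g : X → X') (ha : 0 < a)
    (hb : 0 < b) (hg : ∀ x ∈ K, ∀ y ∈ K, a * dist x y ≤ dist (g x) (g y) ∧
      dist (g x) (g y) ≤ b * dist x y) (hρ : ρ' * b ≤ ρ * a) : Pk (g '' K) ρ' Λ := by
  classical
  intro r hr S h1 h2 h3
  have : ∀ s : S, ∃ x ∈ K, g x = s := fun s => h1 s.2
  choose p p1 p2 using this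
  have hinj : Function.Injective p := fun s t e => Subtype.ext (by rw [← p2 s, ← p2 t, e])
  have hc : (Finset.univ.image p).card = S.card := by
    rw [Finset.card_image_of_injective _ hinj]; simp
  rw [← hc]
  refine h (r / b) (by positivity) _ ?_ ?_ ?_
  · intro x hx
    obtain ⟨s, -, rfl⟩ := Finset.mem_image.1 hx
    exact p1 s
  · intro x hx y hy hne
    obtain ⟨s, -, rfl⟩ := Finset.mem_image.1 hx
    obtain ⟨t, -, rfl⟩ := Finset.mem_image.1 hy
    have e := h2 s s.2 t t.2 fun e => hne (by rw [Subtype.ext e])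
    have e2 := (hg _ (p1 s) _ (p1 t)).2
    rw [p2, p2] at e2
    rw [div_lt_iff₀ hb]; linarith
  · intro x hx y hy
    obtain ⟨s, -, rfl⟩ := Finset.mem_image.1 hx
    obtain ⟨t, -, rfl⟩ := Finset.mem_image.1 hy
    have e := h3 s s.2 t t.2
    have e2 := (hg _ (p1 s) _ (p1 t)).1
    rw [p2, p2] at e2
    have e3 : a * dist (p s) (p t) ≤ a * (ρ * (r / b)) := by
      refine e2.trans (e.trans ?_)
      have : a * (ρ * (r / b)) = ρ * a * r / b := by ring
      rw [this, le_div_iff₀ hb]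
      nlinarith
    exact le_of_mul_le_mul_left e3 ha

theorem Pk.doubling {K : Set X} {Λ : ℕ} (h : Pk K 4 Λ) : DoublingConstLE K Λ := by
  classical
  intro x hx r hr
  let P : ℕ → Prop := fun n => ∃ S : Finset X, (↑S : Set X) ⊆ K ∩ closedBall x (2 * r) ∧
    (∀ a ∈ S, ∀ b ∈ S, a ≠ b → r < dist a b) ∧ S.card = n
  have hb : ∀ n, P n → n ≤ Λ := by
    rintro n ⟨S, h1, h2, rfl⟩
    refine h r hr S (fun a ha => (h1 ha).1) h2 fun a ha b hb => ?_
    have e1 := mem_closedBall.1 (h1 ha).2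
    have e2 := mem_closedBall.1 (h1 hb).2
    have := dist_triangle_right a b x
    linarith
  have h0 : P 0 := ⟨∅, by simp, by simp, rfl⟩
  obtain ⟨S, h1, h2, h3⟩ : P (Nat.findGreatest P Λ) := Nat.findGreatest_spec (Nat.zero_le _) h0
  refine ⟨S, fun a ha => (h1 ha).1, h3 ▸ Nat.findGreatest_le _, fun z hz => ?_⟩
  by_contra hc
  simp only [Set.mem_iUnion, mem_closedBall, not_exists, not_le] at hc
  have hz' : z ∉ S := fun e => by have := hc z e; rw [dist_self] at this; linarith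
  have hP : P (S.card + 1) := by
    refine ⟨insert z S, ?_, ?_, Finset.card_insert_of_notMem hz'⟩
    · rw [Finset.coe_insert]; exact Set.insert_subset hz h1
    · intro a ha b hb hne
      rcases Finset.mem_insert.1 ha with rfl | ha' <;> rcases Finset.mem_insert.1 hb with rfl | hb'
      · exact absurd rfl hne
      · exact hc b hb'
      · rw [dist_comm]; exact hc a ha'
      · exact h2 a ha' b hb' hne
  have := Nat.le_findGreatest (hb _ hP) hP
  omega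

end pk

section glue
variable {B : Type*} [NormedAddCommGroup B] [NormedSpace ℝ B]

theorem NoEmb.mono {K K' : Set B} {d : ℕ} {L L' : ℝ} (h : NoEmb K d L) (hK : K ⊆ K') (hL : L' ≤ L) :
    NoEmb K' d L' := fun f hf => h f fun x hx y hy =>
  ⟨(hf x (hK hx) y (hK hy)).1, (hf x (hK hx) y (hK hy)).2.trans
    (mul_le_mul_of_nonneg_right hL dist_nonneg)⟩

/-- transfer along a map `g` with `a * dist ≤ dist (g ·) (g ·) ≤ b * dist` on `K` -/
theorem NoEmb.image {X X' : Type*} [PseudoMetricSpace X] [PseudoMetricSpace X'] {K : Set X} {d : ℕ}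
    {L L' a b : ℝ} (h : NoEmb K d L) (g : X → X') (ha : 0 < a) (hL' : 0 ≤ L')
    (hg : ∀ x ∈ K, ∀ y ∈ K, a * dist x y ≤ dist (g x) (g y) ∧ dist (g x) (g y) ≤ b * dist x y)
    (hL : L' * b ≤ L * a) : NoEmb (g '' K) d L' := by
  intro f hf
  refine h (fun x => a⁻¹ • f (g x)) fun x hx y hy => ?_
  obtain ⟨e1, e2⟩ := hf _ ⟨x, hx, rfl⟩ _ ⟨y, hy, rfl⟩
  obtain ⟨e3, e4⟩ := hg x hx y hy
  rw [dist_smul₀, Real.norm_eq_abs, abs_of_pos (inv_pos.2 ha), inv_mul_eq_div]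
  constructor
  · rw [le_div_iff₀ ha]; linarith
  · rw [div_le_iff₀ ha]
    have := mul_le_mul_of_nonneg_left e4 hL'
    have := mul_le_mul_of_nonneg_right hL (dist_nonneg (x := x) (y := y))
    nlinarith

/-- a bad set can be moved into any ball -/
theorem place {Λ d : ℕ} {L : ℝ} (hL : 0 ≤ L) {K : Set B} (h1 : IsCompact K) (h2 : Pk K 4 Λ)
    (h3 : NoEmb K d L) (c : B) {ε : ℝ} (hε : 0 < ε) :
    ∃ K' : Set B, IsCompact K' ∧ Pk K' 4 Λ ∧ NoEmb K' d L ∧ K' ⊆ closedBall c ε := by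
  obtain ⟨R, hR0, hR⟩ := h1.isBounded.exists_pos_norm_le
  have ha : 0 < ε / R := by positivity
  have hg : ∀ x ∈ K, ∀ y ∈ K, ε / R * dist x y ≤ dist (c + (ε / R) • x) (c + (ε / R) • y) ∧
      dist (c + (ε / R) • x) (c + (ε / R) • y) ≤ ε / R * dist x y := by
    intro x _ y _
    rw [dist_add_left, dist_smul₀, Real.norm_eq_abs, abs_of_pos ha]
    exact ⟨le_rfl, le_rfl⟩
  refine ⟨(fun x => c + (ε / R) • x) '' K, h1.image (by fun_prop), h2.image _ ha ha hg le_rfl,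
    h3.image _ ha hL hg le_rfl, ?_⟩
  rintro _ ⟨x, hx, rfl⟩
  rw [mem_closedBall, dist_eq_norm, add_sub_cancel_left, norm_smul, Real.norm_eq_abs, abs_of_pos ha,
    div_mul_eq_mul_div, div_le_iff₀ hR0]
  exact mul_le_mul_of_nonneg_left (hR x hx) hε.le

theorem glue (Λ : ℕ) (hB : ∃ e : B, ‖e‖ = 1)
    (h : ∀ (d : ℕ) (L : ℝ), ∃ K : Set B, IsCompact K ∧ Pk K 4 Λ ∧ NoEmb K d L) :
    ∃ K : Set B, IsCompact K ∧ Pk K 4 (2 * Λ + 1) ∧ ∀ (d : ℕ) (L : ℝ), NoEmb K d L := by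
  classical
  obtain ⟨e, he⟩ := hB
  have hp : ∀ n : ℕ, ∃ K' : Set B, IsCompact K' ∧ Pk K' 4 Λ ∧
      NoEmb K' n.unpair.1 (n.unpair.2 : ℝ) ∧
      K' ⊆ closedBall (((1 / 100 : ℝ) ^ n) • e) ((1 / 100 : ℝ) ^ n / 10) := by
    intro n
    obtain ⟨K, h1, h2, h3⟩ := h n.unpair.1 (n.unpair.2 : ℝ)
    exact place (Nat.cast_nonneg _) h1 h2 h3 _ (by positivity)
  choose K k1 k2 k3 k4 using hp
  have nb : ∀ n, ∀ x ∈ K n, 9 / 10 * (1 / 100 : ℝ) ^ n ≤ ‖x‖ ∧ ‖x‖ ≤ 11 / 10 * (1 / 100 : ℝ) ^ n := by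
    intro n x hx
    have e1 := mem_closedBall.1 (k4 n hx)
    rw [dist_eq_norm] at e1
    have e2 : ‖((1 / 100 : ℝ) ^ n) • e‖ = (1 / 100 : ℝ) ^ n := by
      rw [norm_smul, he, mul_one, Real.norm_eq_abs, abs_of_pos (by positivity)]
    have e3 := abs_le.1 ((abs_norm_sub_norm_le x (((1 / 100 : ℝ) ^ n) • e)).trans e1)
    rw [e2] at e3
    constructor <;> linarith [e3.1, e3.2]
  have pw : ∀ m n : ℕ, m < n → (1 / 100 : ℝ) ^ n ≤ (1 / 100 : ℝ) ^ m / 100 := by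
    intro m n hmn
    calc (1 / 100 : ℝ) ^ n ≤ (1 / 100 : ℝ) ^ (m + 1) :=
          pow_le_pow_of_le_one (by norm_num) (by norm_num) hmn
      _ = _ := by ring
  refine ⟨(⋃ n, K n) ∪ {0}, ?_, Pk.union ?_ (Pk.single _ _), fun d L => ?_⟩
  · rw [isCompact_iff_finite_subcover]
    intro ι U hU hc
    obtain ⟨i0, hi0⟩ := Set.mem_iUnion.1 (hc (Or.inr rfl))
    obtain ⟨δ, hδ, hδU⟩ := Metric.isOpen_iff.1 (hU i0) 0 hi0
    obtain ⟨N, hN⟩ := exists_pow_lt_of_lt_one (show 0 < δ / 2 by positivity)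
      (show (1 / 100 : ℝ) < 1 by norm_num)
    have hK : IsCompact (⋃ n ∈ Finset.range N, K n) :=
      (Finset.range N).isCompact_biUnion fun n _ => k1 n
    obtain ⟨t, ht⟩ := hK.elim_finite_subcover U hU (fun x hx => hc (Or.inl (by
      simp only [Set.mem_iUnion] at hx ⊢
      obtain ⟨n, -, hn⟩ := hx
      exact ⟨n, hn⟩)))
    refine ⟨insert i0 t, fun x hx => ?_⟩
    simp only [Set.mem_iUnion]
    rcases hx with hx | hx
    · obtain ⟨n, hn⟩ := Set.mem_iUnion.1 hx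
      by_cases hnN : n < N
      · have := ht (Set.mem_biUnion (Finset.mem_coe.2 (Finset.mem_range.2 hnN)) hn)
        simp only [Set.mem_iUnion] at this
        obtain ⟨i, hi, hx⟩ := this
        exact ⟨i, Finset.mem_insert_of_mem hi, hx⟩
      · refine ⟨i0, Finset.mem_insert_self _ _, hδU ?_⟩
        rw [mem_ball_zero_iff]
        have e1 := (nb n x hn).2
        have e2 : (1 / 100 : ℝ) ^ n ≤ (1 / 100 : ℝ) ^ N :=
          pow_le_pow_of_le_one (by norm_num) (by norm_num) (not_lt.1 hnN)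
        linarith
    · exact ⟨i0, Finset.mem_insert_self _ _, by rw [Set.mem_singleton_iff.1 hx]; exact hi0⟩
  · intro r hr S h1 h2 h3
    rcases S.eq_empty_or_nonempty with rfl | hS
    · simp
    have ex : ∀ x ∈ S, ∃ n, x ∈ K n := fun x hx => Set.mem_iUnion.1 (h1 hx)
    have ex1 : ∃ n, ∃ x ∈ S, x ∈ K n := by
      obtain ⟨x, hx⟩ := hS
      obtain ⟨n, hn⟩ := ex x hx
      exact ⟨n, x, hx, hn⟩
    obtain ⟨x1, hx1, hx1K⟩ := Nat.find_spec ex1
    set n1 := Nat.find ex1 with hn1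
    have hmin : ∀ x ∈ S, ∀ n, x ∈ K n → n1 ≤ n := fun x hx n hn => Nat.find_min' ex1 ⟨x, hx, hn⟩
    by_cases hall : ∀ x ∈ S, x ∈ K n1
    · have := k2 n1 r hr S hall h2 h3
      omega
    push Not at hall
    obtain ⟨x2, hx2, hx2K⟩ := hall
    obtain ⟨n2, hn2⟩ := ex x2 hx2
    have l2 : n1 < n2 := lt_of_le_of_ne (hmin x2 hx2 n2 hn2) fun e => hx2K (e ▸ hn2)
    have hsub : (↑S : Set B) ⊆ K n1 ∪ K n2 := by
      intro x hx
      by_contra hc
      obtain ⟨n, hn⟩ := ex x hx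
      have l3 : n1 < n := lt_of_le_of_ne (hmin x hx n hn) fun e => hc (Or.inl (e ▸ hn))
      have hne : x ≠ x2 := fun e => hc (Or.inr (e ▸ hn2))
      have a1 := h2 x hx x2 hx2 hne
      have a2 := h3 x1 hx1 x2 hx2
      rw [dist_eq_norm] at a1 a2
      have a3 := norm_sub_le x x2
      have a4 := norm_sub_norm_le x1 x2
      have a5 := (nb n x hn).2
      have a6 := (nb n2 x2 hn2).2
      have a7 := (nb n1 x1 hx1K).1
      have a8 := pw _ _ l2
      have a9 := pw _ _ l3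
      have : (0 : ℝ) < (1 / 100 : ℝ) ^ n1 := by positivity
      linarith
    have := (k2 n1).union (k2 n2) r hr S hsub h2 h3
    omega
  · have := k3 (Nat.pair d ⌈L⌉₊)
    rw [Nat.unpair_pair] at this
    exact this.mono (fun x hx => Or.inl (Set.mem_iUnion.2 ⟨_, hx⟩)) (Nat.le_ceil L)

theorem noEmb_final {K : Set B} (h : ∀ (d : ℕ) (L : ℝ), NoEmb K d L)
    (Y : Type*) [NormedAddCommGroup Y] [NormedSpace ℝ Y] [FiniteDimensional ℝ Y]
    (f : K → Y) (c C : NNReal) : ¬ (LipschitzWith C f ∧ AntilipschitzWith c f) := by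
  classical
  rintro ⟨h1, h2⟩
  let φ : Y ≃L[ℝ] EuclideanSpace ℝ (Fin (Module.finrank ℝ Y)) :=
    ContinuousLinearEquiv.ofFinrankEq (by simp)
  have l1 := φ.lipschitz.comp h1
  have l2 := φ.antilipschitz.comp h2
  generalize ‖(φ : Y →L[ℝ] EuclideanSpace ℝ (Fin (Module.finrank ℝ Y)))‖₊ * C = C' at l1
  generalize c * ‖(φ.symm : EuclideanSpace ℝ (Fin (Module.finrank ℝ Y)) →L[ℝ] Y)‖₊ = c' at l2
  refine h _ (c' * C') (fun x => if hx : x ∈ K then (c' : ℝ) • (φ ∘ f) ⟨x, hx⟩ else 0)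
    fun x hx y hy => ?_
  simp only [hx, hy, dif_pos]
  rw [dist_smul₀, Real.norm_eq_abs, abs_of_nonneg c'.coe_nonneg]
  have e1 := l1.dist_le_mul ⟨x, hx⟩ ⟨y, hy⟩
  have e2 := l2.le_mul_dist ⟨x, hx⟩ ⟨y, hy⟩
  rw [Subtype.dist_eq] at e1 e2
  refine ⟨e2, ?_⟩
  rw [mul_assoc]
  exact mul_le_mul_of_nonneg_left e1 c'.coe_nonneg

/-- the final statement from the family of bad sets -/
theorem final_of (Λ : ℕ) (hB : ¬ FiniteDimensional ℝ B)
    (h : ∀ (d : ℕ) (L : ℝ), ∃ K : Set B, IsCompact K ∧ Pk K 4 Λ ∧ NoEmb K d L) :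
    ∃ K : Set B, IsCompact K ∧ DoublingConstLE K (2 * Λ + 1) ∧
      ∀ (Y : Type*) [NormedAddCommGroup Y] [NormedSpace ℝ Y] [FiniteDimensional ℝ Y]
        (f : K → Y) (c C : NNReal), ¬ (LipschitzWith C f ∧ AntilipschitzWith c f) := by
  have hn : Nontrivial B := by
    by_contra hc
    rw [not_nontrivial_iff_subsingleton] at hc
    exact hB inferInstance
  obtain ⟨K, h1, h2, h3⟩ := glue Λ (exists_norm_eq B zero_le_one) h
  exact ⟨K, h1, h2.doubling, fun Y _ _ _ f c C => noEmb_final h3 Y f c C⟩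

end glue

end Crest.Agent.R254
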