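import Crest.Agent.R254.SDefs

/-! Row 254: assembly of the lift. -/

set_option autoImplicit false
noncomputable section
namespace Crest.Agent.R254.S

variable {Y : Type*} [NormedAddCommGroup Y] [NormedSpace ℝ Y]

theorem lift_sep (U : Finset Y) : ∃ μ : ℝ, 0 < μ ∧ μ ≤ 1 ∧ ∀ y ∈ U, ∀ y' ∈ U, y ≠ y' → μ ≤ ‖y - y'‖ := by
  classical
  have : ∀ V : Finset (Y × Y), ∃ μ : ℝ, 0 < μ ∧ μ ≤ 1 ∧ ∀ p ∈ V, p.1 ≠ p.2 → μ ≤ ‖p.1 - p.2‖ := by
    intro V
    induction V using Finset.induction_on with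
    | empty => exact ⟨1, one_pos, le_rfl, by simp⟩
    | insert p V _ ih =>
      obtain ⟨μ, h1, h2, h3⟩ := ih
      by_cases hp : p.1 = p.2
      · refine ⟨μ, h1, h2, fun q hq hne => ?_⟩
        rcases Finset.mem_insert.1 hq with rfl | hq
        · exact absurd hp hne
        · exact h3 q hq hne
      · refine ⟨min μ ‖p.1 - p.2‖, lt_min h1 (norm_pos_iff.2 (sub_ne_zero.2 hp)),
          (min_le_left _ _).trans h2, fun q hq hne => ?_⟩
        rcases Finset.mem_insert.1 hq with rfl | hq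
        · exact min_le_right _ _
        · exact (min_le_left _ _).trans (h3 q hq hne)
  obtain ⟨μ, h1, h2, h3⟩ := this (U ×ˢ U)
  exact ⟨μ, h1, h2, fun y hy y' hy' hne => h3 (y, y') (Finset.mem_product.2 ⟨hy, hy'⟩) hne⟩

theorem lift_fin (Q : ℕ) (H : ℕ → Finset Y) (i t : ℕ) : {z | Zp Q H i t z}.Finite := by
  induction i with
  | zero => exact (Set.finite_singleton (0 : Y)).subset fun z hz => hz
  | succ i ih =>
    refine (((H (t / Q ^ i % Q)).finite_toSet.prod ih).image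
      (fun p : Y × Y => ((Q : ℝ) ^ i) • p.1 + p.2)).subset ?_
    rintro z ⟨y, hy, z', hz', rfl⟩
    exact ⟨(y, z'), ⟨hy, hz'⟩, rfl⟩

theorem lift (Y : Type*) [NormedAddCommGroup Y] [NormedSpace ℝ Y] (h1 : SWProp Y) (h2 : NestProp Y)
    (h3 : PackProp Y) : LiftProp Y := by
  classical
  intro Λ d L hL hW
  obtain ⟨Q, hQ, H, hH, hS⟩ := h1 d L (1 + 2 * L) (Good Λ) {0} (fun _ => True) hL (by linarith) hW
  obtain ⟨μ, m0, m1, m2⟩ := lift_sep ((Finset.range Q).biUnion H)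
  obtain ⟨Q', q1, q2⟩ : ∃ Q' : ℕ, Q ≤ Q' ∧ 10000 ≤ μ * Q' := by
    refine ⟨max Q ⌈10000 / μ⌉₊, le_max_left _ _, ?_⟩
    have e1 : (10000 / μ : ℝ) ≤ (max Q ⌈10000 / μ⌉₊ : ℕ) :=
      (Nat.le_ceil _).trans (by exact_mod_cast le_max_right _ _)
    rw [div_le_iff₀ m0] at e1
    linarith
  let H' : ℕ → Finset Y := fun k => if k < Q then H k else H 0
  have hg : ∀ k, Good Λ (H' k) := fun k => by
    simp only [H']; split_ifs; exacts [(hH k).2, (hH 0).2]
  have hU : ∀ k, H' k ⊆ (Finset.range Q).biUnion H := fun k => by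
    simp only [H']; split_ifs with hk
    · exact Finset.subset_biUnion_of_mem H (Finset.mem_range.2 hk)
    · exact Finset.subset_biUnion_of_mem H (Finset.mem_range.2 hQ)
  have he : ∀ k, k < Q → H' k = H k := fun k hk => if_pos hk
  have hS' : Sched (d := d) L (1 + 2 * L) Q' H' (fun _ => True) := by
    rintro G g1 ⟨φ, g2⟩
    obtain ⟨k, hk, hn⟩ := hS G (fun k hk => he k hk ▸ g1 k (hk.trans_le q1))
      ⟨φ, fun y k k' a1 a2 a3 => g2 y k k' a1 (a2.trans_le q1) fun j b1 b2 =>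
        (he j (b2.trans_lt a2)).symm ▸ a3 j b1 b2⟩
    exact absurd trivial hn
  have hi : L * Q' < (⌈L * Q'⌉₊ + 1 : ℕ) := by
    push_cast; linarith [Nat.le_ceil (L * Q')]
  refine ⟨_, ?_, (h3 Λ Q' μ H' m0 m1 q2 hg (fun k k' y hy y' hy' => m2 y (hU k hy) y' (hU k' hy'))
    (⌈L * Q'⌉₊ + 1)).mono (Set.sep_subset _ _) le_rfl le_rfl,
    h2 d L Q' H' (hQ.trans_le q1) (fun k => ⟨(hg k).1, (hg k).2.1⟩) hS' _ hi⟩
  set i := ⌈L * Q'⌉₊ + 1
  refine ((Set.finite_Iic (Q' ^ i)).biUnion fun t _ =>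
    (Set.finite_singleton (t : ℝ)).prod (lift_fin Q' H' i t)).subset ?_
  rintro p ⟨⟨t, a1, a2⟩, a3⟩
  refine Set.mem_biUnion (x := t) ?_ ⟨a1, a2⟩
  rw [a1] at a3
  exact_mod_cast a3

end Crest.Agent.R254.S
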