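import Crest.Agent.R254.Glue

/-! Row 254: online game interface and the lift to a static set in `ℝ × Y` (sup metric). -/

set_option autoImplicit false

namespace Crest.Agent.R254

universe u

abbrev E (d : ℕ) := EuclideanSpace ℝ (Fin d)

section
variable {Y : Type u} [NormedAddCommGroup Y] [NormedSpace ℝ Y]

/-- `G` is bi-Lipschitz on `H` -/
def BL {X : Type*} [PseudoMetricSpace X] {d : ℕ} (L : ℝ) (G : X → E d) (H : Set X) : Prop :=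
  ∀ x ∈ H, ∀ y ∈ H, dist x y ≤ dist (G x) (G y) ∧ dist (G x) (G y) ≤ L * dist x y

/-- admissible history -/
def Good (Λ : ℕ) (H : Finset Y) : Prop :=
  (0 : Y) ∈ H ∧ Pk (↑H : Set Y) 21 Λ ∧ ∀ y ∈ H, ‖y‖ ≤ 1 / 100

/-- the adversary wins from the history `H` against every answer satisfying `Φ` -/
inductive Win (d : ℕ) (L : ℝ) (Λ : ℕ) : Finset Y → ((Y → E d) → Prop) → Prop
  | stop (H : Finset Y) (Φ : (Y → E d) → Prop) : Good Λ H → (∀ G, Φ G → ¬ BL L G ↑H) →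
      Win d L Λ H Φ
  | step (H : Finset Y) (Φ : (Y → E d) → Prop) (c : ℕ) (Hc : Fin c → Finset Y)
      (Φc : Fin c → (Y → E d) → Prop) (ε : ℝ) : Good Λ H → 0 < ε → (∀ i, H ⊆ Hc i) →
      (∀ i, Win d L Λ (Hc i) (Φc i)) →
      (∀ G, Φ G → BL L G ↑H → ∃ i, ∀ (G' : Y → E d) (v : E d),
        (∀ y ∈ H, ‖G' y - G y - v‖ ≤ ε) → BL L G' ↑(Hc i) → Φc i G') →
      Win d L Λ H Φ

/-- discrete gadget: histories `Hs j` at the integer times `j ≤ J` -/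
def Gad (d : ℕ) (L : ℝ) (H : Finset Y) (Φ : (Y → E d) → Prop) (J : ℕ) (Hs : ℕ → Finset Y)
    (θ : ℝ) : Prop :=
  ∀ (G : ℕ → Y → E d) (e : E d) (σ : ℝ), ‖e‖ = 1 → σ ≤ 2 * L →
    (∀ j, j ≤ J → BL L (G j) ↑(Hs j)) →
    (∀ j, j < J → ∀ y ∈ Hs j, y ∈ Hs (j + 1) → ‖G (j + 1) y - G j y‖ ≤ σ) →
    (∀ y ∈ H, σ * J - inner ℝ e (G J y - G 0 y) ≤ θ) → Φ (G 0) → False

/-- skeleton: the lines alive during `[j, j+1]` -/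
def Sk (Hs : ℕ → Finset Y) : Set (ℝ × Y) :=
  {z | ∃ j : ℕ, (j : ℝ) ≤ z.1 ∧ z.1 ≤ j + 1 ∧ z.2 ∈ Hs j}

/-- one nesting step: copies of `X` of size `(1-γ)/p` at the points `(k/p, y)`, rescaled by `1/J` -/
def Nest (J p : ℕ) (γ : ℝ) (Hs : ℕ → Finset Y) (X : Set (ℝ × Y)) : Set (ℝ × Y) :=
  {z | z.1 ≤ 1 ∧ ∃ k : ℕ, k ≤ J * p ∧ ∃ y ∈ Hs (k / p), ∃ x ∈ X,
    z = (J : ℝ)⁻¹ • ((((k : ℝ) / p, y) : ℝ × Y) + ((1 - γ) / p) • x)}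

/-- invariant of the nested sets -/
structure Inv (J : ℕ) (γ : ℝ) (Hs : ℕ → Finset Y) (Λ : ℕ) (X : Set (ℝ × Y)) : Prop where
  fin : X.Finite
  zero : ((0 : ℝ), (0 : Y)) ∈ X
  one : ((1 : ℝ), (0 : Y)) ∈ X
  time : ∀ z ∈ X, 0 ≤ z.1 ∧ z.1 ≤ 1
  space : ∀ z ∈ X, ‖z.2‖ ≤ 1 / 50
  near : ∀ z ∈ X, ∃ w ∈ Sk Hs, dist z ((J : ℝ)⁻¹ • w) ≤ γ / 200
  pk : Pk X 16 Λ

end

/-- **GAME** (h28's game) -/
def GAMEStmt (Λ : ℕ) : Prop :=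
  ∀ (Y : Type u) [NormedAddCommGroup Y] [NormedSpace ℝ Y], ¬ FiniteDimensional ℝ Y →
    ∀ (d : ℕ) (L : ℝ), 1 ≤ L → Win d L Λ ({0} : Finset Y) fun _ => True

/-- **GAD**.  Induction on `Win`; pad the children to a common `J'`, `W = J'+1`,
`Hs j = Hs_(j/(QW)) (j % W)`; `σ j - ⟪e, G j y⟫` is monotone along an alive line. -/
def GADStmt : Prop :=
  ∀ (Y : Type u) [NormedAddCommGroup Y] [NormedSpace ℝ Y] (d : ℕ) (L : ℝ) (Λ : ℕ), 1 ≤ L →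
    ∀ (H : Finset Y) (Φ : (Y → E d) → Prop), Win d L Λ H Φ →
    ∃ (J : ℕ) (Hs : ℕ → Finset Y) (θ : ℝ), 1 ≤ J ∧ 0 < θ ∧ (∀ j, H ⊆ Hs j ∧ Good Λ (Hs j)) ∧
      Gad d L H Φ J Hs θ

/-- **SKP**.  `r ≥ 1/50`: the times are `r`-separated.  Else bin the times by `⌊(t - t₀)/r⌋`
(≤ 44 bins) and by `j` (≤ 3 values); inside a class the `y` are `r`-separated. -/
def SKPStmt : Prop :=
  ∀ (Y : Type u) [NormedAddCommGroup Y] [NormedSpace ℝ Y] (Λ : ℕ) (Hs : ℕ → Finset Y),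
    (∀ j, Good Λ (Hs j)) → Pk (Sk Hs) 21 (200 * Λ + 200)

/-- **NPK** (invariant of `Nest`).  Unscale by `J`, `λ = (1-γ)/p`.  `r ≥ λ/5`: project to `Sk`
(error `λ/50`).  Otherwise all points lie on one line `y` (`p` large) and in `≤ 9` consecutive copies;
`r ≥ λγ/20`: project each copy to its skeleton (`near`); else `16 r < γ/p`: a single copy. -/
def NPKStmt : Prop :=
  ∀ (Y : Type u) [NormedAddCommGroup Y] [NormedSpace ℝ Y] (Λ Λ₀ J : ℕ) (γ : ℝ)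
    (Hs : ℕ → Finset Y), 1 ≤ J → 0 < γ → γ ≤ 1 / 2 → (∀ j, Good Λ (Hs j)) → Pk (Sk Hs) 21 Λ₀ →
    ∃ p : ℕ, 1 ≤ p ∧ ∀ X, Inv J γ Hs (10 * Λ₀) X → Inv J γ Hs (10 * Λ₀) (Nest J p γ Hs X)

/-- **EXT** (gain of one nesting step). -/
def EXTStmt : Prop :=
  ∀ (Y : Type u) [NormedAddCommGroup Y] [NormedSpace ℝ Y] (d : ℕ) (L : ℝ) (Λ J p : ℕ) (γ θ s : ℝ)
    (Hs : ℕ → Finset Y) (X : Set (ℝ × Y)), 1 ≤ L → 1 ≤ J → 1 ≤ p → 0 < γ → γ ≤ 1 / 2 → s ≤ L →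
    (∀ j, (0 : Y) ∈ Hs j) → Gad d L ({0} : Finset Y) (fun _ => True) J Hs θ → Inv J γ Hs Λ X →
    (∀ F : ℝ × Y → E d, BL L F X → dist (F (0, 0)) (F (1, 0)) ≤ s) →
    ∀ F : ℝ × Y → E d, BL L F (Nest J p γ Hs X) →
      dist (F (0, 0)) (F (1, 0)) ≤ s + L * γ - θ / J

/-- **FIN254**: everything together (`B ≃ ℝ × ker τ`, `Pk.image`, `NoEmb.image`, `final_of`). -/
def FINStmt : Prop :=
  ∀ Λ : ℕ, GAMEStmt.{u} Λ → GADStmt.{u} → SKPStmt.{u} → NPKStmt.{u} → EXTStmt.{u} →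
    ∀ (B : Type u) [NormedAddCommGroup B] [NormedSpace ℝ B], ¬ FiniteDimensional ℝ B →
      ∀ (d : ℕ) (L : ℝ), ∃ K : Set B, IsCompact K ∧ Pk K 4 (10 * (200 * Λ + 200)) ∧ NoEmb K d L

end Crest.Agent.R254
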