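import Crest.Agent.R254.Defs

/-! Row 254: packing bound for the nested gadgets. -/

set_option autoImplicit false
noncomputable section
namespace Crest.Agent.R254
namespace PackAux

variable {B : Type*} [NormedAddCommGroup B] [NormedSpace ℝ B]

structure PH (N : ℕ) (κ D μ : ℝ) (u : B) (φ : B →L[ℝ] ℝ) (Yc : ℕ → Finset B) (Λ : ℕ) : Prop where
  hN : 2 ≤ N
  hκ : 0 < κ
  hD : 0 < D
  hμ : 0 < μ
  h1 : 128 * κ * D * N ≤ 1
  h2 : 640 * D ≤ μ * N
  hu : ‖u‖ ≤ 1
  hφu : φ u = 1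
  hφ : ∀ x, |φ x| ≤ 4 * ‖x‖
  hY : ∀ i, ∀ y ∈ Yc i, φ y = 0 ∧ ‖y‖ ≤ D
  hsep : ∀ i, ∀ y ∈ Yc i, ∀ y' ∈ Yc i, y ≠ y' → μ ≤ ‖y - y'‖
  hP : ∀ i, Pk (↑(Yc i) : Set B) 9 Λ

def Cell (u : B) (N : ℕ) (κ : ℝ) (Yc : ℕ → Finset B) (j i : ℕ) (x : B) : Prop :=
  ∃ y ∈ Yc i, ∃ z ∈ KK u N κ Yc j, x = ((i : ℝ) / N) • u + κ • y + ((1 : ℝ) / N) • z

/-- separated set of bounded relative diameter -/
def SD (S : Finset B) (r : ℝ) : Prop :=
  (∀ x ∈ S, ∀ y ∈ S, x ≠ y → r < ‖x - y‖) ∧ ∀ x ∈ S, ∀ y ∈ S, ‖x - y‖ ≤ 4 * r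

theorem SD.sub {S S' : Finset B} {r : ℝ} (h : SD S r) (hs : S' ⊆ S) : SD S' r :=
  ⟨fun x hx y hy => h.1 x (hs hx) y (hs hy), fun x hx y hy => h.2 x (hs hx) y (hs hy)⟩

variable {N : ℕ} {κ D μ : ℝ} {u : B} {φ : B →L[ℝ] ℝ} {Yc : ℕ → Finset B} {Λ : ℕ}

theorem PH.Npos (H : PH N κ D μ u φ Yc Λ) : (2 : ℝ) ≤ N := by exact_mod_cast H.hN

theorem PH.phi_cell (H : PH N κ D μ u φ Yc Λ) {i : ℕ} {y z : B} (hy : y ∈ Yc i) :
    (N : ℝ) * φ (((i : ℝ) / N) • u + κ • y + ((1 : ℝ) / N) • z) = i + φ z := by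
  have hN := H.Npos
  simp only [map_add, map_smul, smul_eq_mul, H.hφu, (H.hY i y hy).1]
  field_simp
  ring

theorem PH.range (H : PH N κ D μ u φ Yc Λ) : ∀ j, ∀ x ∈ KK u N κ Yc j,
    0 ≤ φ x ∧ φ x ≤ 1 ∧ ‖x - φ x • u‖ ≤ 2 * (κ * D) := by
  have hN := H.Npos
  have hδ : 0 < κ * D := mul_pos H.hκ H.hD
  intro j
  induction j with
  | zero =>
    intro x hx
    rcases hx with rfl | rfl
    · simp; positivity
    · rw [H.hφu]; simp; positivity
  | succ j ih =>
    rintro x ⟨i, hi, y, hy, z, hz, hx⟩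
    obtain ⟨a1, a2, a3⟩ := ih z hz
    have e := H.phi_cell (z := z) hy
    rw [← hx] at e
    have hi' : (i : ℝ) + 1 ≤ N := by exact_mod_cast hi
    have hi0 : (0 : ℝ) ≤ i := Nat.cast_nonneg i
    refine ⟨by nlinarith, by nlinarith, ?_⟩
    have e2 : φ x = (i + φ z) / N := by rw [eq_div_iff (by positivity)]; linarith
    have e3 : x - φ x • u = κ • y + ((1 : ℝ) / N) • (z - φ z • u) := by
      rw [e2]; nth_rewrite 1 [hx]
      rw [smul_sub, smul_smul, add_div, add_smul, show (1 : ℝ) / N * φ z = φ z / N by ring]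
      abel
    rw [e3]
    refine (norm_add_le _ _).trans ?_
    rw [norm_smul, norm_smul, Real.norm_of_nonneg H.hκ.le, Real.norm_of_nonneg (by positivity)]
    have b1 : κ * ‖y‖ ≤ κ * D := mul_le_mul_of_nonneg_left (H.hY i y hy).2 H.hκ.le
    have b2 : (1 : ℝ) / N ≤ 1 / 2 := one_div_le_one_div_of_le (by norm_num) hN
    have b3 : (1 : ℝ) / N * ‖z - φ z • u‖ ≤ 1 / 2 * (2 * (κ * D)) :=
      mul_le_mul b2 a3 (norm_nonneg _) (by norm_num)
    linarith

theorem PH.near (H : PH N κ D μ u φ Yc Λ) {j : ℕ} {x y : B} (hx : x ∈ KK u N κ Yc j)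
    (hy : y ∈ KK u N κ Yc j) : ‖x - y‖ ≤ |φ x - φ y| + 4 * (κ * D) := by
  have a := (H.range j x hx).2.2
  have b := (H.range j y hy).2.2
  have e : x - y = (φ x - φ y) • u + ((x - φ x • u) - (y - φ y • u)) := by
    rw [sub_smul]; abel
  rw [e]
  refine (norm_add_le _ _).trans ?_
  have c := norm_sub_le (x - φ x • u) (y - φ y • u)
  have d : ‖(φ x - φ y) • u‖ ≤ |φ x - φ y| := by
    rw [norm_smul, Real.norm_eq_abs]
    exact mul_le_of_le_one_right (abs_nonneg _) H.hu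
  linarith

theorem PH.lip (H : PH N κ D μ u φ Yc Λ) {S : Finset B} {r : ℝ} (h : SD S r) :
    ∀ x ∈ S, ∀ y ∈ S, |φ x - φ y| ≤ 16 * r := fun x hx y hy => by
  have := H.hφ (x - y)
  rw [map_sub] at this
  linarith [h.2 x hx y hy]

theorem PH.caseA (H : PH N κ D μ u φ Yc Λ) (hB : BinStmt B) {j : ℕ} {S : Finset B} {r : ℝ}
    (hr : 0 < r) (hS : ∀ x ∈ S, x ∈ KK u N κ Yc j) (h : SD S r) (hc : 8 * (κ * D) ≤ r) :
    S.card ≤ 33 := by
  have := hB S φ (r / 2) 32 1 (by positivity) (fun x hx y hy => by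
    have := H.lip h x hx y hy
    push_cast; linarith) (fun S' hs hh => Finset.card_le_one.2 fun a ha b hb => by
      by_contra hne
      have e1 := h.1 a (hs ha) b (hs hb) hne
      have e2 := H.near (hS a (hs ha)) (hS b (hs hb))
      have e3 := hh a ha b hb
      linarith)
  simpa using this

/-- difference of two points of one cell -/
theorem PH.diff (H : PH N κ D μ u φ Yc Λ) {j i : ℕ} {x x' y y' z z' : B} (hy : y ∈ Yc i)
    (hy' : y' ∈ Yc i) (hz : z ∈ KK u N κ Yc j) (hz' : z' ∈ KK u N κ Yc j)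
    (hx : x = ((i : ℝ) / N) • u + κ • y + ((1 : ℝ) / N) • z)
    (hx' : x' = ((i : ℝ) / N) • u + κ • y' + ((1 : ℝ) / N) • z') :
    |κ * ‖y - y'‖ - ‖x - x'‖| ≤ |φ x - φ x'| + κ * μ / 160 := by
  have hN := H.Npos
  have e := H.phi_cell (z := z) hy
  have e' := H.phi_cell (z := z') hy'
  rw [← hx] at e
  rw [← hx'] at e'
  have a := H.near hz hz'
  have e1 : φ z - φ z' = N * (φ x - φ x') := by linarith
  rw [e1, abs_mul, abs_of_nonneg (by positivity : (0 : ℝ) ≤ N)] at a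
  have e2 : x - x' = κ • (y - y') + ((1 : ℝ) / N) • (z - z') := by
    rw [hx, hx', smul_sub, smul_sub]; abel
  have e3 : κ * ‖y - y'‖ = ‖κ • (y - y')‖ := by rw [norm_smul, Real.norm_of_nonneg H.hκ.le]
  rw [e3, e2]
  refine (abs_norm_sub_norm_le _ _).trans ?_
  rw [show κ • (y - y') - (κ • (y - y') + ((1 : ℝ) / N) • (z - z')) = -(((1 : ℝ) / N) • (z - z')) by
    abel, norm_neg, norm_smul, Real.norm_of_nonneg (by positivity), one_div, inv_mul_le_iff₀
    (by positivity)]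
  have := mul_le_mul_of_nonneg_left H.h2 H.hκ.le
  nlinarith

theorem PH.caseB1 (H : PH N κ D μ u φ Yc Λ) (hB : BinStmt B) {j i : ℕ} {S : Finset B} {r : ℝ}
    (hr : 0 < r) (hS : ∀ x ∈ S, Cell u N κ Yc j i x) (h : SD S r) (hc : κ * μ / 40 ≤ r) :
    S.card ≤ 65 * Λ := by
  classical
  have hκ := H.hκ
  refine hB S φ (r / 4) 64 Λ (by positivity) (fun x hx y hy => by
    have := H.lip h x hx y hy
    push_cast; linarith) fun S' hs hh => ?_
  have hS' : ∀ x : B, ∃ y : B, x ∈ S' → y ∈ Yc i ∧ ∃ z ∈ KK u N κ Yc j,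
      x = ((i : ℝ) / N) • u + κ • y + ((1 : ℝ) / N) • z := fun x => by
    by_cases hx : x ∈ S'
    · obtain ⟨y, hy, hz⟩ := hS x (hs hx)
      exact ⟨y, fun _ => ⟨hy, hz⟩⟩
    · exact ⟨0, fun e => absurd e hx⟩
  choose η hη using hS'
  have key : ∀ x ∈ S', ∀ x' ∈ S', |κ * ‖η x - η x'‖ - ‖x - x'‖| ≤ r / 2 := fun x hx x' hx' => by
    obtain ⟨a1, z, a2, a3⟩ := hη x hx
    obtain ⟨b1, z', b2, b3⟩ := hη x' hx'
    have := H.diff a1 b1 a2 b2 a3 b3
    have := hh x hx x' hx'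
    linarith
  have hinj : Set.InjOn η S' := fun x hx x' hx' e => by
    by_contra hne
    have e1 := h.1 x (hs hx) x' (hs hx') hne
    have e2 := key x hx x' hx'
    rw [e, sub_self, norm_zero, mul_zero, zero_sub, abs_neg, abs_of_nonneg (norm_nonneg _)] at e2
    linarith
  rw [← Finset.card_image_of_injOn hinj]
  refine H.hP i (r / (2 * κ)) (by positivity) _ ?_ ?_ ?_
  · intro y hy
    obtain ⟨x, hx, rfl⟩ := Finset.mem_image.1 hy
    exact (hη x hx).1
  · intro y hy y' hy' hne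
    obtain ⟨x, hx, rfl⟩ := Finset.mem_image.1 hy
    obtain ⟨x', hx', rfl⟩ := Finset.mem_image.1 hy'
    have e1 := h.1 x (hs hx) x' (hs hx') fun e => hne (by rw [e])
    have e2 := (abs_le.1 (key x hx x' hx')).1
    rw [dist_eq_norm, div_lt_iff₀ (by positivity)]
    nlinarith
  · intro y hy y' hy'
    obtain ⟨x, hx, rfl⟩ := Finset.mem_image.1 hy
    obtain ⟨x', hx', rfl⟩ := Finset.mem_image.1 hy'
    have e1 := h.2 x (hs hx) x' (hs hx')
    have e2 := (abs_le.1 (key x hx x' hx')).2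
    rw [dist_eq_norm, ← mul_div_assoc, le_div_iff₀ (by positivity)]
    nlinarith

theorem PH.caseB2 (H : PH N κ D μ u φ Yc Λ) {j i : ℕ} {S : Finset B} {r : ℝ}
    (hS : ∀ x ∈ S, Cell u N κ Yc j i x) (h : SD S r) (hc : r < κ * μ / 40) :
    ∃ S' : Finset B, S'.card = S.card ∧ (∀ z ∈ S', z ∈ KK u N κ Yc j) ∧ SD S' (N * r) ∧
      ∀ z ∈ S', ∃ x ∈ S, (N : ℝ) * φ x = i + φ z := by
  classical
  have hκ := H.hκ
  have hN := H.Npos
  have hS' : ∀ x : B, ∃ z : B, x ∈ S → z ∈ KK u N κ Yc j ∧ ∃ y ∈ Yc i,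
      x = ((i : ℝ) / N) • u + κ • y + ((1 : ℝ) / N) • z := fun x => by
    by_cases hx : x ∈ S
    · obtain ⟨y, hy, z, hz, e⟩ := hS x hx
      exact ⟨z, fun _ => ⟨hz, y, hy, e⟩⟩
    · exact ⟨0, fun e => absurd e hx⟩
  choose ζ hζ using hS'
  have key : ∀ x ∈ S, ∀ x' ∈ S, ‖ζ x - ζ x'‖ = N * ‖x - x'‖ := fun x hx x' hx' => by
    obtain ⟨a1, y, a2, a3⟩ := hζ x hx
    obtain ⟨b1, y', b2, b3⟩ := hζ x' hx'
    have e0 := (abs_le.1 (H.diff a2 b2 a1 b1 a3 b3)).2
    have e1 := H.lip h x hx x' hx'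
    have e2 := h.2 x hx x' hx'
    have hyy : y = y' := by
      by_contra hne
      have e3 := mul_le_mul_of_nonneg_left (H.hsep i y a2 y' b2 hne) hκ.le
      have := mul_pos hκ H.hμ
      linarith
    have e4 : x - x' = ((1 : ℝ) / N) • (ζ x - ζ x') := by
      rw [congrArg₂ (· - ·) a3 b3, hyy, smul_sub]; abel
    rw [e4, norm_smul, Real.norm_of_nonneg (by positivity)]
    field_simp
  have hinj : Set.InjOn ζ S := fun x hx x' hx' e => by
    have e2 := key x hx x' hx'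
    rw [e, sub_self, norm_zero] at e2
    have : ‖x - x'‖ = 0 := by
      rcases mul_eq_zero.1 e2.symm with a | a
      · linarith
      · exact a
    exact sub_eq_zero.1 (norm_eq_zero.1 this)
  refine ⟨S.image ζ, Finset.card_image_of_injOn hinj, ?_, ⟨?_, ?_⟩, ?_⟩
  · intro y hy
    obtain ⟨x, hx, rfl⟩ := Finset.mem_image.1 hy
    exact (hζ x hx).1
  · intro y hy y' hy' hne
    obtain ⟨x, hx, rfl⟩ := Finset.mem_image.1 hy
    obtain ⟨x', hx', rfl⟩ := Finset.mem_image.1 hy'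
    have e1 := h.1 x hx x' hx' fun e => hne (by rw [e])
    rw [key x hx x' hx']
    exact mul_lt_mul_of_pos_left e1 (by positivity)
  · intro y hy y' hy'
    obtain ⟨x, hx, rfl⟩ := Finset.mem_image.1 hy
    obtain ⟨x', hx', rfl⟩ := Finset.mem_image.1 hy'
    have e1 := h.2 x hx x' hx'
    rw [key x hx x' hx']
    nlinarith
  · intro y hy
    obtain ⟨x, hx, rfl⟩ := Finset.mem_image.1 hy
    obtain ⟨a1, y, a2, a3⟩ := hζ x hx
    refine ⟨x, hx, ?_⟩
    have e := H.phi_cell (z := ζ x) a2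
    rwa [← a3] at e

theorem PH.cell_range (H : PH N κ D μ u φ Yc Λ) {j i : ℕ} {x : B} (hx : Cell u N κ Yc j i x) :
    (i : ℝ) ≤ N * φ x ∧ N * φ x ≤ i + 1 := by
  obtain ⟨y, hy, z, hz, e⟩ := hx
  have e1 := H.phi_cell (z := z) hy
  rw [← e] at e1
  have := H.range j z hz
  constructor <;> linarith [this.1, this.2.1]

theorem card_zero {S : Finset B} (hS : ∀ x ∈ S, x ∈ KK u N κ Yc 0) : S.card ≤ 2 := by
  classical
  refine (Finset.card_le_card (t := {0, u}) fun x hx => ?_).trans Finset.card_le_two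
  have := hS x hx
  rw [KK_zero] at this
  simpa using this

theorem PH.small (H : PH N κ D μ u φ Yc Λ) {r : ℝ} (hc : r < 8 * (κ * D)) : N * (16 * r) < 1 := by
  have hN := H.Npos
  have := H.h1
  nlinarith

theorem PH.anch (H : PH N κ D μ u φ Yc Λ) (hB : BinStmt B) : ∀ (j : ℕ) (S : Finset B) (r : ℝ),
    0 < r → (∀ x ∈ S, x ∈ KK u N κ Yc j) → SD S r →
    ((∀ x ∈ S, φ x ≤ 16 * r) ∨ ∀ x ∈ S, 1 - 16 * r ≤ φ x) → S.card ≤ 130 * Λ + 33 := by
  have hN := H.Npos
  intro j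
  induction j with
  | zero => intro S r _ hS _ _; have := card_zero hS; omega
  | succ j ih =>
    intro S r hr hS h ha
    rcases le_or_gt (8 * (κ * D)) r with hc | hc
    · have := H.caseA hB hr hS h hc; omega
    have hs := H.small hc
    rcases ha with ha | ha
    · have hC : ∀ x ∈ S, Cell u N κ Yc j 0 x := fun x hx => by
        obtain ⟨i, hi, hh⟩ := hS x hx
        have e := (H.cell_range (j := j) (i := i) (x := x) hh).1
        have e2 := mul_le_mul_of_nonneg_left (ha x hx) (by positivity : (0 : ℝ) ≤ N)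
        have e3 : (i : ℝ) < 1 := by linarith
        have e4 : i = 0 := by
          have : i < 1 := by exact_mod_cast e3
          omega
        subst e4; exact hh
      rcases le_or_gt (κ * μ / 40) r with hd | hd
      · have := H.caseB1 hB hr hC h hd; omega
      obtain ⟨S', c1, c2, c3, c4⟩ := H.caseB2 hC h hd
      rw [← c1]
      refine ih S' (N * r) (by positivity) c2 c3 (Or.inl fun z hz => ?_)
      obtain ⟨x, hx, e⟩ := c4 z hz
      have e2 := mul_le_mul_of_nonneg_left (ha x hx) (by positivity : (0 : ℝ) ≤ N)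
      push_cast at e
      linarith
    · obtain ⟨n, hn⟩ : ∃ n, N = n + 1 := ⟨N - 1, by have := H.hN; omega⟩
      have hn' : (N : ℝ) = n + 1 := by exact_mod_cast hn
      have hC : ∀ x ∈ S, Cell u N κ Yc j n x := fun x hx => by
        obtain ⟨i, hi, hh⟩ := hS x hx
        have e := (H.cell_range (j := j) (i := i) (x := x) hh).2
        have e2 := mul_le_mul_of_nonneg_left (ha x hx) (by positivity : (0 : ℝ) ≤ N)
        have e3 : (n : ℝ) < i + 1 := by linarith
        have e4 : i = n := by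
          have : n < i + 1 := by exact_mod_cast e3
          omega
        subst e4; exact hh
      rcases le_or_gt (κ * μ / 40) r with hd | hd
      · have := H.caseB1 hB hr hC h hd; omega
      obtain ⟨S', c1, c2, c3, c4⟩ := H.caseB2 hC h hd
      rw [← c1]
      refine ih S' (N * r) (by positivity) c2 c3 (Or.inr fun z hz => ?_)
      obtain ⟨x, hx, e⟩ := c4 z hz
      have e2 := mul_le_mul_of_nonneg_left (ha x hx) (by positivity : (0 : ℝ) ≤ N)
      linarith

theorem PH.all (H : PH N κ D μ u φ Yc Λ) (hB : BinStmt B) : ∀ (j : ℕ) (S : Finset B) (r : ℝ),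
    0 < r → (∀ x ∈ S, x ∈ KK u N κ Yc j) → SD S r → S.card ≤ 260 * Λ + 66 := by
  classical
  have hN := H.Npos
  intro j
  induction j with
  | zero => intro S r _ hS _; have := card_zero hS; omega
  | succ j ih =>
    intro S r hr hS h
    rcases le_or_gt (8 * (κ * D)) r with hc | hc
    · have := H.caseA hB hr hS h hc; omega
    have hs := H.small hc
    rcases S.eq_empty_or_nonempty with rfl | ⟨x0, hx0⟩
    · simp
    have hex : ∃ i, ∃ x ∈ S, Cell u N κ Yc j i x := by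
      obtain ⟨i, _, hh⟩ := hS x0 hx0
      exact ⟨i, x0, hx0, hh⟩
    obtain ⟨x1, hx1, hc1⟩ := Nat.find_spec hex
    set i0 := Nat.find hex with hi0
    have hlip : ∀ x ∈ S, ∀ y ∈ S, N * φ x ≤ N * φ y + N * (16 * r) := fun x hx y hy => by
      have := (abs_le.1 (H.lip h x hx y hy)).2
      nlinarith
    set S1 := S.filter (Cell u N κ Yc j i0) with hS1
    set S2 := S.filter (fun x => ¬ Cell u N κ Yc j i0 x) with hS2
    have hcard : S1.card + S2.card = S.card := Finset.card_filter_add_card_filter_not _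
    have hC1 : ∀ x ∈ S1, Cell u N κ Yc j i0 x := fun x hx => (Finset.mem_filter.1 hx).2
    have hC2 : ∀ x ∈ S2, Cell u N κ Yc j (i0 + 1) x := fun x hx => by
      obtain ⟨hx', hn⟩ := Finset.mem_filter.1 hx
      obtain ⟨i, _, hh⟩ := hS x hx'
      have e0 : i0 ≤ i := Nat.find_min' hex ⟨x, hx', hh⟩
      have e1 : i ≠ i0 := fun e => hn (e ▸ hh)
      have e2 := (H.cell_range (j := j) (i := i) (x := x) hh).1
      have e3 := (H.cell_range hc1).2
      have e4 := hlip x hx' x1 hx1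
      have e5 : (i : ℝ) < i0 + 2 := by linarith
      have e6 : i = i0 + 1 := by
        have : i < i0 + 2 := by exact_mod_cast e5
        omega
      subst e6; exact hh
    have s1 : S1 ⊆ S := Finset.filter_subset _ _
    have s2 : S2 ⊆ S := Finset.filter_subset _ _
    rcases le_or_gt (κ * μ / 40) r with hd | hd
    · have := H.caseB1 hB hr hC1 (h.sub s1) hd
      have := H.caseB1 hB hr hC2 (h.sub s2) hd
      omega
    obtain ⟨T1, c1, c2, c3, c4⟩ := H.caseB2 hC1 (h.sub s1) hd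
    rcases S2.eq_empty_or_nonempty with he | ⟨x2, hx2⟩
    · rw [he, Finset.card_empty, add_zero] at hcard
      rw [← hcard, ← c1]
      exact ih T1 (N * r) (by positivity) c2 c3
    obtain ⟨T2, d1, d2, d3, d4⟩ := H.caseB2 hC2 (h.sub s2) hd
    have b1 := H.anch hB j T1 (N * r) (by positivity) c2 c3 (Or.inr fun z hz => by
      obtain ⟨x, hx, e⟩ := c4 z hz
      have e2 := (H.cell_range (hC2 x2 hx2)).1
      have e4 := hlip x2 (s2 hx2) x (s1 hx)
      push_cast at e2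
      linarith)
    have b2 := H.anch hB j T2 (N * r) (by positivity) d2 d3 (Or.inl fun z hz => by
      obtain ⟨x, hx, e⟩ := d4 z hz
      have e2 := (H.cell_range hc1).2
      have e4 := hlip x (s2 hx) x1 hx1
      push_cast at e
      linarith)
    omega

end PackAux

theorem pack (B : Type*) [NormedAddCommGroup B] [NormedSpace ℝ B] (hB : BinStmt B) :
    PackStmt B := by
  intro N κ D μ u φ Yc Λ a1 a2 a3 a4 a5 a6 a7 a8 a9 a10 a11 a12 j r hr S h1 h2 h3
  have H : PackAux.PH N κ D μ u φ Yc Λ := ⟨a1, a2, a3, a4, a5, a6, a7, a8, a9, a10, a11, a12⟩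
  refine H.all hB j S r hr (fun x hx => h1 hx) ⟨fun x hx y hy hne => ?_, fun x hx y hy => ?_⟩
  · rw [← dist_eq_norm]; exact h2 x hx y hy hne
  · rw [← dist_eq_norm]; exact h3 x hx y hy

end Crest.Agent.R254
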