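import Crest.Agent.R254.Defs

/-! Row 254, task PHI: frame inside the kernel of a norming functional. -/

set_option autoImplicit false
noncomputable section
namespace Crest.Agent.R254

theorem phi (B : Type*) [NormedAddCommGroup B] [NormedSpace ℝ B] : PhiStmt B := by
  intro hB m
  have hn : Nontrivial B := by
    by_contra hc
    rw [not_nontrivial_iff_subsingleton] at hc
    exact hB inferInstance
  obtain ⟨τ, hτ⟩ := exists_norm_eq B zero_le_one
  obtain ⟨φ, h1, h2⟩ := exists_dual_vector ℝ τ (by rw [hτ]; norm_num)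
  rw [hτ] at h2
  have h2' : φ τ = 1 := by simpa using h2
  have hk : ¬ FiniteDimensional ℝ (LinearMap.ker (φ : B →ₗ[ℝ] ℝ)) := fun hf => hB (by
    let F : (ℝ × LinearMap.ker (φ : B →ₗ[ℝ] ℝ)) →ₗ[ℝ] B :=
      (LinearMap.toSpanSingleton ℝ B τ).coprod (LinearMap.ker (φ : B →ₗ[ℝ] ℝ)).subtype
    refine Module.Finite.of_surjective F fun b => ⟨(φ b, ⟨b - φ b • τ, ?_⟩), ?_⟩
    · simp [h2']
    · simp [F])
  obtain ⟨T, t1, t2⟩ := frame (LinearMap.ker (φ : B →ₗ[ℝ] ℝ)) hk m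
  refine ⟨(LinearMap.ker (φ : B →ₗ[ℝ] ℝ)).subtypeL.comp T, τ, φ, ⟨fun x => t1 x, fun i x hx => t2 i x hx⟩,
    hτ.le, h2', fun x => ?_, fun x => (T x).2⟩
  have := φ.le_opNorm x
  rw [h1, one_mul, Real.norm_eq_abs] at this
  linarith [norm_nonneg x]

end Crest.Agent.R254
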