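import Crest.Agent.R254.SDefs

/-! Row 254: nesting the gadget lowers the stretch of time edges level by level. -/

set_option autoImplicit false
noncomputable section
namespace Crest.Agent.R254.S

variable {Y : Type*} [NormedAddCommGroup Y] [NormedSpace ℝ Y]

theorem zp_zero (Q : ℕ) (H : ℕ → Finset Y) (h0 : ∀ k, (0 : Y) ∈ H k) :
    ∀ i t, Zp Q H i t 0
  | 0, _ => rfl
  | i + 1, t => ⟨0, h0 _, 0, zp_zero Q H h0 i t, by simp⟩

theorem nest_edge (hG : GadgetProp Y) (d : ℕ) (L : ℝ) (Q : ℕ) (H : ℕ → Finset Y) (hQ : 0 < Q)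
    (hH : ∀ k, (0 : Y) ∈ H k ∧ ∀ y ∈ H k, ‖y‖ ≤ 1)
    (hS : Sched (d := d) L (1 + 2 * L) Q H (fun _ => True)) (f : ℝ × Y → Eu d) :
    ∀ (i n : ℕ) (Y0 : Y),
      (∀ (t t' : ℕ) (z z' : Y), n * Q ^ i ≤ t → t ≤ (n + 1) * Q ^ i → n * Q ^ i ≤ t' →
        t' ≤ (n + 1) * Q ^ i → Zp Q H i t z → Zp Q H i t' z' →
        dist ((t : ℝ), Y0 + z) ((t' : ℝ), Y0 + z') ≤ dist (f (t, Y0 + z)) (f (t', Y0 + z')) ∧
        dist (f (t, Y0 + z)) (f (t', Y0 + z')) ≤ L * dist ((t : ℝ), Y0 + z) ((t' : ℝ), Y0 + z')) →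
      ‖f ((((n + 1) * Q ^ i : ℕ) : ℝ), Y0) - f (((n * Q ^ i : ℕ) : ℝ), Y0)‖ ≤
        (L - i / Q) * (Q : ℝ) ^ i := by
  intro i
  induction i with
  | zero =>
    intro n Y0 h
    have := (h ((n + 1) * Q ^ 0) (n * Q ^ 0) 0 0 (by simp) le_rfl le_rfl (by simp) rfl rfl).2
    rw [dist_eq_norm, add_zero, Prod.dist_eq] at this
    simpa [Real.dist_eq] using this
  | succ i ih =>
    intro n Y0 h
    have hQr : (0 : ℝ) < Q := by exact_mod_cast hQ
    have hw : (0 : ℝ) < (Q : ℝ) ^ i := by positivity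
    have hwn : 0 < Q ^ i := by positivity
    set w : ℝ := (Q : ℝ) ^ i with hwdef
    set S : ℝ := L - i / Q with hSdef
    let F : ℕ → Y → Eu d := fun k y => w⁻¹ • f ((((n * Q + k) * Q ^ i : ℕ) : ℝ), Y0 + w • y)
    have hnorm : ∀ a b : Eu d, ‖w⁻¹ • a - w⁻¹ • b‖ = w⁻¹ * ‖a - b‖ := by
      intro a b
      rw [← smul_sub, norm_smul, Real.norm_eq_abs, abs_of_pos (inv_pos.2 hw)]
    -- sub-edges
    have sub : ∀ k y, k < Q → y ∈ H k → y ∈ H ((k + 1) % Q) → ‖F (k + 1) y - F k y‖ ≤ S := by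
      intro k y hk hy hy'
      have key := ih (n * Q + k) (Y0 + w • y) (by
        intro t t' z z' h1 h2 h3 h4 hz hz'
        have mem : ∀ s : ℕ, (n * Q + k) * Q ^ i ≤ s → s ≤ (n * Q + k + 1) * Q ^ i →
            y ∈ H (s / Q ^ i % Q) := by
          intro s hs1 hs2
          rcases hs2.lt_or_eq with hlt | heq
          · have : s / Q ^ i = n * Q + k := by
              apply Nat.div_eq_of_lt_le hs1 hlt
            rw [this, Nat.mul_add_mod_self_right, Nat.mod_eq_of_lt hk]; exact hy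
          · rw [heq, Nat.mul_div_cancel _ hwn, add_assoc, Nat.mul_add_mod_self_right]; exact hy'
        have lo : ∀ s : ℕ, (n * Q + k) * Q ^ i ≤ s → n * Q ^ (i + 1) ≤ s := by
          intro s hs
          calc n * Q ^ (i + 1) = (n * Q) * Q ^ i := by ring
            _ ≤ (n * Q + k) * Q ^ i := Nat.mul_le_mul_right _ (Nat.le_add_right _ _)
            _ ≤ s := hs
        have hi : ∀ s : ℕ, s ≤ (n * Q + k + 1) * Q ^ i → s ≤ (n + 1) * Q ^ (i + 1) := by
          intro s hs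
          calc s ≤ (n * Q + k + 1) * Q ^ i := hs
            _ ≤ (n * Q + Q) * Q ^ i := Nat.mul_le_mul_right _ (by omega)
            _ = (n + 1) * Q ^ (i + 1) := by ring
        have := h t t' (w • y + z) (w • y + z') (lo t h1) (hi t h2) (lo t' h3) (hi t' h4)
          ⟨y, mem t h1 h2, z, hz, rfl⟩ ⟨y, mem t' h3 h4, z', hz', rfl⟩
        simpa only [add_assoc] using this)
      show ‖w⁻¹ • _ - w⁻¹ • _‖ ≤ S
      rw [hnorm, ← add_assoc (n * Q) k 1, inv_mul_le_iff₀ hw]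
      rw [mul_comm w S]
      exact key
    have hBL : ∀ k, k < Q → BL L (F k) (H k) := by
      intro k hk x hx y hy
      have hdig : (n * Q + k) * Q ^ i / Q ^ i % Q = k := by
        rw [Nat.mul_div_cancel _ hwn, Nat.mul_add_mod_self_right, Nat.mod_eq_of_lt hk]
      have lo : n * Q ^ (i + 1) ≤ (n * Q + k) * Q ^ i := by
        calc n * Q ^ (i + 1) = (n * Q) * Q ^ i := by ring
          _ ≤ (n * Q + k) * Q ^ i := Nat.mul_le_mul_right _ (Nat.le_add_right _ _)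
      have hi : (n * Q + k) * Q ^ i ≤ (n + 1) * Q ^ (i + 1) := by
        calc (n * Q + k) * Q ^ i ≤ (n * Q + Q) * Q ^ i := Nat.mul_le_mul_right _ (by omega)
          _ = (n + 1) * Q ^ (i + 1) := by ring
      have := h ((n * Q + k) * Q ^ i) ((n * Q + k) * Q ^ i) (w • x + 0) (w • y + 0) lo hi lo hi
        ⟨x, by rw [hdig]; exact hx, 0, zp_zero Q H (fun k => (hH k).1) _ _, rfl⟩
        ⟨y, by rw [hdig]; exact hy, 0, zp_zero Q H (fun k => (hH k).1) _ _, rfl⟩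
      have hd : dist (((((n * Q + k) * Q ^ i : ℕ) : ℝ)), Y0 + (w • x + 0))
          (((((n * Q + k) * Q ^ i : ℕ) : ℝ)), Y0 + (w • y + 0)) = w * ‖x - y‖ := by
        rw [Prod.dist_eq]
        simp only [dist_self, add_zero, dist_add_left]
        rw [dist_eq_norm, ← smul_sub, norm_smul, Real.norm_eq_abs, abs_of_pos hw]
        exact max_eq_right (by positivity)
      rw [hd, dist_eq_norm, add_zero, add_zero] at this
      show ‖x - y‖ ≤ ‖w⁻¹ • _ - w⁻¹ • _‖ ∧ ‖w⁻¹ • _ - w⁻¹ • _‖ ≤ L * ‖x - y‖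
      rw [hnorm, le_inv_mul_iff₀ hw, inv_mul_le_iff₀ hw]
      exact ⟨this.1, this.2.trans_eq (by ring)⟩
    have hSL : S ≤ L := by
      have : (0 : ℝ) ≤ i / Q := by positivity
      linarith
    have last : ‖F Q 0 - F (Q - 1) 0‖ ≤ S := by
      have := sub (Q - 1) 0 (by omega) (hH _).1 (hH _).1
      rwa [Nat.sub_add_cancel hQ] at this
    have main := hG d L S Q H hQ hSL hH hS F hBL
      (fun k y hk hy hy' => sub k y (by omega) hy (by rwa [Nat.mod_eq_of_lt hk])) last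
    have e1 : (n * Q + Q) * Q ^ i = (n + 1) * Q ^ (i + 1) := by ring
    have e2 : (n * Q + 0) * Q ^ i = n * Q ^ (i + 1) := by ring
    change ‖w⁻¹ • f ((((n * Q + Q) * Q ^ i : ℕ) : ℝ), Y0 + w • (0 : Y)) -
      w⁻¹ • f ((((n * Q + 0) * Q ^ i : ℕ) : ℝ), Y0 + w • (0 : Y))‖ ≤ _ at main
    rw [hnorm, e1, e2, smul_zero, add_zero, inv_mul_le_iff₀ hw] at main
    refine main.trans_eq ?_
    rw [hSdef, pow_succ, ← hwdef]
    push_cast
    field_simp
    ring

theorem nest (Y : Type*) [NormedAddCommGroup Y] [NormedSpace ℝ Y] (hG : GadgetProp Y) :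
    NestProp Y := by
  intro d L Q H hQ hH hS i hi f hf
  have hQr : (0 : ℝ) < Q := by exact_mod_cast hQ
  have key := nest_edge hG d L Q H hQ hH hS f i 0 0 (by
    intro t t' z z' _ h2 _ h4 hz hz'
    have m : ∀ (s : ℕ) (x : Y), s ≤ (0 + 1) * Q ^ i → Zp Q H i s x →
        ((s : ℝ), (0 : Y) + x) ∈ {p ∈ Zset Q H i | p.1 ≤ (Q : ℝ) ^ i} := by
      intro s x hs hx
      refine ⟨⟨s, rfl, by simpa using hx⟩, ?_⟩
      have : s ≤ Q ^ i := by simpa using hs
      show (s : ℝ) ≤ (Q : ℝ) ^ i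
      exact_mod_cast this
    exact hf _ (m t z h2 hz) _ (m t' z' h4 hz'))
  have h1 : L - i / Q < 0 := by
    rw [sub_neg, lt_div_iff₀ hQr]; exact hi
  have h2 : (L - i / Q) * (Q : ℝ) ^ i < 0 := mul_neg_of_neg_of_pos h1 (by positivity)
  exact absurd (key.trans_lt h2) (not_lt.2 (norm_nonneg _))

end Crest.Agent.R254.S
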