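import Crest.Agent.R254.SDefs

/-! Row 254: packing bound for the lifted set, uniform in the number of levels. -/

set_option autoImplicit false
noncomputable section
namespace Crest.Agent.R254.S

variable {Y : Type*} [NormedAddCommGroup Y] [NormedSpace ℝ Y]

theorem zp_norm (Q : ℕ) (H : ℕ → Finset Y) (hQ : (2 : ℝ) ≤ Q) (h1 : ∀ k, ∀ y ∈ H k, ‖y‖ ≤ 1) :
    ∀ i t z, Zp Q H i t z → ‖z‖ * Q ≤ 2 * (Q : ℝ) ^ i
  | 0, t, z, h => by
    have : z = 0 := h
    subst this; simp
  | i + 1, t, z, ⟨y, hy, z', hz', e⟩ => by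
    have ih := zp_norm Q H hQ h1 i t z' hz'
    have hw : (0 : ℝ) < (Q : ℝ) ^ i := by positivity
    have h2 : ‖z‖ ≤ (Q : ℝ) ^ i + ‖z'‖ := by
      rw [e]
      refine (norm_add_le _ _).trans ?_
      rw [norm_smul, Real.norm_eq_abs, abs_of_pos hw]
      have := h1 _ y hy
      nlinarith
    rw [pow_succ]
    nlinarith

/-- counting by bins: a finite set with real labels of spread at most `m * r` is covered by
`m + 1` bins of width `r` -/
theorem bin_count {α : Type*} (S : Finset α) (τ : α → ℝ) (r : ℝ) (hr : 0 < r) (m c : ℕ)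
    (hd : ∀ x ∈ S, ∀ y ∈ S, τ x - τ y ≤ m * r)
    (hc : ∀ T : Finset α, T ⊆ S → (∀ x ∈ T, ∀ y ∈ T, ⌊τ x / r⌋ = ⌊τ y / r⌋) → T.card ≤ c) :
    S.card ≤ (m + 1) * c := by
  classical
  rcases S.eq_empty_or_nonempty with rfl | hne
  · simp
  obtain ⟨x0, hx0, hmin⟩ := S.exists_min_image τ hne
  have hmaps : ∀ x ∈ S, ⌊τ x / r⌋ ∈ Finset.Icc ⌊τ x0 / r⌋ (⌊τ x0 / r⌋ + m) := by
    intro x hx
    rw [Finset.mem_Icc]
    refine ⟨Int.floor_le_floor (div_le_div_of_nonneg_right (hmin x hx) hr.le), ?_⟩
    rw [← Int.floor_add_natCast]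
    refine Int.floor_le_floor ?_
    rw [div_le_iff₀ hr, add_mul, div_mul_cancel₀ _ hr.ne']
    have := hd x hx x0 hx0
    linarith
  have := Finset.card_le_mul_card_image_of_maps_to hmaps c (by
    intro b _
    refine hc _ (Finset.filter_subset _ _) ?_
    intro x hx y hy
    rw [(Finset.mem_filter.1 hx).2, (Finset.mem_filter.1 hy).2])
  rw [Int.card_Icc] at this
  have e : (⌊τ x0 / r⌋ + m + 1 - ⌊τ x0 / r⌋).toNat = m + 1 := by omega
  rw [e, mul_comm] at this
  exact this

theorem floor_close {a b r : ℝ} (hr : 0 < r) (h : ⌊a / r⌋ = ⌊b / r⌋) : |a - b| ≤ r := by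
  have h1 := Int.abs_sub_lt_one_of_floor_eq_floor h
  rw [← sub_div, abs_div, abs_of_pos hr, div_lt_one hr] at h1
  exact h1.le

theorem time_le {p q : ℝ × Y} {c : ℝ} (h : dist p q ≤ c) : p.1 - q.1 ≤ c := by
  rw [Prod.dist_eq] at h
  have := (le_max_left _ _).trans h
  rw [Real.dist_eq] at this
  exact (le_abs_self _).trans this

theorem thin_count (S : Finset (ℝ × Y)) (r : ℝ) (hr : 0 < r)
    (h2 : ∀ x ∈ S, ∀ y ∈ S, x ≠ y → r < dist x y) (h3 : ∀ x ∈ S, ∀ y ∈ S, dist x y ≤ 16 * r)
    (h4 : ∀ x ∈ S, ∀ y ∈ S, ‖x.2 - y.2‖ ≤ r) : S.card ≤ 17 := by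
  have := bin_count S Prod.fst r hr 16 1 (fun x hx y hy => by
    have := time_le (h3 x hx y hy); push_cast; exact this) (by
    intro T hT hb
    refine Finset.card_le_one.2 fun x hx y hy => ?_
    by_contra hne
    have h5 := h2 x (hT hx) y (hT hy) hne
    rw [Prod.dist_eq, Real.dist_eq, dist_eq_norm] at h5
    exact absurd h5 (not_lt.2 (max_le (floor_close hr (hb x hx y hy)) (h4 x (hT hx) y (hT hy)))))
  simpa using this

theorem spack (Y : Type*) [NormedAddCommGroup Y] [NormedSpace ℝ Y] : PackProp Y := by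
  classical
  intro Λ Q μ H hμ hμ1 hμQ hG hsep i
  have hQ : (10000 : ℝ) ≤ Q := by
    have : (0 : ℝ) ≤ Q := by positivity
    nlinarith
  have hQr : (0 : ℝ) < Q := by linarith
  have hn := zp_norm Q H (by linarith) (fun k => (hG k).2.1)
  induction i with
  | zero =>
    intro r hr S h1 h2 h3
    have := thin_count S r hr h2 h3 (by
      intro x hx y hy
      obtain ⟨t, -, ht⟩ := h1 hx
      obtain ⟨t', -, ht'⟩ := h1 hy
      have e1 : x.2 = 0 := ht
      have e2 : y.2 = 0 := ht'
      rw [e1, e2]; simpa using hr.le)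
    omega
  | succ i ih =>
    intro r hr S h1 h2 h3
    have hw : (0 : ℝ) < (Q : ℝ) ^ i := by positivity
    set w : ℝ := (Q : ℝ) ^ i with hwdef
    by_cases hA : 4 * w ≤ r
    · have := thin_count S r hr h2 h3 (by
        intro x hx y hy
        obtain ⟨t, -, ht⟩ := h1 hx
        obtain ⟨t', -, ht'⟩ := h1 hy
        have e1 := hn _ _ _ ht
        have e2 := hn _ _ _ ht'
        rw [pow_succ, ← hwdef, ← mul_assoc] at e1 e2
        have e3 := le_of_mul_le_mul_right e1 hQr
        have e4 := le_of_mul_le_mul_right e2 hQr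
        have := norm_sub_le x.2 y.2
        linarith)
      omega
    push Not at hA
    -- data of the points
    have hdat : ∀ p : ℝ × Y, ∃ (t : ℕ) (y z : Y), p ∈ S →
        p.1 = t ∧ y ∈ H (t / Q ^ i % Q) ∧ Zp Q H i t z ∧ p.2 = w • y + z := by
      intro p
      by_cases hp : p ∈ S
      · obtain ⟨t, ht, y, hy, z, hz, e⟩ := h1 hp
        exact ⟨t, y, z, fun _ => ⟨ht, hy, hz, e⟩⟩
      · exact ⟨0, 0, 0, fun h => absurd h hp⟩
    choose tt yy zz hdat using hdat
    have hz : ∀ p ∈ S, ‖zz p‖ ≤ μ * w / 5000 := by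
      intro p hp
      have e1 := hn _ _ _ (hdat p hp).2.2.1
      rw [← hwdef] at e1
      have e2 : ‖zz p‖ * 10000 ≤ ‖zz p‖ * (μ * Q) := mul_le_mul_of_nonneg_left hμQ (norm_nonneg _)
      have e3 : ‖zz p‖ * (μ * Q) = μ * (‖zz p‖ * Q) := by ring
      have e4 : μ * (‖zz p‖ * Q) ≤ μ * (2 * w) := mul_le_mul_of_nonneg_left e1 hμ.le
      linarith
    have hcross : ∀ p ∈ S, ∀ q ∈ S, |‖p.2 - q.2‖ - w * ‖yy p - yy q‖| ≤ μ * w / 2500 := by
      intro p hp q hq
      have e1 : w * ‖yy p - yy q‖ = ‖w • (yy p - yy q)‖ := by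
        rw [norm_smul, Real.norm_eq_abs, abs_of_pos hw]
      rw [e1]
      refine (abs_norm_sub_norm_le _ _).trans ?_
      have e2 : p.2 - q.2 - w • (yy p - yy q) = zz p - zz q := by
        rw [(hdat p hp).2.2.2, (hdat q hq).2.2.2, smul_sub]; abel
      rw [e2]
      have := norm_sub_le (zz p) (zz q)
      have := hz p hp
      have := hz q hq
      linarith
    have hc16 : ∀ p ∈ S, ∀ q ∈ S, ‖p.2 - q.2‖ ≤ 16 * r := by
      intro p hp q hq
      have := h3 p hp q hq
      rw [Prod.dist_eq, dist_eq_norm p.2] at this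
      exact (le_max_right _ _).trans this
    by_cases hB : μ * w / 100 ≤ r
    · have key := bin_count S Prod.fst w hw 64 (17 * Λ) (fun x hx y hy => by
        have := time_le (h3 x hx y hy); push_cast; linarith) (by
        intro T hT hb
        have := bin_count T Prod.fst r hr 16 Λ (fun x hx y hy => by
          have := time_le (h3 x (hT hx) y (hT hy)); push_cast; exact this) (by
          intro U hU hb'
          rcases U.eq_empty_or_nonempty with rfl | ⟨p0, hp0⟩
          · simp
          have hS : ∀ p ∈ U, p ∈ S := fun p hp => hT (hU hp)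
          have hlow : ∀ p ∈ U, ∀ q ∈ U, p ≠ q → 24 / 25 * r / w < ‖yy p - yy q‖ := by
            intro p hp q hq hne
            have h5 := h2 p (hS p hp) q (hS q hq) hne
            rw [Prod.dist_eq, Real.dist_eq, dist_eq_norm] at h5
            have h6 : r < ‖p.2 - q.2‖ := by
              rcases lt_max_iff.1 h5 with h | h
              · exact absurd h (not_lt.2 (floor_close hr (hb' p hp q hq)))
              · exact h
            have h7 := (abs_le.1 (hcross p (hS p hp) q (hS q hq))).2
            rw [div_lt_iff₀ hw]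
            linarith
          have hpos : 0 < 24 / 25 * r / w := by positivity
          have hinj : Set.InjOn yy U := by
            intro p hp q hq e
            by_contra hne
            have := hlow p hp q hq hne
            rw [e, sub_self, norm_zero] at this
            linarith
          rw [← Finset.card_image_of_injOn hinj]
          have hdig : ∀ p ∈ U, tt p / Q ^ i = tt p0 / Q ^ i := by
            intro p hp
            have e := hb p (hU hp) p0 (hU hp0)
            rw [(hdat p (hS p hp)).1, (hdat p0 (hS p0 hp0)).1, hwdef, ← Nat.cast_pow,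
              Int.floor_div_natCast, Int.floor_div_natCast, Int.floor_natCast, Int.floor_natCast] at e
            exact_mod_cast e
          refine (hG (tt p0 / Q ^ i % Q)).2.2 _ hpos _ ?_ ?_ ?_
          · intro y hy
            obtain ⟨p, hp, rfl⟩ := Finset.mem_image.1 hy
            have := (hdat p (hS p hp)).2.1
            rwa [hdig p hp] at this
          · intro y hy y' hy' hne
            obtain ⟨p, hp, rfl⟩ := Finset.mem_image.1 hy
            obtain ⟨q, hq, rfl⟩ := Finset.mem_image.1 hy'
            rw [dist_eq_norm]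
            exact hlow p hp q hq fun e => hne (by rw [e])
          · intro y hy y' hy'
            obtain ⟨p, hp, rfl⟩ := Finset.mem_image.1 hy
            obtain ⟨q, hq, rfl⟩ := Finset.mem_image.1 hy'
            rw [dist_eq_norm, ← mul_div_assoc, le_div_iff₀ hw]
            have h7 := (abs_le.1 (hcross p (hS p hp) q (hS q hq))).1
            have h8 := hc16 p (hS p hp) q (hS q hq)
            linarith)
        simpa using this)
      omega
    · push Not at hB
      rcases S.eq_empty_or_nonempty with rfl | ⟨p0, hp0⟩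
      · simp
      have hy : ∀ p ∈ S, yy p = yy p0 := by
        intro p hp
        by_contra hne
        have h5 := hsep _ _ _ (hdat p hp).2.1 _ (hdat p0 hp0).2.1 hne
        have h7 := (abs_le.1 (hcross p hp p0 hp0)).1
        have h8 := hc16 p hp p0 hp0
        have h9 : w * μ ≤ w * ‖yy p - yy p0‖ := mul_le_mul_of_nonneg_left h5 hw.le
        have : 0 < μ * w := by positivity
        linarith
      let v : ℝ × Y := (0, w • yy p0)
      have hinj : Function.Injective fun p : ℝ × Y => p - v := sub_left_injective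
      rw [← Finset.card_image_of_injective S hinj]
      refine ih r hr _ ?_ ?_ ?_
      · intro x hx
        obtain ⟨p, hp, rfl⟩ := Finset.mem_image.1 hx
        refine ⟨tt p, by simp [v, (hdat p hp).1], ?_⟩
        have : (p - v).2 = zz p := by
          simp only [v, Prod.snd_sub]
          rw [(hdat p hp).2.2.2, hy p hp]; abel
        rw [this]
        exact (hdat p hp).2.2.1
      · intro x hx y hy' hne
        obtain ⟨p, hp, rfl⟩ := Finset.mem_image.1 hx
        obtain ⟨q, hq, rfl⟩ := Finset.mem_image.1 hy'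
        rw [dist_sub_right]
        exact h2 p hp q hq fun e => hne (by rw [e])
      · intro x hx y hy'
        obtain ⟨p, hp, rfl⟩ := Finset.mem_image.1 hx
        obtain ⟨q, hq, rfl⟩ := Finset.mem_image.1 hy'
        rw [dist_sub_right]
        exact h3 p hp q hq

end Crest.Agent.R254.S
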