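import Crest.Agent.R254.SDefs

/-! Row 254: a win of the online game gives a schedule (`Win → SWin`). -/

set_option autoImplicit false
noncomputable section
namespace Crest.Agent.R254.S

namespace SWaux
variable {Y : Type*} [NormedAddCommGroup Y] [NormedSpace ℝ Y] {d : ℕ}

omit [NormedSpace ℝ Y] in
theorem BL.mono {L : ℝ} {G : Y → Eu d} {H H' : Finset Y} (h : BL L G H) (hs : H' ⊆ H) :
    BL L G H' := fun x hx y hy => h x (hs hx) y (hs hy)

omit [NormedSpace ℝ Y] in
/-- shifting time -/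
theorem static_shift {L D : ℝ} {Q Q' s : ℕ} {H H' : ℕ → Finset Y} {G : ℕ → Y → Eu d}
    (h : Static L D Q H G) (hQ : s + Q' ≤ Q) (hH : ∀ j, j < Q' → H (s + j) = H' j) :
    Static L D Q' H' (fun j => G (s + j)) := by
  obtain ⟨φ, hφ⟩ := h
  refine ⟨fun j => φ (s + j), fun y k k' hk hk' hy => ?_⟩
  have := hφ y (s + k) (s + k') (by omega) (by omega) (fun j h1 h2 => by
    have e : j = s + (j - s) := by omega
    rw [e, hH _ (by omega)]
    exact hy _ (by omega) (by omega))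
  have e : ((s + k' : ℕ) : ℝ) - ((s + k : ℕ) : ℝ) = (k' : ℝ) - k := by push_cast; ring
  rw [e] at this
  exact this

omit [NormedSpace ℝ Y] in
theorem sched_mono {L D : ℝ} {Q Q' : ℕ} {H : ℕ → Finset Y} {Φ : (Y → Eu d) → Prop}
    (h : Sched L D Q H Φ) (hQ : Q ≤ Q') : Sched L D Q' H Φ := by
  intro G hG hS
  have := static_shift (s := 0) (Q' := Q) (H' := H) hS (by omega) (fun j _ => by simp)
  simp only [zero_add] at this
  obtain ⟨k, hk, hk'⟩ := h G (fun k hk => hG k (by omega)) this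
  exact ⟨k, by omega, hk'⟩

omit [NormedAddCommGroup Y] [NormedSpace ℝ Y] in
/-- some window has a small increase of all potentials -/
theorem window (H : Finset Y) (ψ : ℕ → Y → ℝ) (P : ℕ) (hP : 0 < P) (D : ℝ)
    (h0 : ∀ p, p < P → ∀ y ∈ H, 0 ≤ ψ (p + 1) y - ψ p y) (hD : ∀ y ∈ H, ψ P y - ψ 0 y ≤ D) :
    ∃ p, p < P ∧ ∀ y ∈ H, ψ (p + 1) y - ψ p y ≤ H.card * D / P := by
  have hs : ∑ p ∈ Finset.range P, (∑ y ∈ H, (ψ (p + 1) y - ψ p y)) ≤
      ∑ _p ∈ Finset.range P, (H.card * D / P) := by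
    rw [Finset.sum_comm]
    have e : ∀ y ∈ H, ∑ p ∈ Finset.range P, (ψ (p + 1) y - ψ p y) ≤ D := fun y hy => by
      rw [Finset.sum_range_sub (fun p => ψ p y)]; exact hD y hy
    refine (Finset.sum_le_card_nsmul _ _ _ e).trans (le_of_eq ?_)
    have : (P : ℝ) ≠ 0 := by positivity
    simp only [Finset.sum_const, Finset.card_range, nsmul_eq_mul]
    field_simp
  obtain ⟨p, hp, hp'⟩ := Finset.exists_le_of_sum_le ⟨0, Finset.mem_range.2 hP⟩ hs
  have hp2 := Finset.mem_range.1 hp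
  exact ⟨p, hp2, fun y hy =>
    (Finset.single_le_sum (f := fun y => ψ (p + 1) y - ψ p y) (h0 p hp2) hy).trans hp'⟩

end SWaux
open SWaux

theorem sw (Y : Type*) [NormedAddCommGroup Y] [NormedSpace ℝ Y] : SWProp Y := by
  intro d L D Good H0 Φ hL hD hW
  induction hW with
  | stop H Φ hG h =>
    exact ⟨1, one_pos, fun _ => H, fun _ => ⟨subset_rfl, hG⟩, fun G hG _ =>
      ⟨0, one_pos, fun hΦ => h _ hΦ (hG 0 one_pos)⟩⟩
  | step H Φ n Hc Φc ε hε hsub hW h ih =>
    choose Qc hQc Hs hHs hS using ih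
    obtain ⟨q, hq0, hq⟩ : ∃ q : ℕ, 0 < q ∧ ∀ c, Qc c ≤ q :=
      ⟨∑ c, Qc c + 1, by omega, fun c =>
        (Finset.single_le_sum (f := Qc) (fun _ _ => Nat.zero_le _) (Finset.mem_univ c)).trans
          (Nat.le_succ _)⟩
    obtain ⟨w, hw⟩ : ∃ w : ℕ, w = (n + 1) * q := ⟨_, rfl⟩
    have hw0 : 0 < w := by rw [hw]; positivity
    obtain ⟨P0, hP0⟩ := exists_nat_ge (2 * L * w * (H.card * D) / ε ^ 2)
    obtain ⟨P, hP⟩ : ∃ P : ℕ, P = P0 + 1 := ⟨_, rfl⟩
    have hPpos : 0 < P := by omega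
    have hPr : (0 : ℝ) < P := by exact_mod_cast hPpos
    have hPe : 2 * L * w * (H.card * D / P) ≤ ε ^ 2 := by
      have h1 : 2 * L * w * (H.card * D) / ε ^ 2 ≤ P := hP0.trans (by rw [hP]; push_cast; linarith)
      rw [div_le_iff₀ (by positivity)] at h1
      rw [← mul_div_assoc, div_le_iff₀ hPr]
      linarith
    let HH : ℕ → Finset Y := fun k => Hs ⟨k / q % (n + 1), Nat.mod_lt _ (Nat.succ_pos n)⟩ (k % q)
    have hHH : ∀ k, H ⊆ HH k := fun k => (hsub _).trans (hHs _ _).1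
    refine ⟨(P + 1) * w, by positivity, HH, fun k => ⟨hHH k, (hHs _ _).2⟩, fun G hG hSt => ?_⟩
    by_contra hcon
    push Not at hcon
    have hSt' := hSt
    obtain ⟨φ, hφ⟩ := hSt'
    have hlt : ∀ p, p ≤ P → p * w < (P + 1) * w := fun p hp =>
      Nat.mul_lt_mul_of_pos_right (by omega) hw0
    have hφ' : ∀ y ∈ H, ∀ k k', k ≤ k' → k' < (P + 1) * w → 0 ≤ φ k' y - φ k y ∧
        φ k' y - φ k y ≤ D ∧
        ‖G k' y - G k y‖ ^ 2 ≤ 2 * L * ((k' : ℝ) - k) * (φ k' y - φ k y) :=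
      fun y hy k k' h1 h2 => hφ y k k' h1 h2 (fun j _ _ => hHH j hy)
    obtain ⟨p, hp, hp'⟩ := window H (fun p y => φ (p * w) y) P hPpos D
      (fun p hp y hy => (hφ' y hy _ _ (Nat.mul_le_mul_right _ (Nat.le_succ p))
        (hlt _ hp)).1)
      (fun y hy => (hφ' y hy _ _ (Nat.mul_le_mul_right _ (Nat.zero_le P)) (hlt _ le_rfl)).2.1)
    obtain ⟨c, hc⟩ := h (G (p * w)) (hcon _ (hlt _ hp.le))
      (BL.mono (hG _ (hlt _ hp.le)) (hHH _))
    have hcq : (c : ℕ) * q + q ≤ w := by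
      have := Nat.mul_le_mul_right q (show (c : ℕ) + 1 ≤ n + 1 from c.2)
      rw [hw]; rw [Nat.add_mul] at this; omega
    have hpw : (p + 1) * w = p * w + w := by ring
    have hp1 : (p + 1) * w < (P + 1) * w := hlt _ hp
    have hHe : ∀ j, j < q → HH (p * w + c * q + j) = Hs c j := by
      intro j hj
      have e : p * w + c * q + j = j + q * (c + (n + 1) * p) := by rw [hw]; ring
      have e1 : (p * w + c * q + j) / q % (n + 1) = c := by
        rw [e, Nat.add_mul_div_left _ _ hq0, Nat.div_eq_of_lt hj, zero_add,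
          Nat.add_mul_mod_self_left, Nat.mod_eq_of_lt c.2]
      have e2 : (p * w + c * q + j) % q = j := by
        rw [e, Nat.add_mul_mod_self_left, Nat.mod_eq_of_lt hj]
      show Hs ⟨(p * w + c * q + j) / q % (n + 1), _⟩ ((p * w + c * q + j) % q) = _
      rw [e2]
      congr 1
      exact Fin.ext e1
    have hBL : ∀ j, j < q → BL L (G (p * w + c * q + j)) (Hs c j) := fun j hj => by
      rw [← hHe j hj]; exact hG _ (by omega)
    obtain ⟨j, hj, hj'⟩ := sched_mono (hS c) (hq c) (fun j => G (p * w + c * q + j)) hBL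
      (static_shift hSt (by omega) hHe)
    refine hj' (hc _ (fun y hy => ?_) (BL.mono (hBL j hj) (hHs c j).1))
    have a1 := hφ' y hy (p * w) (p * w + c * q + j) (by omega) (by omega)
    have a2 := hφ' y hy (p * w + c * q + j) ((p + 1) * w) (by omega) hp1
    have a3 := hp' y hy
    have a4 : ((p * w + c * q + j : ℕ) : ℝ) - ((p * w : ℕ) : ℝ) ≤ w := by
      have : p * w + c * q + j ≤ p * w + w := by omega
      have h2 : ((p * w + c * q + j : ℕ) : ℝ) ≤ ((p * w + w : ℕ) : ℝ) := by exact_mod_cast this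
      push_cast at h2 ⊢; linarith
    have a5 : φ (p * w + c * q + j) y - φ (p * w) y ≤ H.card * D / P := by linarith [a2.1]
    refine abs_le_of_sq_le_sq' ?_ hε.le |>.2
    refine a1.2.2.trans (le_trans ?_ hPe)
    exact mul_le_mul (mul_le_mul_of_nonneg_left a4 (by positivity)) a5 a1.1 (by positivity)

end Crest.Agent.R254.S
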