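import Crest.Agent.R254.Glue

/-! Row 254: from `ℝ × Y` (sup metric) to the Banach space. -/

set_option autoImplicit false
open Crest.GeometryTopology Metric
noncomputable section
universe u v
namespace Crest.Agent.R254

theorem transfer {B : Type u} [NormedAddCommGroup B] [NormedSpace ℝ B] (hB : ¬ FiniteDimensional ℝ B) :
    ∃ (Y : Submodule ℝ B) (g : ℝ × Y → B), ¬ FiniteDimensional ℝ Y ∧ Continuous g ∧
      ∀ x y, 1 / 2 * dist x y ≤ dist (g x) (g y) ∧ dist (g x) (g y) ≤ 2 * dist x y := by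
  have hn : Nontrivial B := by
    by_contra hc
    rw [not_nontrivial_iff_subsingleton] at hc
    exact hB inferInstance
  obtain ⟨τ, hτ⟩ := exists_norm_eq B zero_le_one
  obtain ⟨φ, h1, h2⟩ := exists_dual_vector ℝ τ (by rw [hτ]; norm_num)
  rw [hτ] at h2
  have h2' : φ τ = 1 := by simpa using h2
  refine ⟨LinearMap.ker (φ : B →ₗ[ℝ] ℝ), fun p => p.1 • τ + (p.2 : B), fun hf => hB ?_, by fun_prop,
    fun x y => ?_⟩
  · let F : (ℝ × LinearMap.ker (φ : B →ₗ[ℝ] ℝ)) →ₗ[ℝ] B :=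
      (LinearMap.toSpanSingleton ℝ B τ).coprod (LinearMap.ker (φ : B →ₗ[ℝ] ℝ)).subtype
    refine Module.Finite.of_surjective F fun b => ⟨(φ b, ⟨b - φ b • τ, ?_⟩), ?_⟩
    · simp [h2']
    · simp [F]
  · have e : (x.1 • τ + (x.2 : B)) - (y.1 • τ + (y.2 : B)) =
        (x.1 - y.1) • τ + ((x.2 - y.2 : LinearMap.ker (φ : B →ₗ[ℝ] ℝ)) : B) := by
      rw [sub_smul, Submodule.coe_sub]; abel
    rw [dist_eq_norm (x.1 • τ + (x.2 : B)), e, Prod.dist_eq, Real.dist_eq, dist_eq_norm]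
    set t := x.1 - y.1
    set z := x.2 - y.2
    have a1 : ‖t • τ‖ = |t| := by rw [norm_smul, hτ, mul_one, Real.norm_eq_abs]
    have a2 : |t| ≤ ‖t • τ + (z : B)‖ := by
      have := φ.le_opNorm (t • τ + (z : B))
      have hz : φ (z : B) = 0 := z.2
      rwa [h1, one_mul, map_add, map_smul, h2', hz, add_zero, smul_eq_mul, mul_one,
        Real.norm_eq_abs] at this
    have a3 : ‖(z : B)‖ ≤ ‖t • τ + (z : B)‖ + ‖t • τ‖ := by
      have := norm_sub_le (t • τ + (z : B)) (t • τ)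
      rwa [add_sub_cancel_left] at this
    have a4 := norm_add_le (t • τ) (z : B)
    have a5 : ‖z‖ = ‖(z : B)‖ := rfl
    have a6 := le_max_left |t| ‖z‖
    have a7 := le_max_right |t| ‖z‖
    have a8 := abs_nonneg t
    constructor
    · have : max |t| ‖z‖ ≤ 2 * ‖t • τ + (z : B)‖ := max_le (by linarith) (by linarith)
      linarith
    · linarith

theorem final_prod (Λ : ℕ)
    (H : ∀ (Y : Type u) [NormedAddCommGroup Y] [NormedSpace ℝ Y], ¬ FiniteDimensional ℝ Y →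
      ∀ (d : ℕ) (L : ℝ), ∃ K : Set (ℝ × Y), IsCompact K ∧ Pk K 16 Λ ∧ NoEmb K d L) :
    ∃ Λ : ℕ, ∀ (B : Type u) [NormedAddCommGroup B] [NormedSpace ℝ B] [CompleteSpace B],
      ¬ FiniteDimensional ℝ B →
      ∃ K : Set B, IsCompact K ∧ DoublingConstLE K Λ ∧
        ∀ (Y : Type v) [NormedAddCommGroup Y] [NormedSpace ℝ Y] [FiniteDimensional ℝ Y]
          (f : K → Y) (c C : NNReal), ¬ (LipschitzWith C f ∧ AntilipschitzWith c f) := by
  refine ⟨2 * Λ + 1, fun B _ _ _ hB => final_of Λ hB fun d L => ?_⟩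
  obtain ⟨Y, g, h1, h2, h3⟩ := transfer hB
  obtain ⟨K, k1, k2, k3⟩ := H Y h1 d (4 * |L|)
  refine ⟨g '' K, k1.image h2, k2.image g (a := 1 / 2) (b := 2) (by norm_num) (by norm_num)
    (fun x _ y _ => h3 x y) (by norm_num), NoEmb.mono (L := |L|) ?_ le_rfl (le_abs_self L)⟩
  exact k3.image g (a := 1 / 2) (b := 2) (by norm_num) (abs_nonneg L) (fun x _ y _ => h3 x y)
    (by linarith)

end Crest.Agent.R254
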