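import Crest.Agent.R254.Lift
import Crest.Agent.R254.SW
import Crest.Agent.R254.Gadget
import Crest.Agent.R254.SNest
import Crest.Agent.R254.SPack
import Crest.Agent.R254.Transfer

/-! Row 254: the statement follows from the online game. -/

set_option autoImplicit false
open Crest.GeometryTopology
universe u v
noncomputable section
namespace Crest.Agent.R254.S

theorem reduce (Λ : ℕ)
    (hG : ∀ (Y : Type u) [NormedAddCommGroup Y] [NormedSpace ℝ Y], GameProp Λ Y) :
    ∃ Λ : ℕ, ∀ (B : Type u) [NormedAddCommGroup B] [NormedSpace ℝ B] [CompleteSpace B],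
      ¬ FiniteDimensional ℝ B →
      ∃ K : Set B, IsCompact K ∧ DoublingConstLE K Λ ∧
        ∀ (Y : Type v) [NormedAddCommGroup Y] [NormedSpace ℝ Y] [FiniteDimensional ℝ Y]
          (f : K → Y) (c C : NNReal), ¬ (LipschitzWith C f ∧ AntilipschitzWith c f) := by
  refine final_prod (2000 * (Λ + 1)) fun Y _ _ hY d L => ?_
  obtain ⟨K, k1, k2, k3⟩ := lift Y (sw Y) (nest Y (gadget Y)) (spack Y) Λ d (max L 1)
    (le_trans zero_le_one (le_max_right _ _)) (hG Y hY d _ (le_max_right _ _))
  exact ⟨K, k1.isCompact, k2, k3.mono le_rfl (le_max_left _ _)⟩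

end Crest.Agent.R254.S
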