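import Crest.Agent.R254.Glue

/-! Row 254: the online game (`Win`), its sequence form (`SWin`) and the lifted set (`Zp`). -/

set_option autoImplicit false
noncomputable section
namespace Crest.Agent.R254.S

abbrev Eu (d : ℕ) := EuclideanSpace ℝ (Fin d)

variable {Y : Type*} [NormedAddCommGroup Y] [NormedSpace ℝ Y] {d : ℕ}

/-- `G` is `(1,L)`-bi-Lipschitz on the finite set `H` -/
def BL (L : ℝ) (G : Y → Eu d) (H : Finset Y) : Prop :=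
  ∀ x ∈ H, ∀ y ∈ H, ‖x - y‖ ≤ ‖G x - G y‖ ∧ ‖G x - G y‖ ≤ L * ‖x - y‖

/-- the adversary wins the online game from history `H` against all answers satisfying `Φ` -/
inductive Win (L : ℝ) (Good : Finset Y → Prop) : Finset Y → ((Y → Eu d) → Prop) → Prop
  | stop (H : Finset Y) (Φ : (Y → Eu d) → Prop) (hG : Good H)
      (h : ∀ G, Φ G → ¬ BL L G H) : Win L Good H Φ
  | step (H : Finset Y) (Φ : (Y → Eu d) → Prop) (n : ℕ) (Hc : Fin (n + 1) → Finset Y)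
      (Φc : Fin (n + 1) → (Y → Eu d) → Prop) (ε : ℝ) (hε : 0 < ε) (hsub : ∀ c, H ⊆ Hc c)
      (hW : ∀ c, Win L Good (Hc c) (Φc c))
      (h : ∀ G, Φ G → BL L G H → ∃ c, ∀ G' : Y → Eu d, (∀ y ∈ H, ‖G' y - G y‖ ≤ ε) →
        BL L G' (Hc c) → Φc c G') : Win L Good H Φ

/-- a time-indexed family of answers whose drift is paid by monotone potentials of total
increase at most `D` on every life interval -/
def Static (L D : ℝ) (Q : ℕ) (H : ℕ → Finset Y) (G : ℕ → Y → Eu d) : Prop :=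
  ∃ φ : ℕ → Y → ℝ, ∀ (y : Y) (k k' : ℕ), k ≤ k' → k' < Q → (∀ j, k ≤ j → j ≤ k' → y ∈ H j) →
    0 ≤ φ k' y - φ k y ∧ φ k' y - φ k y ≤ D ∧
      ‖G k' y - G k y‖ ^ 2 ≤ 2 * L * ((k' : ℝ) - k) * (φ k' y - φ k y)

/-- the schedule `H 0, …, H (Q-1)` refutes `Φ` -/
def Sched (L D : ℝ) (Q : ℕ) (H : ℕ → Finset Y) (Φ : (Y → Eu d) → Prop) : Prop :=
  ∀ G : ℕ → Y → Eu d, (∀ k, k < Q → BL L (G k) (H k)) → Static L D Q H G → ∃ k, k < Q ∧ ¬ Φ (G k)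

/-- sequence form of a win -/
def SWin (L D : ℝ) (Good : Finset Y → Prop) (H0 : Finset Y) (Φ : (Y → Eu d) → Prop) : Prop :=
  ∃ Q : ℕ, 0 < Q ∧ ∃ H : ℕ → Finset Y, (∀ k, H0 ⊆ H k ∧ Good (H k)) ∧ Sched L D Q H Φ

/-- admissible histories -/
def Good (Λ : ℕ) (H : Finset Y) : Prop :=
  (0 : Y) ∈ H ∧ (∀ y ∈ H, ‖y‖ ≤ 1) ∧ Pk (↑H : Set Y) 24 Λ

/-- cross-section of the lifted set with `i` levels at integer time `t` -/
def Zp (Q : ℕ) (H : ℕ → Finset Y) : ℕ → ℕ → Y → Prop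
  | 0, _, z => z = 0
  | i + 1, t, z => ∃ y ∈ H (t / Q ^ i % Q), ∃ z', Zp Q H i t z' ∧ z = ((Q : ℝ) ^ i) • y + z'

/-- the lifted set (all times) -/
def Zset (Q : ℕ) (H : ℕ → Finset Y) (i : ℕ) : Set (ℝ × Y) :=
  {p | ∃ t : ℕ, p.1 = t ∧ Zp Q H i t p.2}

/-- task SW : `Win → SWin` -/
def SWProp (Y : Type*) [NormedAddCommGroup Y] [NormedSpace ℝ Y] : Prop :=
  ∀ (d : ℕ) (L D : ℝ) (Good : Finset Y → Prop) (H0 : Finset Y) (Φ : (Y → Eu d) → Prop),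
    0 ≤ L → 0 ≤ D → Win L Good H0 Φ → SWin L D Good H0 Φ

/-- task GADGET -/
def GadgetProp (Y : Type*) [NormedAddCommGroup Y] [NormedSpace ℝ Y] : Prop :=
  ∀ (d : ℕ) (L S : ℝ) (Q : ℕ) (H : ℕ → Finset Y), 0 < Q → S ≤ L →
    (∀ k, (0 : Y) ∈ H k ∧ ∀ y ∈ H k, ‖y‖ ≤ 1) →
    Sched (d := d) L (1 + 2 * L) Q H (fun _ => True) →
    ∀ (F : ℕ → Y → Eu d), (∀ k, k < Q → BL L (F k) (H k)) →
      (∀ k y, k + 1 < Q → y ∈ H k → y ∈ H (k + 1) → ‖F (k + 1) y - F k y‖ ≤ S) →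
      ‖F Q 0 - F (Q - 1) 0‖ ≤ S → ‖F Q 0 - F 0 0‖ ≤ Q * S - 1

/-- task NEST (may use `GadgetProp`) -/
def NestProp (Y : Type*) [NormedAddCommGroup Y] [NormedSpace ℝ Y] : Prop :=
  ∀ (d : ℕ) (L : ℝ) (Q : ℕ) (H : ℕ → Finset Y), 0 < Q →
    (∀ k, (0 : Y) ∈ H k ∧ ∀ y ∈ H k, ‖y‖ ≤ 1) →
    Sched (d := d) L (1 + 2 * L) Q H (fun _ => True) →
    ∀ i : ℕ, L * Q < i → NoEmb {p ∈ Zset Q H i | p.1 ≤ (Q : ℝ) ^ i} d L

/-- task PACK -/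
def PackProp (Y : Type*) [NormedAddCommGroup Y] [NormedSpace ℝ Y] : Prop :=
  ∀ (Λ Q : ℕ) (μ : ℝ) (H : ℕ → Finset Y), 0 < μ → μ ≤ 1 → 10000 ≤ μ * Q → (∀ k, Good Λ (H k)) →
    (∀ k k', ∀ y ∈ H k, ∀ y' ∈ H k', y ≠ y' → μ ≤ ‖y - y'‖) →
    ∀ i : ℕ, Pk (Zset Q H i) 16 (2000 * (Λ + 1))

/-- task LIFT (may use `SWProp`, `NestProp`, `PackProp`) -/
def LiftProp (Y : Type*) [NormedAddCommGroup Y] [NormedSpace ℝ Y] : Prop :=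
  ∀ (Λ d : ℕ) (L : ℝ), 0 ≤ L → Win (Y := Y) (d := d) L (Good Λ) {0} (fun _ => True) →
    ∃ K : Set (ℝ × Y), K.Finite ∧ Pk K 16 (2000 * (Λ + 1)) ∧ NoEmb K d L

/-- task GAME : the game is won in every infinite-dimensional normed space -/
def GameProp (Λ : ℕ) (Y : Type*) [NormedAddCommGroup Y] [NormedSpace ℝ Y] : Prop :=
  ¬ FiniteDimensional ℝ Y → ∀ (d : ℕ) (L : ℝ), 1 ≤ L →
    Win (Y := Y) (d := d) L (Good Λ) {0} (fun _ => True)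

end Crest.Agent.R254.S
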