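import Crest.Agent.R254.Bin

namespace Crest.Agent.R254.T

theorem bin (B : Type*) : BinStmt B := Crest.Agent.R254.bin B

end Crest.Agent.R254.T
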