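import Crest.Agent.R254.Defs

set_option autoImplicit false
noncomputable section
namespace Crest.Agent.R254.T

theorem bnd (B : Type*) [NormedAddCommGroup B] : BndStmt B := by
  classical
  intro b R Y
  have hf := List.finite_length_le (Fin b) R
  let U : Finset B := hf.toFinset.biUnion Y
  have hU : ∀ l : List (Fin b), l.length ≤ R → Y l ⊆ U := fun l hl =>
    Finset.subset_biUnion_of_mem Y (hf.mem_toFinset.2 hl)
  obtain ⟨D, hD0, hD⟩ := U.finite_toSet.isBounded.exists_pos_norm_le
  have : ∀ V : Finset (B × B), ∃ μ : ℝ, 0 < μ ∧ ∀ p ∈ V, p.1 ≠ p.2 → μ ≤ ‖p.1 - p.2‖ := by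
    intro V
    induction V using Finset.induction_on with
    | empty => exact ⟨1, one_pos, by simp⟩
    | insert p V _ ih =>
      obtain ⟨μ, h1, h3⟩ := ih
      by_cases hp : p.1 = p.2
      · refine ⟨μ, h1, fun q hq hne => ?_⟩
        rcases Finset.mem_insert.1 hq with rfl | hq
        · exact absurd hp hne
        · exact h3 q hq hne
      · refine ⟨min μ ‖p.1 - p.2‖, lt_min h1 (norm_pos_iff.2 (sub_ne_zero.2 hp)),
          fun q hq hne => ?_⟩
        rcases Finset.mem_insert.1 hq with rfl | hq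
        · exact min_le_right _ _
        · exact (min_le_left _ _).trans (h3 q hq hne)
  obtain ⟨μ, h1, h3⟩ := this (U ×ˢ U)
  exact ⟨D, μ, hD0, h1, fun l hl => ⟨fun y hy => hD y (hU l hl hy), fun y hy y' hy' hne =>
    h3 (y, y') (Finset.mem_product.2 ⟨hU l hl hy, hU l hl hy'⟩) hne⟩⟩

end Crest.Agent.R254.T
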