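import Crest.Agent.R254.Defs

set_option autoImplicit false
noncomputable section
namespace Crest.Agent.R254.T

theorem Win.zero_mem {B : Type*} [NormedAddCommGroup B] [NormedSpace ℝ B] {d : ℕ} {L : ℝ} {b R : ℕ}
    {ε : ℝ} {Y : List (Fin b) → Finset B} {W : List (Fin b) → (B → Eu d) → Prop}
    (h : Win d L b R ε Y W) (l : List (Fin b)) : (0 : B) ∈ Y l := by
  induction l with
  | nil => exact h.zero
  | cons c l ih => exact h.mono c l ih

theorem fin (B : Type*) [NormedAddCommGroup B] [NormedSpace ℝ B] (Λ : ℕ) (hG : GameStmt B Λ)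
    (hA : GadStmt B) (hD : BndStmt B) (hN : NestStmt B) (hP : PackStmt B) (hF : PhiStmt B)
    (hB : ¬ FiniteDimensional ℝ B) (d : ℕ) (L : ℝ) :
    ∃ K : Set B, IsCompact K ∧ Pk K 4 (260 * Λ + 66) ∧ NoEmb K d L := by
  have hL1 : (1 : ℝ) ≤ max L 1 := le_max_right _ _
  obtain ⟨m, hm⟩ := hG d (max L 1) hL1
  obtain ⟨T, u, φ, hT, hu1, hφu, hφ, hφT⟩ := hF hB m
  obtain ⟨b, R, ε, Y, W, hW, hYT, hPk⟩ := hm T hT
  obtain ⟨D, μ, hD0, hμ, hb⟩ := hD b R Y
  obtain ⟨N, hN0, hNp, γ, hγ, c, hc, hgad⟩ := hA d (max L 1) b R ε Y W hW (by linarith)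
    (128 * D) (by positivity) (⌈640 * D / μ⌉₊ + 2)
  have hNr : (0 : ℝ) < N := by exact_mod_cast hNp
  have hκ : 0 < 1 / (128 * D * N) := by positivity
  have hu4 : 1 / 4 ≤ ‖u‖ := by
    have := hφ u
    rw [hφu, abs_one] at this
    linarith
  obtain ⟨j, hfin, hno⟩ := hN d (max L 1) N γ (128 * D) (1 / (128 * D * N)) u (fun i => Y (c i))
    (by linarith) hNp hγ hκ (by field_simp) hu4 hu1 (fun i => Win.zero_mem hW _) hgad
  refine ⟨_, hfin.isCompact, ?_, hno.mono subset_rfl (le_max_left _ _)⟩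
  refine hP N (1 / (128 * D * N)) D μ u φ (fun i => Y (c i)) Λ (by omega) hκ hD0 hμ
    (le_of_eq (by field_simp)) ?_ hu1 hφu hφ ?_ (fun i => (hb _ (hc i)).2) (fun i => hPk _ (hc i)) j
  · have h1 : 640 * D / μ ≤ N := by
      refine (Nat.le_ceil _).trans ?_
      exact_mod_cast (by omega : ⌈640 * D / μ⌉₊ ≤ N)
    rw [div_le_iff₀ hμ] at h1
    linarith
  · intro i y hy
    refine ⟨?_, (hb _ (hc i)).1 y hy⟩
    obtain ⟨x, rfl⟩ := hYT _ y hy
    exact hφT x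

end Crest.Agent.R254.T
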