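import Crest.Agent.R254.Defs

set_option autoImplicit false
noncomputable section
namespace Crest.Agent.R254.T
namespace NestAux

variable {B : Type*} [NormedAddCommGroup B] [NormedSpace ℝ B]

theorem ends (u : B) {N : ℕ} (hN : 0 < N) (κ : ℝ) (Yc : ℕ → Finset B) (h0 : ∀ i, (0 : B) ∈ Yc i) :
    ∀ j, (0 : B) ∈ KK u N κ Yc j ∧ u ∈ KK u N κ Yc j := by
  intro j
  induction j with
  | zero => simp [KK_zero]
  | succ j ih =>
    have hN' : (N : ℝ) ≠ 0 := by positivity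
    refine ⟨⟨0, hN, 0, h0 _, 0, ih.1, by simp⟩, ⟨N - 1, by omega, 0, h0 _, u, ih.2, ?_⟩⟩
    rw [smul_zero, add_zero, ← add_smul, Nat.cast_sub hN]
    have : ((N : ℝ) - (1 : ℕ)) / N + 1 / N = 1 := by field_simp; simp
    rw [this, one_smul]

theorem fin (u : B) (N : ℕ) (κ : ℝ) (Yc : ℕ → Finset B) : ∀ j, (KK u N κ Yc j).Finite := by
  intro j
  induction j with
  | zero => rw [KK_zero]; exact Set.toFinite _
  | succ j ih =>
    have h1 : (⋃ i ∈ Set.Iio N, ⋃ y ∈ (Yc i : Set B),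
        (fun z => ((i : ℝ) / N) • u + κ • y + ((1 : ℝ) / N) • z) '' KK u N κ Yc j).Finite :=
      (Set.finite_Iio N).biUnion fun i _ => (Yc i).finite_toSet.biUnion fun y _ => ih.image _
    refine h1.subset fun x hx => ?_
    obtain ⟨i, hi, y, hy, z, hz, rfl⟩ := hx
    simp only [Set.mem_iUnion]
    exact ⟨i, hi, y, hy, z, hz, rfl⟩

theorem key {d : ℕ} {L : ℝ} {N : ℕ} {γ τ κ : ℝ} {u : B} {Yc : ℕ → Finset B} (hL : 0 ≤ L)
    (hN : 0 < N) (hγ : 0 < γ) (hκ : 0 < κ) (hτ : τ * κ * N = 1) (hu : ‖u‖ ≤ 1)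
    (h0 : ∀ i, (0 : B) ∈ Yc i) (hG : GadC d L N γ τ Yc) : ∀ (j : ℕ) (f : B → Eu d),
    (∀ x ∈ KK u N κ Yc j, ∀ y ∈ KK u N κ Yc j, ‖x - y‖ ≤ ‖f x - f y‖ ∧ ‖f x - f y‖ ≤ L * ‖x - y‖) →
      (1 + γ) ^ j * ‖f u - f 0‖ ≤ L := by
  have hN' : (0 : ℝ) < N := by positivity
  intro j
  induction j with
  | zero =>
    intro f hf
    have := (hf u (ends u hN κ Yc h0 0).2 0 (ends u hN κ Yc h0 0).1).2
    rw [sub_zero] at this
    rw [pow_zero, one_mul]
    nlinarith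
  | succ j ih =>
    intro f hf
    have hp : 1 ≤ (1 + γ) ^ j := one_le_pow₀ (by linarith)
    have hp0 : 0 < (1 + γ) ^ j := by linarith
    have hsucc : ∀ (i : ℕ) (y : B), ((i : ℝ) / N) • u + κ • y + ((1 : ℝ) / N) • u =
        (((i + 1 : ℕ) : ℝ) / N) • u + κ • y := by
      intro i y
      push_cast
      rw [add_div, add_smul]
      abel
    have m0 : ∀ i, i < N → ∀ y ∈ Yc i, ((i : ℝ) / N) • u + κ • y ∈ KK u N κ Yc (j + 1) :=
      fun i hi y hy => ⟨i, hi, y, hy, 0, (ends u hN κ Yc h0 j).1, by simp⟩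
    have m1 : ∀ i, i < N → ∀ y ∈ Yc i,
        (((i + 1 : ℕ) : ℝ) / N) • u + κ • y ∈ KK u N κ Yc (j + 1) :=
      fun i hi y hy => ⟨i, hi, y, hy, u, (ends u hN κ Yc h0 j).2, (hsucc i y).symm⟩
    have hBL : ∀ (i : ℕ) (t : ℝ), (∀ y ∈ Yc i, t • u + κ • y ∈ KK u N κ Yc (j + 1)) →
        BL L (Yc i) (fun y => κ⁻¹ • f (t • u + κ • y)) := by
      intro i t ht x hx y hy
      obtain ⟨h1, h2⟩ := hf _ (ht x hx) _ (ht y hy)
      have h3 : ‖t • u + κ • x - (t • u + κ • y)‖ = κ * ‖x - y‖ := by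
        rw [add_sub_add_left_eq_sub, ← smul_sub, norm_smul, Real.norm_of_nonneg hκ.le]
      rw [h3] at h1 h2
      simp only
      rw [← smul_sub, norm_smul, Real.norm_of_nonneg (inv_pos.2 hκ).le]
      constructor
      · rw [le_inv_mul_iff₀ hκ]; exact h1
      · rw [inv_mul_le_iff₀ hκ]; linarith
    have h4 := hG (fun i y => κ⁻¹ • f (((i : ℝ) / N) • u + κ • y)) (L / (1 + γ) ^ j)
      (by positivity) (div_le_self hL hp)
      (fun i hi => ⟨hBL i _ (m0 i hi), hBL i _ (m1 i hi)⟩) (fun i hi y hy => ?_)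
    · simp only [smul_zero, add_zero, Nat.cast_zero, zero_div, zero_smul, div_self hN'.ne',
        one_smul] at h4
      rw [← smul_sub, norm_smul, Real.norm_of_nonneg (inv_pos.2 hκ).le] at h4
      have h5 : (1 + γ) * ‖f u - f 0‖ ≤ L / (1 + γ) ^ j := by
        have h6 := mul_le_mul_of_nonneg_left h4 hκ.le
        calc (1 + γ) * ‖f u - f 0‖ = κ * ((1 + γ) * (κ⁻¹ * ‖f u - f 0‖)) := by field_simp
          _ ≤ _ := h6
          _ = L / (1 + γ) ^ j * (τ * κ * N) := by ring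
          _ = _ := by rw [hτ, mul_one]
      rw [le_div_iff₀ hp0] at h5
      rw [pow_succ]
      linarith
    · have h5 := ih (fun z => (N : ℝ) • f (((i : ℝ) / N) • u + κ • y + ((1 : ℝ) / N) • z))
        (fun x hx z hz => ?_)
      · simp only [smul_zero, add_zero] at h5
        rw [hsucc, ← smul_sub, norm_smul, Real.norm_of_nonneg hN'.le] at h5
        rw [← smul_sub, norm_smul, Real.norm_of_nonneg (inv_pos.2 hκ).le, inv_mul_le_iff₀ hκ]
        set A := ‖f ((((i + 1 : ℕ) : ℝ) / N) • u + κ • y) - f (((i : ℝ) / N) • u + κ • y)‖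
        have h6 : N * A ≤ L / (1 + γ) ^ j := by
          rw [le_div_iff₀ hp0]; linarith
        refine le_of_mul_le_mul_left ?_ hN'
        calc N * A ≤ L / (1 + γ) ^ j * (τ * κ * N) := by rw [hτ, mul_one]; exact h6
          _ = _ := by ring
      · obtain ⟨h1, h2⟩ := hf _ ⟨i, hi, y, hy, x, hx, rfl⟩ _ ⟨i, hi, y, hy, z, hz, rfl⟩
        have h3 : ‖((i : ℝ) / N) • u + κ • y + ((1 : ℝ) / N) • x -
            (((i : ℝ) / N) • u + κ • y + ((1 : ℝ) / N) • z)‖ = 1 / N * ‖x - z‖ := by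
          rw [add_sub_add_left_eq_sub, ← smul_sub, norm_smul, Real.norm_of_nonneg (by positivity)]
        rw [h3] at h1 h2
        rw [← smul_sub, norm_smul, Real.norm_of_nonneg hN'.le]
        constructor
        · calc ‖x - z‖ = N * (1 / N * ‖x - z‖) := by field_simp
            _ ≤ _ := mul_le_mul_of_nonneg_left h1 hN'.le
        · calc _ ≤ N * (L * (1 / N * ‖x - z‖)) := mul_le_mul_of_nonneg_left h2 hN'.le
            _ = _ := by field_simp

end NestAux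

theorem nest (B : Type*) [NormedAddCommGroup B] [NormedSpace ℝ B] : NestStmt B := by
  intro d L N γ τ κ u Yc hL hN hγ hκ hτ hu1 hu h0 hG
  obtain ⟨j, hj⟩ := pow_unbounded_of_one_lt (4 * L) (by linarith : 1 < 1 + γ)
  refine ⟨j, NestAux.fin u N κ Yc j, fun f hf => ?_⟩
  have hf' : ∀ x ∈ KK u N κ Yc j, ∀ y ∈ KK u N κ Yc j,
      ‖x - y‖ ≤ ‖f x - f y‖ ∧ ‖f x - f y‖ ≤ L * ‖x - y‖ := by
    intro x hx y hy
    simpa only [dist_eq_norm] using hf x hx y hy
  have h1 := NestAux.key hL hN hγ hκ hτ hu h0 hG j f hf'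
  have h2 := (hf' u (NestAux.ends u hN κ Yc h0 j).2 0 (NestAux.ends u hN κ Yc h0 j).1).1
  rw [sub_zero] at h2
  have hp0 : 0 < (1 + γ) ^ j := by positivity
  nlinarith

end Crest.Agent.R254.T
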