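import Crest.Agent.R254.Pack

/-! Row 254: alias of the packing task. -/

set_option autoImplicit false
namespace Crest.Agent.R254.T

theorem pack (B : Type*) [NormedAddCommGroup B] [NormedSpace ℝ B] (hB : BinStmt B) :
    PackStmt B := Crest.Agent.R254.pack B hB

end Crest.Agent.R254.T
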