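import Crest.Agent.R254.Tree

set_option autoImplicit false
namespace Crest.Agent.R254.T

theorem tree (B : Type*) [NormedAddCommGroup B] [NormedSpace ℝ B] : TreeStmt B :=
  Crest.Agent.R254.tree B

end Crest.Agent.R254.T
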