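import Crest.Agent.R254.Defs

/-! Row 254, task TREE: periodic windows of children blocks. -/

set_option autoImplicit false
noncomputable section
namespace Crest.Agent.R254
namespace TreeAux

theorem sum_win (f : ℕ → ℝ) (w M : ℕ) :
    ∑ k ∈ Finset.range M, ∑ i ∈ Finset.range w, f (k * w + i) = ∑ i ∈ Finset.range (M * w), f i := by
  induction M with
  | zero => simp
  | succ M ih => rw [Finset.sum_range_succ, ih, Nat.succ_mul, Finset.sum_range_add]

theorem static {d : ℕ} (g : ℕ → Eu d) (w j : ℕ) (hj : j ≤ w) :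
    ‖g j - g 0‖ ^ 2 ≤ w * ∑ i ∈ Finset.range w, ‖g (i + 1) - g i‖ ^ 2 := by
  have h1 : ‖g j - g 0‖ ≤ ∑ i ∈ Finset.range w, ‖g (i + 1) - g i‖ := by
    rw [← Finset.sum_range_sub g j]
    refine (norm_sum_le _ _).trans ?_
    exact Finset.sum_le_sum_of_subset_of_nonneg (Finset.range_mono hj) fun _ _ _ => norm_nonneg _
  have h2 := sq_sum_le_card_mul_sum_sq (s := Finset.range w) (f := fun i => ‖g (i + 1) - g i‖)
  rw [Finset.card_range] at h2
  exact (pow_le_pow_left₀ (norm_nonneg _) h1 2).trans h2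

variable {B : Type*} [NormedAddCommGroup B] [NormedSpace ℝ B]

omit [NormedSpace ℝ B] in
theorem BL_mono {d : ℕ} {L : ℝ} {Y Y' : Finset B} {G : B → Eu d} (h : BL L Y' G) (hY : Y ⊆ Y') :
    BL L Y G := fun x hx y hy => h x (hY hx) y (hY hy)

/-- the claim at node `l` with block length `n` and cells `c` -/
def Cl {d : ℕ} (L : ℝ) {b : ℕ} (R : ℕ) (Y : List (Fin b) → Finset B)
    (W : List (Fin b) → (B → Eu d) → Prop) (C0 : ℝ) (l : List (Fin b)) (n : ℕ)
    (c : ℕ → List (Fin b)) : Prop :=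
  (∀ i, (c i).length ≤ R ∧ Y l ⊆ Y (c i)) ∧ ∀ G : ℕ → B → Eu d,
    (∀ i, i < n → BL L (Y (c i)) (G i) ∧ BL L (Y (c i)) (G (i + 1))) →
    (∀ (a k : ℕ) (y : B), a + k ≤ n → (∀ i, i < k → y ∈ Y (c (a + i))) →
      ∑ i ∈ Finset.range k, ‖G (a + i + 1) y - G (a + i) y‖ ^ 2 ≤ C0) →
    (∀ i, i < n → W l (G i)) → False

omit [NormedSpace ℝ B] in
theorem Cl.mono {d : ℕ} {L : ℝ} {b R : ℕ} {Y : List (Fin b) → Finset B}
    {W : List (Fin b) → (B → Eu d) → Prop} {C0 : ℝ} {l : List (Fin b)} {n n' : ℕ}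
    {c : ℕ → List (Fin b)} (h : Cl L R Y W C0 l n c) (hn : n ≤ n') : Cl L R Y W C0 l n' c :=
  ⟨h.1, fun G h1 h2 h3 => h.2 G (fun i hi => h1 i (by omega))
    (fun a k y ha hy => h2 a k y (by omega) hy) fun i hi => h3 i (by omega)⟩

omit [NormedSpace ℝ B] in
theorem main {d : ℕ} {L : ℝ} {b R : ℕ} {ε : ℝ} {Y : List (Fin b) → Finset B}
    {W : List (Fin b) → (B → Eu d) → Prop} (hW : Win d L b R ε Y W) {C0 : ℝ} (hC : 0 ≤ C0) (h : ℕ) :
    ∀ l : List (Fin b), l.length + h = R → ∃ n, 0 < n ∧ ∃ c, Cl L R Y W C0 l n c := by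
  induction h with
  | zero =>
    intro l hl
    refine ⟨1, one_pos, fun _ => l, fun _ => ⟨(by omega : l.length ≤ R), subset_rfl⟩, fun G h1 _ h3 => ?_⟩
    exact hW.stop l (by omega) (G 0) (h1 0 one_pos).1 (h3 0 one_pos)
  | succ h ih =>
    intro l hl
    have hb := hW.bpos
    have he := hW.epos
    have hch : ∀ e : Fin b, ∃ n, 0 < n ∧ ∃ c, Cl L R Y W C0 (e :: l) n c := fun e =>
      ih (e :: l) (by rw [List.length_cons]; omega)
    choose nn _ cc hcc using hch
    obtain ⟨n, hn0, hn⟩ : ∃ n, 0 < n ∧ ∀ e, nn e ≤ n :=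
      ⟨Finset.univ.sup nn + 1, Nat.succ_pos _, fun e =>
        (Finset.le_sup (f := nn) (Finset.mem_univ e)).trans (Nat.le_succ _)⟩
    have hcl : ∀ e, Cl L R Y W C0 (e :: l) n (cc e) := fun e => (hcc e).mono (hn e)
    obtain ⟨w, hw⟩ : ∃ w, w = b * n := ⟨_, rfl⟩
    have hw0 : 0 < w := by rw [hw]; positivity
    obtain ⟨M, hM⟩ := exists_nat_gt ((w : ℝ) * ((Y l).card * C0) / ε ^ 2)
    have hM0 : 0 < M := by
      have : (0 : ℝ) ≤ (w : ℝ) * ((Y l).card * C0) / ε ^ 2 := by positivity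
      exact_mod_cast this.trans_lt hM
    let c : ℕ → List (Fin b) := fun i => cc ⟨(i / n) % b, Nat.mod_lt _ hb⟩ (i % n)
    have hsub : ∀ i, Y l ⊆ Y (c i) := fun i => (hW.mono _ l).trans ((hcl _).1 _).2
    refine ⟨M * w, by positivity, c, fun i => ⟨((hcl _).1 _).1, hsub i⟩, fun G h1 h2 h3 => ?_⟩
    let E : ℕ → ℝ := fun k => ∑ y ∈ Y l, ∑ i ∈ Finset.range w,
      ‖G (k * w + i + 1) y - G (k * w + i) y‖ ^ 2
    have hE : ∑ k ∈ Finset.range M, E k ≤ (Y l).card * C0 := by
      simp only [E]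
      rw [Finset.sum_comm]
      refine (Finset.sum_le_card_nsmul _ _ C0 fun y hy => ?_).trans (by rw [nsmul_eq_mul])
      rw [sum_win (fun i => ‖G (i + 1) y - G i y‖ ^ 2) w M]
      have := h2 0 (M * w) y (by omega) fun i _ => hsub _ hy
      simpa only [zero_add] using this
    obtain ⟨k, hk, hEk⟩ : ∃ k ∈ Finset.range M, E k ≤ (Y l).card * C0 / M := by
      refine Finset.exists_le_of_sum_le ⟨0, Finset.mem_range.2 hM0⟩ ?_
      rw [Finset.sum_const, Finset.card_range, nsmul_eq_mul]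
      have : (0 : ℝ) < M := by exact_mod_cast hM0
      rw [mul_div_cancel₀ _ this.ne']
      exact hE
    have hk' : k < M := Finset.mem_range.1 hk
    have hkw : k * w + w ≤ M * w := by
      rw [← Nat.succ_mul]; exact Nat.mul_le_mul_right _ hk'
    have hst : ∀ j, j ≤ w → ∀ y ∈ Y l, ‖G (k * w + j) y - G (k * w) y‖ ≤ ε := by
      intro j hj y hy
      have s1 := static (fun i => G (k * w + i) y) w j hj
      simp only [add_zero] at s1
      have s2 : ∑ i ∈ Finset.range w, ‖G (k * w + (i + 1)) y - G (k * w + i) y‖ ^ 2 ≤ E k :=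
        Finset.single_le_sum (f := fun y => ∑ i ∈ Finset.range w,
          ‖G (k * w + i + 1) y - G (k * w + i) y‖ ^ 2)
          (fun _ _ => Finset.sum_nonneg fun _ _ => sq_nonneg _) hy
      have hMp : (0 : ℝ) < M := by exact_mod_cast hM0
      have s3 : (w : ℝ) * ((Y l).card * C0 / M) ≤ ε ^ 2 := by
        rw [div_lt_iff₀ (by positivity)] at hM
        rw [← mul_div_assoc, div_le_iff₀ hMp]
        linarith
      have s4 : (w : ℝ) * ∑ i ∈ Finset.range w,
          ‖G (k * w + (i + 1)) y - G (k * w + i) y‖ ^ 2 ≤ w * ((Y l).card * C0 / M) :=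
        mul_le_mul_of_nonneg_left (s2.trans hEk) (by positivity)
      exact (pow_le_pow_iff_left₀ (norm_nonneg _) he.le two_ne_zero).1 (s1.trans (s4.trans s3))
    have hlt : k * w < M * w := by omega
    obtain ⟨e, he'⟩ := hW.step l (by omega) (G (k * w)) (BL_mono (h1 _ hlt).1 (hsub _)) (h3 _ hlt)
    obtain ⟨t, ht⟩ : ∃ t, t = k * w + e * n := ⟨_, rfl⟩
    have hen : (e : ℕ) * n + n ≤ w := by
      rw [hw, ← Nat.succ_mul]; exact Nat.mul_le_mul_right _ e.2
    have hc : ∀ i, i < n → c (t + i) = cc e i := by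
      intro i hi
      have e0 : t + i = i + n * (e + b * k) := by rw [ht, hw]; ring
      have e1 : (t + i) / n = e + b * k := by
        rw [e0, Nat.add_mul_div_left _ _ hn0, Nat.div_eq_of_lt hi, zero_add]
      have e2 : (t + i) % n = i := by rw [e0, Nat.add_mul_mod_self_left, Nat.mod_eq_of_lt hi]
      have e3 : (⟨((t + i) / n) % b, Nat.mod_lt _ hb⟩ : Fin b) = e := by
        apply Fin.ext
        simp only [e1, Nat.add_mul_mod_self_left, Nat.mod_eq_of_lt e.2]
      simp only [c, e2, e3]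
    refine (hcl e).2 (fun i => G (t + i)) (fun i hi => ?_) (fun a k' y ha hy => ?_) fun i hi => ?_
    · have := h1 (t + i) (by omega)
      rw [hc i hi] at this
      exact this
    · have := h2 (t + a) k' y (by omega) fun i hi => by
        rw [add_assoc, hc (a + i) (by omega)]; exact hy i hi
      simpa only [add_assoc] using this
    · have hB := (h1 (t + i) (by omega)).1
      rw [hc i hi] at hB
      refine he' _ (BL_mono hB ((hcl e).1 i).2) fun y hy => ?_
      have := hst (e * n + i) (by omega) y hy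
      rw [← add_assoc, ← ht] at this
      exact this

end TreeAux

theorem tree (B : Type*) [NormedAddCommGroup B] [NormedSpace ℝ B] : TreeStmt B := by
  intro d L b R ε Y W hW C0 hC
  obtain ⟨n, hn, c, h1, h2⟩ := TreeAux.main hW hC R [] (by simp)
  exact ⟨n, hn, c, fun i => (h1 i).1, fun G a1 a2 =>
    h2 G a1 a2 fun i hi => hW.root _ (TreeAux.BL_mono (a1 i hi).1 (h1 i).2)⟩

end Crest.Agent.R254
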