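import Crest.Agent.R254.W29

/-! Row 254: the abstract form of the game with six kinds of pieces and free histories. -/

set_option autoImplicit false
set_option linter.unusedSectionVars false
noncomputable section
namespace Crest.Agent.R254.W72

open Crest.Agent.R254.S (Eu BL Win)
open Crest.Agent.R254.W29 (step' St A1 P_mem Q_mem RP)

variable {Y : Type*} [NormedAddCommGroup Y] [NormedSpace ℝ Y] {d : ℕ}

/-- the six kinds of pieces -/
def pc (a b : Y) (P Q M : ℕ → Y) (l0 u : ℝ) (t : Fin 6) (i : ℕ) : Y × Y × ℝ :=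
  ![(a, P i, (l0 / 2 - i) * u), (P i, b, (l0 / 2 + i) * u), (a, Q i, (l0 / 2 + i) * u),
    (Q i, b, (l0 / 2 - i) * u), (P i, M i, i * u), (M i, Q i, i * u)] t

/-- admissible pieces after the midpoints `j`, `k` were inserted -/
def Va (N j k : ℕ) (t : Fin 6) (i : ℕ) : Prop := 1 ≤ i ∧ i ≤ N ∧ (t.1 < 4 ∨ i = j ∨ i = k)

open Classical in
theorem win_round {L S : ℝ} {N l0 : ℕ} (hN : 2 ≤ N) (hl : 10 * N ≤ l0) (hr : RP d S N l0)
    (Good : Finset Y → Prop) (H : Finset Y) (a b : Y) (P Q M : ℕ → Y) (H2 : ℕ → ℕ → Finset Y) (u s : ℝ) (hu : 0 < u)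
    (hs : 0 ≤ s) (hsS : s ≤ S) (ha : a ∈ H) (hb : b ∈ H)
    (hM : ∀ j k, 1 ≤ j → j < k → k ≤ N → u / 20 ≤ ‖M j - M k‖)
    (hH2 : ∀ j k, 1 ≤ j → j < k → k ≤ N → H ∪ A1 N P Q ⊆ H2 j k ∧ M j ∈ H2 j k ∧ M k ∈ H2 j k)
    (hW : ∀ j k, 1 ≤ j → j < k → k ≤ N → ∀ t i, Va N j k t i →
      Win (d := d) L Good (H2 j k) (St (s + 1 / (l0 : ℝ) ^ 2 / 2) (pc a b P Q M l0 u t i))) :
    Win (d := d) L Good H (St (s + 1 / (l0 : ℝ) ^ 2 / 4) (a, b, l0 * u)) := by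
  have hl' : (10 * N : ℝ) ≤ l0 := by exact_mod_cast hl
  have hN' : (2 : ℝ) ≤ N := by exact_mod_cast hN
  have l0p : (1 : ℝ) ≤ l0 := by linarith
  set η : ℝ := 1 / (l0 : ℝ) ^ 2 with hη
  have ηp : 0 < η := by positivity
  set ε : ℝ := η / 8 * u with hε
  have εp : 0 < ε := by positivity
  have hεu : ε ≤ u / l0 := by
    have h1 : η / 8 ≤ 1 / l0 := by
      rw [hη, div_div, div_le_div_iff₀ (by positivity) (by positivity)]; nlinarith
    calc ε ≤ 1 / l0 * u := mul_le_mul_of_nonneg_right h1 hu.le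
      _ = u / l0 := by ring
  have hlen : ∀ t i, 1 ≤ i → i ≤ N → u ≤ (pc a b P Q M l0 u t i).2.2 := by
    intro t i h1 h2
    have h1' : (1 : ℝ) ≤ i := by exact_mod_cast h1
    have h2' : (i : ℝ) ≤ N := by exact_mod_cast h2
    have e1 : u ≤ ((l0 : ℝ) / 2 - i) * u := le_mul_of_one_le_left hu.le (by linarith)
    have e2 : u ≤ ((l0 : ℝ) / 2 + i) * u := le_mul_of_one_le_left hu.le (by linarith)
    have e3 : u ≤ (i : ℝ) * u := le_mul_of_one_le_left hu.le h1'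
    fin_cases t
    exacts [e1, e2, e2, e1, e3, e3]
  have hε2 : ∀ t i, 1 ≤ i → i ≤ N → 2 * ε ≤ η / 4 * (pc a b P Q M l0 u t i).2.2 := by
    intro t i h1 h2
    have := mul_le_mul_of_nonneg_left (hlen t i h1 h2) (by positivity : 0 ≤ η / 4)
    rw [hε]; linarith
  have hm1 : ∀ t i, 1 ≤ i → i ≤ N → t.1 < 4 → (pc a b P Q M l0 u t i).1 ∈ H ∪ A1 N P Q ∧
      (pc a b P Q M l0 u t i).2.1 ∈ H ∪ A1 N P Q := by
    intro t i h1 h2 h3
    have e1 : a ∈ H ∪ A1 N P Q := Finset.mem_union_left _ ha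
    have e2 : b ∈ H ∪ A1 N P Q := Finset.mem_union_left _ hb
    have e3 : P i ∈ H ∪ A1 N P Q := Finset.mem_union_right _ (P_mem P Q h1 h2)
    have e4 : Q i ∈ H ∪ A1 N P Q := Finset.mem_union_right _ (Q_mem P Q h1 h2)
    fin_cases t
    exacts [⟨e1, e3⟩, ⟨e3, e2⟩, ⟨e1, e4⟩, ⟨e4, e2⟩, absurd h3 (by decide), absurd h3 (by decide)]
  have hsub : ∀ j k, 1 ≤ j → j < k → k ≤ N → H ∪ A1 N P Q ⊆ H2 j k := fun j k h1 h2 h3 =>
    (hH2 j k h1 h2 h3).1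
  have hMm : ∀ j k, 1 ≤ j → j < k → k ≤ N → ∀ i, i = j ∨ i = k → M i ∈ H2 j k := by
    rintro j k h1 h2 h3 i (rfl | rfl)
    exacts [(hH2 _ _ h1 h2 h3).2.1, (hH2 _ _ h1 h2 h3).2.2]
  have hm2 : ∀ j k, 1 ≤ j → j < k → k ≤ N → ∀ t i, Va N j k t i →
      (pc a b P Q M l0 u t i).1 ∈ H2 j k ∧ (pc a b P Q M l0 u t i).2.1 ∈ H2 j k := by
    rintro j k g1 g2 g3 t i ⟨h1, h2, h3⟩
    have hs := hsub j k g1 g2 g3
    by_cases h4 : t.1 < 4
    · exact ⟨hs (hm1 t i h1 h2 h4).1, hs (hm1 t i h1 h2 h4).2⟩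
    have e3 : P i ∈ H2 j k := hs (Finset.mem_union_right _ (P_mem P Q h1 h2))
    have e4 : Q i ∈ H2 j k := hs (Finset.mem_union_right _ (Q_mem P Q h1 h2))
    have e5 := hMm j k g1 g2 g3 i (h3.resolve_left h4)
    fin_cases t
    exacts [absurd (by decide) h4, absurd (by decide) h4, absurd (by decide) h4,
      absurd (by decide) h4, ⟨e3, e5⟩, ⟨e5, e4⟩]
  have m3 : ∀ j k, 1 ≤ j → j < k → k ≤ N → Win (d := d) L Good (H2 j k)
      (fun G => ∃ t i, Va N j k t i ∧ St (s + η / 2 + η / 4) (pc a b P Q M l0 u t i) G) := by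
    intro j k h1 h2 h3
    haveI : Nonempty {p : Fin 6 × Fin (N + 1) // Va N j k p.1 p.2} :=
      ⟨⟨(0, ⟨1, by omega⟩), le_rfl, by show 1 ≤ N; omega, Or.inl (by show 0 < 4; omega)⟩⟩
    refine step' (ι := {p : Fin 6 × Fin (N + 1) // Va N j k p.1 p.2})
      (fun _ => H2 j k) (fun p => St (s + η / 2) (pc a b P Q M l0 u p.1.1 p.1.2)) ε εp
      (fun _ => le_rfl) (fun p => hW j k h1 h2 h3 _ _ p.2) ?_
    rintro G ⟨t, i, hv, hst⟩ -
    refine ⟨⟨(t, ⟨i, Nat.lt_succ_of_le hv.2.1⟩), hv⟩, fun G' hG' _ => ?_⟩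
    exact hst.rob (hG' _ (hm2 j k h1 h2 h3 t i hv).1) (hG' _ (hm2 j k h1 h2 h3 t i hv).2) (hε2 t i hv.1 hv.2.1)
  have m2 : Win (d := d) L Good (H ∪ A1 N P Q) (St s (a, b, l0 * u)) := by
    haveI : Nonempty {p : Fin (N + 1) × Fin (N + 1) // 1 ≤ p.1.1 ∧ p.1.1 < p.2.1} :=
      ⟨⟨(⟨1, by omega⟩, ⟨2, by omega⟩), le_rfl, by show 1 < 2; omega⟩⟩
    refine step' (ι := {p : Fin (N + 1) × Fin (N + 1) // 1 ≤ p.1.1 ∧ p.1.1 < p.2.1})
      (fun p => H2 p.1.1 p.1.2)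
      (fun p G => ∃ t i, Va N p.1.1 p.1.2 t i ∧ St (s + η / 2 + η / 4) (pc a b P Q M l0 u t i) G)
      ε εp (fun p => hsub _ _ p.2.1 p.2.2 (Nat.le_of_lt_succ p.1.2.2))
      (fun p => m3 _ _ p.2.1 p.2.2 (Nat.le_of_lt_succ p.1.2.2)) ?_
    intro G hst _
    by_cases hA : ∃ t i, 1 ≤ i ∧ i ≤ N ∧ t.1 < 4 ∧ St (s + η) (pc a b P Q M l0 u t i) G
    · obtain ⟨t, i, h1, h2, h3, h4⟩ := hA
      refine ⟨⟨(⟨1, by omega⟩, ⟨2, by omega⟩), le_rfl, by show 1 < 2; omega⟩, fun G' hG' _ =>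
        ⟨t, i, ⟨h1, h2, Or.inl h3⟩, ?_⟩⟩
      have h5 : St (s + η / 2 + η / 4 + η / 4) (pc a b P Q M l0 u t i) G := by
        rwa [show s + η / 2 + η / 4 + η / 4 = s + η by ring]
      exact h5.rob (hG' _ (hm1 t i h1 h2 h3).1) (hG' _ (hm1 t i h1 h2 h3).2) (hε2 t i h1 h2)
    · obtain ⟨j, k, h1, h2, h3, h4⟩ := hr u hu s (s + η) hs hsS rfl (G a) (G b) (fun i => G (P i))
        (fun i => G (Q i)) hst (by
          intro i h1 h2
          have e0 : dist (G a) (G (P i)) ≤ (s + η) * (((l0 : ℝ) / 2 - i) * u) :=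
            (not_le.1 fun h => hA ⟨0, i, h1, h2, by decide, h⟩).le
          have e1 : dist (G (P i)) (G b) ≤ (s + η) * (((l0 : ℝ) / 2 + i) * u) :=
            (not_le.1 fun h => hA ⟨1, i, h1, h2, by decide, h⟩).le
          have e2 : dist (G a) (G (Q i)) ≤ (s + η) * (((l0 : ℝ) / 2 + i) * u) :=
            (not_le.1 fun h => hA ⟨2, i, h1, h2, by decide, h⟩).le
          have e3 : dist (G (Q i)) (G b) ≤ (s + η) * (((l0 : ℝ) / 2 - i) * u) :=
            (not_le.1 fun h => hA ⟨3, i, h1, h2, by decide, h⟩).le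
          exact ⟨e0, e1, e2, e3⟩)
      refine ⟨⟨(⟨j, by omega⟩, ⟨k, by omega⟩), h1, h2⟩, fun G' hG' hB => ?_⟩
      by_contra hcon
      have cP : ∀ i, 1 ≤ i → i ≤ N → dist (G' (P i)) (G (P i) + 0) ≤ u / l0 := fun i e1 e2 => by
        rw [add_zero, dist_eq_norm]
        exact (hG' _ (Finset.mem_union_right _ (P_mem P Q e1 e2))).trans hεu
      have cQ : ∀ i, 1 ≤ i → i ≤ N → dist (G' (Q i)) (G (Q i) + 0) ≤ u / l0 := fun i e1 e2 => by
        rw [add_zero, dist_eq_norm]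
        exact (hG' _ (Finset.mem_union_right _ (Q_mem P Q e1 e2))).trans hεu
      have cM : ∀ i, 1 ≤ i → i ≤ N → i = j ∨ i = k →
          dist (G' (P i)) (G' (M i)) ≤ (s + η) * (i * u) ∧
            dist (G' (M i)) (G' (Q i)) ≤ (s + η) * (i * u) := fun i e1 e2 e3 => by
        have f0 : dist (G' (P i)) (G' (M i)) ≤ (s + η / 2 + η / 4) * (i * u) :=
          (not_le.1 fun h => hcon ⟨4, i, ⟨e1, e2, Or.inr e3⟩, h⟩).le
        have f1 : dist (G' (M i)) (G' (Q i)) ≤ (s + η / 2 + η / 4) * (i * u) :=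
          (not_le.1 fun h => hcon ⟨5, i, ⟨e1, e2, Or.inr e3⟩, h⟩).le
        have f2 : (s + η / 2 + η / 4) * (i * u) ≤ (s + η) * (i * u) :=
          mul_le_mul_of_nonneg_right (by linarith) (by positivity)
        exact ⟨f0.trans f2, f1.trans f2⟩
      have g := h4 0 (G' (P j)) (G' (Q j)) (G' (P k)) (G' (Q k)) (G' (M j)) (G' (M k))
        (cP j h1 (by omega)) (cQ j h1 (by omega)) (cP k (by omega) h3) (cQ k (by omega) h3)
        (cM j h1 (by omega) (Or.inl rfl)).1 (cM j h1 (by omega) (Or.inl rfl)).2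
        (cM k (by omega) h3 (Or.inr rfl)).1 (cM k (by omega) h3 (Or.inr rfl)).2
      have g1 := (hB _ (hMm j k h1 h2 h3 j (Or.inl rfl)) _ (hMm j k h1 h2 h3 k (Or.inr rfl))).1
      have g2 := hM j k h1 h2 h3
      rw [dist_eq_norm] at g
      linarith
  refine step' (ι := Unit) (fun _ => H ∪ A1 N P Q) (fun _ => St s (a, b, l0 * u)) ε εp
    (fun _ => Finset.subset_union_left) (fun _ => m2) fun G hst _ => ⟨(), fun G' hG' _ => ?_⟩
  refine hst.rob (hG' _ ha) (hG' _ hb) ?_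
  have : η / 4 * u ≤ η / 4 * (l0 * u) :=
    mul_le_mul_of_nonneg_left (le_mul_of_one_le_left hu.le l0p) (by positivity)
  show 2 * ε ≤ η / 4 * (l0 * u)
  rw [hε]; linarith

open Classical in
/-- the abstract game -/
theorem win_abs (d : ℕ) (L : ℝ) (hL : 1 ≤ L) : ∃ N l0 R : ℕ, 2 ≤ N ∧ 10 * N ≤ l0 ∧
    (R : ℝ) ≤ 121 * L ^ 2 * (l0 : ℝ) ^ 2 ∧
    ∀ (Y : Type*) [NormedAddCommGroup Y] [NormedSpace ℝ Y] (Good : Finset Y → Prop)
      (I : ℕ → Finset Y → Y → Y → ℝ → Prop),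
      (∀ r H a b l, I r H a b l → 0 < l ∧ a ∈ H ∧ b ∈ H) →
      (∀ H a b l, I R H a b l → Good H ∧ ‖a - b‖ ≤ 30 * L * l) →
      (∀ r H a b l, r < R → I r H a b l → ∃ P Q M : ℕ → Y, ∀ j k, 1 ≤ j → j < k → k ≤ N →
        l / l0 / 20 ≤ ‖M j - M k‖ ∧ ∃ H2 : Finset Y, H ⊆ H2 ∧
          (∀ i, 1 ≤ i → i ≤ N → I (r + 1) H2 a (P i) (((l0 : ℝ) / 2 - i) * (l / l0)) ∧
            I (r + 1) H2 (P i) b (((l0 : ℝ) / 2 + i) * (l / l0)) ∧
            I (r + 1) H2 a (Q i) (((l0 : ℝ) / 2 + i) * (l / l0)) ∧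
            I (r + 1) H2 (Q i) b (((l0 : ℝ) / 2 - i) * (l / l0))) ∧
          ∀ i, i = j ∨ i = k → I (r + 1) H2 (P i) (M i) (i * (l / l0)) ∧
            I (r + 1) H2 (M i) (Q i) (i * (l / l0))) →
      ∀ H a b l, I 0 H a b l → (0 : Y) ∈ H → l / 4 ≤ ‖a - b‖ →
        Win (d := d) L Good {0} (fun _ => True) := by
  obtain ⟨N, l0, hN, hl, hr⟩ := round d (30 * L ^ 2) (by positivity)
  have hl' : (10 * N : ℝ) ≤ l0 := by exact_mod_cast hl
  have hN' : (2 : ℝ) ≤ N := by exact_mod_cast hN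
  have l0p : (1 : ℝ) ≤ l0 := by linarith
  have l2p : (1 : ℝ) ≤ (l0 : ℝ) ^ 2 := one_le_pow₀ l0p
  have L2p : (1 : ℝ) ≤ L ^ 2 := one_le_pow₀ hL
  refine ⟨N, l0, ⌈120 * L ^ 2 * (l0 : ℝ) ^ 2⌉₊, hN, hl, ?_, ?_⟩
  · have := Nat.ceil_lt_add_one (show 0 ≤ 120 * L ^ 2 * (l0 : ℝ) ^ 2 by positivity)
    nlinarith
  intro Y _ _ Good I hI hend hstep
  set R := ⌈120 * L ^ 2 * (l0 : ℝ) ^ 2⌉₊ with hR
  set η : ℝ := 1 / (l0 : ℝ) ^ 2 with hη
  have ηp : 0 < η := by positivity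
  have η1 : η * (l0 : ℝ) ^ 2 = 1 := by rw [hη]; field_simp
  have key : ∀ n r, r + n = R → ∀ H (x : Y × Y × ℝ), I r H x.1 x.2.1 x.2.2 →
      Win (d := d) L Good H (St (r * (η / 4) + η / 4) x) := by
    intro n
    induction n with
    | zero =>
      intro r hr0 H x hx
      obtain rfl : r = R := by omega
      obtain ⟨h1, h2, h3⟩ := hI _ _ _ _ _ hx
      obtain ⟨h4, h5⟩ := hend _ _ _ _ hx
      refine .stop _ _ h4 fun G hst hB => ?_
      have e1 := (hB _ h2 _ h3).2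
      unfold St at hst
      rw [dist_eq_norm] at hst
      have e2 : 120 * L ^ 2 * (l0 : ℝ) ^ 2 ≤ R := Nat.le_ceil _
      have e3 : 30 * L ^ 2 ≤ R * (η / 4) := by
        have := mul_le_mul_of_nonneg_right e2 (by positivity : 0 ≤ η / 4)
        calc 30 * L ^ 2 = 30 * L ^ 2 * (η * (l0 : ℝ) ^ 2) := by rw [η1, mul_one]
          _ = 120 * L ^ 2 * (l0 : ℝ) ^ 2 * (η / 4) := by ring
          _ ≤ _ := this
      have e4 : L * ‖x.1 - x.2.1‖ ≤ L * (30 * L * x.2.2) :=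
        mul_le_mul_of_nonneg_left h5 (by linarith)
      have e5 : 30 * L ^ 2 * x.2.2 < (R * (η / 4) + η / 4) * x.2.2 :=
        mul_lt_mul_of_pos_right (by linarith) h1
      nlinarith
    | succ n ih =>
      intro r hr0 H x hx
      obtain ⟨h1, h2, h3⟩ := hI _ _ _ _ _ hx
      obtain ⟨P, Q, M, h4⟩ := hstep r H _ _ _ (by omega) hx
      have h5 : ∀ j k, ∃ H2 : Finset Y, 1 ≤ j → j < k → k ≤ N → H ⊆ H2 ∧ ∀ t i, Va N j k t i →
          I (r + 1) H2 (pc x.1 x.2.1 P Q M l0 (x.2.2 / l0) t i).1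
            (pc x.1 x.2.1 P Q M l0 (x.2.2 / l0) t i).2.1
            (pc x.1 x.2.1 P Q M l0 (x.2.2 / l0) t i).2.2 := by
        intro j k
        by_cases hjk : 1 ≤ j ∧ j < k ∧ k ≤ N
        · obtain ⟨-, H2, g1, g2, g3⟩ := h4 j k hjk.1 hjk.2.1 hjk.2.2
          refine ⟨H2, fun _ _ _ => ⟨g1, ?_⟩⟩
          rintro t i ⟨f1, f2, f3⟩
          obtain ⟨p0, p1, p2, p3⟩ := g2 i f1 f2
          fin_cases t
          exacts [p0, p1, p2, p3, (g3 i (f3.resolve_left (by decide))).1,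
            (g3 i (f3.resolve_left (by decide))).2]
        · exact ⟨H, fun a b c => absurd ⟨a, b, c⟩ hjk⟩
      choose H2 h5 using h5
      have h6 : ∀ j k, 1 ≤ j → j < k → k ≤ N →
          H ∪ A1 N P Q ⊆ H2 j k ∧ M j ∈ H2 j k ∧ M k ∈ H2 j k := by
        intro j k g1 g2 g3
        obtain ⟨f1, f2⟩ := h5 j k g1 g2 g3
        refine ⟨Finset.union_subset f1 fun y hy => ?_,
          (hI _ _ _ _ _ (f2 5 j ⟨g1, by omega, Or.inr (Or.inl rfl)⟩)).2.1,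
          (hI _ _ _ _ _ (f2 5 k ⟨by omega, g3, Or.inr (Or.inr rfl)⟩)).2.1⟩
        unfold A1 at hy
        rcases Finset.mem_union.1 hy with hy | hy <;> obtain ⟨i, hi, rfl⟩ := Finset.mem_image.1 hy
        · exact (hI _ _ _ _ _ (f2 1 i ⟨(Finset.mem_Icc.1 hi).1, (Finset.mem_Icc.1 hi).2,
            Or.inl (by decide)⟩)).2.1
        · exact (hI _ _ _ _ _ (f2 3 i ⟨(Finset.mem_Icc.1 hi).1, (Finset.mem_Icc.1 hi).2,
            Or.inl (by decide)⟩)).2.1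
      have e1 : (r : ℝ) < 120 * L ^ 2 * (l0 : ℝ) ^ 2 := Nat.lt_ceil.1 (by omega)
      have e3 : r * (η / 4) ≤ 30 * L ^ 2 := by
        have := mul_le_mul_of_nonneg_right e1.le (by positivity : 0 ≤ η / 4)
        calc _ ≤ 120 * L ^ 2 * (l0 : ℝ) ^ 2 * (η / 4) := this
          _ = 30 * L ^ 2 * (η * (l0 : ℝ) ^ 2) := by ring
          _ = _ := by rw [η1, mul_one]
      have := win_round (L := L) hN hl hr Good H x.1 x.2.1 P Q M H2 (x.2.2 / l0) (r * (η / 4))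
        (by positivity) (by positivity) e3 h2 h3 (fun j k a b c => (h4 j k a b c).1) h6
        (fun j k a b c t i hv => by
          have := ih (r + 1) (by omega) _ _ ((h5 j k a b c).2 t i hv)
          rwa [show ((r + 1 : ℕ) : ℝ) * (η / 4) + η / 4 = r * (η / 4) + η / 2 by
            push_cast; ring] at this)
      rwa [show (l0 : ℝ) * (x.2.2 / l0) = x.2.2 by field_simp] at this
  intro H a b l hx h0 hlow
  set x : Y × Y × ℝ := (a, b, l) with hxd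
  obtain ⟨h1, h2, h3⟩ := hI _ _ _ _ _ hx
  refine step' (ι := Unit) (fun _ => H) (fun _ => St ((0 : ℕ) * (η / 4) + η / 4) x) 1 one_pos
    (fun _ => Finset.singleton_subset_iff.2 h0) (fun _ => key R 0 (by omega) H x hx)
    fun G _ _ => ⟨(), fun G' _ hB => ?_⟩
  have e1 := (hB _ h2 _ h3).1
  unfold St
  rw [dist_eq_norm]
  have e2 : η ≤ 1 := by nlinarith
  have e3 : η / 4 * l ≤ 1 / 4 * l := mul_le_mul_of_nonneg_right (by linarith) h1.le
  push_cast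
  show (0 * (η / 4) + η / 4) * l ≤ ‖G' a - G' b‖
  linarith

end Crest.Agent.R254.W72
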