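import Crest.Agent.R254.GWin
import Crest.Agent.R254.Round

/-! Row 254: one round of the game on the target side; the geometry of the points is abstract. -/

set_option autoImplicit false
noncomputable section
namespace Crest.Agent.R254.G

open Crest.Agent.R254.S (Eu BL)

variable {Y : Type*} [NormedAddCommGroup Y] [NormedSpace ℝ Y] {d : ℕ}

/-- the pair `x, y` of horizontal length `l` has stretch at least `s` -/
def Str (x y : Y) (l s : ℝ) (G : Y → Eu d) : Prop := s * l ≤ ‖G x - G y‖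

theorem Str.robust {x y : Y} {l s s' ε : ℝ} {G G' : Y → Eu d} {v : Eu d} (h : Str x y l s G)
    (hx : ‖G' x - G x - v‖ ≤ ε) (hy : ‖G' y - G y - v‖ ≤ ε) (he : 2 * ε ≤ (s - s') * l) :
    Str x y l s' G' := by
  unfold Str at h ⊢
  have e : G x - G y = (G' x - G' y) - (G' x - G x - v) + (G' y - G y - v) := by abel
  have h1 : ‖G x - G y‖ ≤ ‖G' x - G' y‖ + ε + ε := by
    rw [e]
    refine (norm_add_le _ _).trans (add_le_add ((norm_sub_le _ _).trans ?_) hy)
    linarith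
  nlinarith

/-- the statement of `Crest.Agent.R254.round` -/
def RoundP (d : ℕ) (S : ℝ) (N l0 : ℕ) : Prop :=
  ∀ u : ℝ, 0 < u → ∀ s t : ℝ, 0 ≤ s → s ≤ S → t = s + 1 / (l0 : ℝ) ^ 2 →
    ∀ (A B : EuclideanSpace ℝ (Fin d)) (P Q : ℕ → EuclideanSpace ℝ (Fin d)),
      s * (l0 * u) ≤ dist A B →
      (∀ k : ℕ, 1 ≤ k → k ≤ N →
        dist A (P k) ≤ t * (((l0 : ℝ) / 2 - k) * u) ∧ dist (P k) B ≤ t * (((l0 : ℝ) / 2 + k) * u) ∧
        dist A (Q k) ≤ t * (((l0 : ℝ) / 2 + k) * u) ∧ dist (Q k) B ≤ t * (((l0 : ℝ) / 2 - k) * u)) →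
      ∃ j k : ℕ, 1 ≤ j ∧ j < k ∧ k ≤ N ∧
        ∀ v Pj Qj Pk Qk Mj Mk : EuclideanSpace ℝ (Fin d),
          dist Pj (P j + v) ≤ u / l0 → dist Qj (Q j + v) ≤ u / l0 →
          dist Pk (P k + v) ≤ u / l0 → dist Qk (Q k + v) ≤ u / l0 →
          dist Pj Mj ≤ t * (j * u) → dist Mj Qj ≤ t * (j * u) →
          dist Pk Mk ≤ t * (k * u) → dist Mk Qk ≤ t * (k * u) → dist Mj Mk ≤ u / 40

theorem exists_roundP (d : ℕ) (S : ℝ) (hS : 0 ≤ S) :
    ∃ N l0 : ℕ, 2 ≤ N ∧ 10 * N ≤ l0 ∧ RoundP d S N l0 := round d S hS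

/-- first end point of the piece of type `c` -/
def pc1 (a : Y) (A B M : ℕ → Y) (i : ℕ) : Fin 5 → Y := ![a, A i, B i, A i, M i]
/-- second end point of the piece of type `c` -/
def pc2 (b : Y) (A B M : ℕ → Y) (i : ℕ) : Fin 5 → Y := ![A i, B i, b, M i, B i]
/-- horizontal length (unit `u`) of the piece of type `c` -/
def pcl (l0 i : ℕ) : Fin 5 → ℝ := ![(l0 : ℝ) / 2 - i, 2 * i, (l0 : ℝ) / 2 - i, i, i]

theorem pcl_ge {N l0 i : ℕ} (hl : 10 * N ≤ l0) (h1 : 1 ≤ i) (h2 : i ≤ N) (c : Fin 5) :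
    1 ≤ pcl l0 i c ∧ pcl l0 i c ≤ (l0 : ℝ) / 2 := by
  have a1 : (1 : ℝ) ≤ i := by exact_mod_cast h1
  have a2 : (i : ℝ) ≤ N := by exact_mod_cast h2
  have a3 : (10 : ℝ) * N ≤ l0 := by exact_mod_cast hl
  fin_cases c <;> simp [pcl] <;> (try constructor) <;> linarith

theorem gwin_round {S L : ℝ} {N l0 : ℕ} (hN : 2 ≤ N) (hl : 10 * N ≤ l0) (hR : RoundP d S N l0)
    {Good : Finset Y → Prop} {P H1 : Finset Y} {H2 : ℕ → ℕ → Finset Y} {a b : Y}
    {A B M : ℕ → Y} {u s : ℝ} (hu : 0 < u) (hs : 1 / (l0 : ℝ) ^ 2 / 4 ≤ s) (hsS : s ≤ S)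
    (ha : a ∈ P) (hb : b ∈ P) (hP : P ⊆ H1)
    (hA : ∀ k, 1 ≤ k → k ≤ N → A k ∈ H1 ∧ B k ∈ H1)
    (hH : ∀ j k, H1 ⊆ H2 j k ∧ M j ∈ H2 j k ∧ M k ∈ H2 j k)
    (gP : Good P) (g1 : Good H1)
    (hM : ∀ j k, 1 ≤ j → j < k → k ≤ N → u / 40 < ‖M j - M k‖)
    (hW : ∀ j k, 1 ≤ j → j ≤ N → 1 ≤ k → k ≤ N → ∀ i, (i = j ∨ i = k) → ∀ c : Fin 5,
      GWin (d := d) L Good (H2 j k)
        (Str (pc1 a A B M i c) (pc2 b A B M i c) (pcl l0 i c * u) (s + 1 / (l0 : ℝ) ^ 2 / 4))) :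
    GWin (d := d) L Good P (Str a b (l0 * u) s) := by
  classical
  have hN' : (2 : ℝ) ≤ N := by exact_mod_cast hN
  have hl' : (10 : ℝ) * N ≤ l0 := by exact_mod_cast hl
  have l0p : (0 : ℝ) < l0 := by linarith
  have l01 : (1 : ℝ) ≤ l0 := by linarith
  set η : ℝ := 1 / (l0 : ℝ) ^ 2 with hη
  have η0 : 0 < η := by positivity
  have hε : 0 < η * u / 8 := by positivity
  have hεl : η * u / 8 ≤ u / l0 := by
    have : η ≤ 1 / l0 := by
      rw [hη]
      exact one_div_le_one_div_of_le l0p (by nlinarith)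
    have h2 : η * u ≤ 1 / l0 * u := mul_le_mul_of_nonneg_right this hu.le
    have h3 : 1 / (l0 : ℝ) * u = u / l0 := by ring
    have h4 : 0 < η * u := by positivity
    linarith
  -- membership of the end points of the pieces
  have mem1 : ∀ j k, 1 ≤ j → j ≤ N → 1 ≤ k → k ≤ N → ∀ i, (i = j ∨ i = k) → ∀ c : Fin 5,
      pc1 a A B M i c ∈ H2 j k ∧ pc2 b A B M i c ∈ H2 j k := by
    intro j k j1 jN k1 kN i hi c
    have hi' : 1 ≤ i ∧ i ≤ N := by rcases hi with rfl | rfl <;> exact ⟨‹_›, ‹_›⟩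
    have e1 := (hH j k).1 (hA i hi'.1 hi'.2).1
    have e2 := (hH j k).1 (hA i hi'.1 hi'.2).2
    have e3 : M i ∈ H2 j k := by
      rcases hi with rfl | rfl
      · exact (hH _ _).2.1
      · exact (hH _ _).2.2
    have e4 := (hH j k).1 (hP ha)
    have e5 := (hH j k).1 (hP hb)
    fin_cases c <;> simp [pc1, pc2, e1, e2, e3, e4, e5]
  -- third move
  have W3 : ∀ j k, 1 ≤ j → j ≤ N → 1 ≤ k → k ≤ N → GWin (d := d) L Good (H2 j k)
      (fun G => ∃ i, (i = j ∨ i = k) ∧ ∃ c : Fin 5,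
        Str (pc1 a A B M i c) (pc2 b A B M i c) (pcl l0 i c * u) (s + η / 2) G) := by
    intro j k j1 jN k1 kN
    refine GWin.step' (ι := Bool × Fin 5) (fun _ => H2 j k)
      (fun c => Str (pc1 a A B M (if c.1 then j else k) c.2) (pc2 b A B M (if c.1 then j else k) c.2)
        (pcl l0 (if c.1 then j else k) c.2 * u) (s + η / 4)) (η * u / 8)
      (hW j k j1 jN k1 kN j (Or.inl rfl) 0).good hε (fun _ => Finset.Subset.refl _)
      (fun c => hW j k j1 jN k1 kN _ (by cases c.1 <;> simp) _) ?_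
    rintro G ⟨i, hi, c, hc⟩ -
    have hi' : 1 ≤ i ∧ i ≤ N := by rcases hi with rfl | rfl <;> exact ⟨‹_›, ‹_›⟩
    obtain ⟨β, hβ⟩ : ∃ β : Bool, (if β then j else k) = i := by
      rcases hi with rfl | rfl
      · exact ⟨true, by simp⟩
      · exact ⟨false, by simp⟩
    refine ⟨(β, c), fun G' v hG' _ => ?_⟩
    simp only [hβ]
    have hm := mem1 j k j1 jN k1 kN i hi c
    refine hc.robust (hG' _ hm.1) (hG' _ hm.2) ?_
    have := (pcl_ge hl hi'.1 hi'.2 c).1
    have h5 : η * u * 1 ≤ η * u * pcl l0 i c := mul_le_mul_of_nonneg_left this (by positivity)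
    nlinarith
  -- second move
  have W2 : GWin (d := d) L Good H1 (Str a b (l0 * u) (s - η / 4)) := by
    haveI : Nonempty (Set.Icc 1 N) := ⟨⟨1, by simp; omega⟩⟩
    refine GWin.step' (ι := Set.Icc 1 N × Set.Icc 1 N) (fun c => H2 c.1 c.2)
      (fun c G => ∃ i, (i = (c.1 : ℕ) ∨ i = (c.2 : ℕ)) ∧ ∃ e : Fin 5,
        Str (pc1 a A B M i e) (pc2 b A B M i e) (pcl l0 i e * u) (s + η / 2) G) (η * u / 8) g1 hε
      (fun c => (hH _ _).1) (fun c => W3 _ _ c.1.2.1 c.1.2.2 c.2.2.1 c.2.2.2) ?_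
    intro G hG hBL
    set t : ℝ := s - η / 4 + η with ht
    have t0 : 0 ≤ t := by linarith
    by_cases hlong : ∃ k, 1 ≤ k ∧ k ≤ N ∧ ∃ e : Fin 5, (e = 0 ∨ e = 1 ∨ e = 2) ∧
        Str (pc1 a A B M k e) (pc2 b A B M k e) (pcl l0 k e * u) t G
    · obtain ⟨k, k1, kN, e, he, hc⟩ := hlong
      refine ⟨(⟨k, k1, kN⟩, ⟨k, k1, kN⟩), fun G' v hG' _ => ⟨k, Or.inl rfl, e, ?_⟩⟩
      have hm : pc1 a A B M k e ∈ H1 ∧ pc2 b A B M k e ∈ H1 := by
        have e1 := (hA k k1 kN).1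
        have e2 := (hA k k1 kN).2
        have e4 := hP ha
        have e5 := hP hb
        rcases he with rfl | rfl | rfl <;> simp [pc1, pc2, e1, e2, e4, e5]
      refine hc.robust (hG' _ hm.1) (hG' _ hm.2) ?_
      have := (pcl_ge hl k1 kN e).1
      have h5 : η * u * 1 ≤ η * u * pcl l0 k e := mul_le_mul_of_nonneg_left this (by positivity)
      have h6 : t - (s + η / 2) = η / 4 := by rw [ht]; ring
      rw [h6]
      nlinarith
    · push Not at hlong
      obtain ⟨j, k, j1, jk, kN, hjk⟩ := hR u hu (s - η / 4) t (by linarith) (by linarith) ht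
        (G a) (G b) (fun k => G (A k)) (fun k => G (B k)) (by rw [dist_eq_norm]; exact hG) (by
          intro k k1 kN
          have h0 := hlong k k1 kN 0 (by simp)
          have h1 := hlong k k1 kN 1 (by simp)
          have h2 := hlong k k1 kN 2 (by simp)
          simp only [Str, pc1, pc2, pcl, not_le, Matrix.cons_val_zero, Matrix.cons_val_one,
            Matrix.cons_val] at h0 h1 h2
          rw [← dist_eq_norm] at h0 h1 h2
          have d1 := dist_triangle (G (A k)) (G (B k)) (G b)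
          have d2 := dist_triangle (G a) (G (A k)) (G (B k))
          refine ⟨h0.le, ?_, ?_, h2.le⟩ <;> nlinarith)
      have jN : j ≤ N := by omega
      have k1 : 1 ≤ k := by omega
      refine ⟨(⟨j, j1, jN⟩, ⟨k, k1, kN⟩), fun G' v hG' hBL' => ?_⟩
      by_contra hcon
      push Not at hcon
      have c3 := hcon j (Or.inl rfl) 3
      have c4 := hcon j (Or.inl rfl) 4
      have c5 := hcon k (Or.inr rfl) 3
      have c6 := hcon k (Or.inr rfl) 4
      simp only [Str, pc1, pc2, pcl, not_le, Matrix.cons_val] at c3 c4 c5 c6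
      rw [← dist_eq_norm] at c3 c4 c5 c6
      have cl : ∀ y ∈ H1, dist (G' y) (G y + v) ≤ u / l0 := fun y hy => by
        rw [dist_eq_norm, ← sub_sub]
        exact (hG' y hy).trans hεl
      have hj0 : 0 ≤ (j : ℝ) * u := by positivity
      have hk0 : 0 ≤ (k : ℝ) * u := by positivity
      have hst : s + η / 2 ≤ t := by rw [ht]; linarith
      have := hjk v (G' (A j)) (G' (B j)) (G' (A k)) (G' (B k)) (G' (M j)) (G' (M k))
        (cl _ (hA j j1 jN).1) (cl _ (hA j j1 jN).2) (cl _ (hA k k1 kN).1) (cl _ (hA k k1 kN).2)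
        (c3.le.trans (mul_le_mul_of_nonneg_right hst hj0))
        (c4.le.trans (mul_le_mul_of_nonneg_right hst hj0))
        (c5.le.trans (mul_le_mul_of_nonneg_right hst hk0))
        (c6.le.trans (mul_le_mul_of_nonneg_right hst hk0))
      have h7 := (hBL' _ (hH j k).2.1 _ (hH j k).2.2).1
      have h8 := hM j k j1 jk kN
      rw [dist_eq_norm] at this
      linarith
  -- first move
  refine GWin.step' (ι := Unit) (fun _ => H1) (fun _ => Str a b (l0 * u) (s - η / 4)) (η * u / 8)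
    gP hε (fun _ => hP) (fun _ => W2) fun G hG _ => ⟨(), fun G' v hG' _ => ?_⟩
  refine hG.robust (hG' _ ha) (hG' _ hb) ?_
  have h5 : η * u * 1 ≤ η * u * l0 := mul_le_mul_of_nonneg_left l01 (by positivity)
  nlinarith

end Crest.Agent.R254.G
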