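import Crest.Agent.R254.GeoDef
import Crest.Agent.R254.Round

/-! Row 254: the online game is won, given the geometry oracle. -/

set_option autoImplicit false
noncomputable section
namespace Crest.Agent.R254.G

open Crest.Agent.R254.S (Eu BL Win)

variable {Y : Type*} [NormedAddCommGroup Y] [NormedSpace ℝ Y] {d : ℕ}

theorem wstep {L : ℝ} {Good : Finset Y → Prop} {H : Finset Y} {Φ : (Y → Eu d) → Prop}
    {ι : Type*} [Finite ι] [Nonempty ι] (Hc : ι → Finset Y) (Φc : ι → (Y → Eu d) → Prop) (ε : ℝ)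
    (hε : 0 < ε) (hsub : ∀ c, H ⊆ Hc c) (hW : ∀ c, Win L Good (Hc c) (Φc c))
    (h : ∀ G, Φ G → BL L G H → ∃ c, ∀ (G' : Y → Eu d),
      (∀ y ∈ H, ‖G' y - G y‖ ≤ ε) → BL L G' (Hc c) → Φc c G') : Win L Good H Φ := by
  obtain ⟨n, ⟨e⟩⟩ := Finite.exists_equiv_fin ι
  cases n with
  | zero => exact (e (Classical.arbitrary ι)).elim0
  | succ n =>
    refine .step H Φ n (fun c => Hc (e.symm c)) (fun c => Φc (e.symm c)) ε hε
      (fun c => hsub _) (fun c => hW _) fun G h1 h2 => ?_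
    obtain ⟨c, hc⟩ := h G h1 h2
    exact ⟨e c, by simpa using hc⟩

theorem pert {G G' : Y → Eu d} {x y : Y} {ε : ℝ} (hx : ‖G' x - G x‖ ≤ ε) (hy : ‖G' y - G y‖ ≤ ε) :
    ‖G x - G y‖ - 2 * ε ≤ ‖G' x - G' y‖ := by
  have e : G x - G y = (G' x - G' y) - (G' x - G x) + (G' y - G y) := by abel
  have h1 := norm_add_le ((G' x - G' y) - (G' x - G x)) (G' y - G y)
  have h2 := norm_sub_le (G' x - G' y) (G' x - G x)
  rw [← e] at h1
  linarith

theorem wpick {L : ℝ} {Good : Finset Y → Prop} {H : Finset Y} (F : Set (Y × Y × ℝ))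
    (hF : F.Finite) (hne : F.Nonempty) (σ δ u : ℝ) (hδ : 0 < δ) (hu : 0 < u)
    (h : ∀ z ∈ F, z.1 ∈ H ∧ z.2.1 ∈ H ∧ u ≤ z.2.2 ∧
      Win (d := d) L Good H (fun G => σ * z.2.2 ≤ ‖G z.1 - G z.2.1‖)) :
    Win (d := d) L Good H (fun G => ∃ z ∈ F, (σ + δ) * z.2.2 ≤ ‖G z.1 - G z.2.1‖) := by
  haveI : Finite F := hF
  haveI : Nonempty F := hne.to_subtype
  refine wstep (ι := F) (fun _ => H) (fun z G => σ * z.1.2.2 ≤ ‖G z.1.1 - G z.1.2.1‖) (δ * u / 2)
    (by positivity) (fun _ => Finset.Subset.refl _) (fun z => (h z.1 z.2).2.2.2) ?_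
  rintro G ⟨z, hz, hG⟩ -
  refine ⟨⟨z, hz⟩, fun G' h1 _ => ?_⟩
  obtain ⟨a1, a2, a3, -⟩ := h z hz
  have := pert (h1 _ a1) (h1 _ a2)
  have := mul_le_mul_of_nonneg_left a3 hδ.le
  show σ * z.2.2 ≤ ‖G' z.1 - G' z.2.1‖
  nlinarith

/-- the six kinds of pieces -/
def pc (a b : Y) (P Q M : ℕ → Y) (l0 : ℕ) (u : ℝ) (i : ℕ) : Fin 6 → Y × Y × ℝ :=
  ![(a, P i, ((l0 : ℝ) / 2 - i) * u), (P i, b, ((l0 : ℝ) / 2 + i) * u),
    (a, Q i, ((l0 : ℝ) / 2 + i) * u), (Q i, b, ((l0 : ℝ) / 2 - i) * u),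
    (P i, M i, (i : ℝ) * u), (M i, Q i, (i : ℝ) * u)]

theorem wrap (d : ℕ) (L : ℝ) (hL : 0 ≤ L) (S : ℝ) (hS : 0 ≤ S) : ∃ N l0 : ℕ, 2 ≤ N ∧ 10 * N ≤ l0 ∧
    ∀ (Y : Type*) [NormedAddCommGroup Y] [NormedSpace ℝ Y] (Good : Finset Y → Prop) (R : ℕ) (C : ℝ),
      (R : ℝ) / (2 * (l0 : ℝ) ^ 2) ≤ S → L * C < (R : ℝ) / (2 * (l0 : ℝ) ^ 2) →
      GeoProp Y Good N l0 R C → Win (d := d) L Good {0} (fun _ => True) := by
  classical
  obtain ⟨N, l0, hN, hl, hround⟩ := round d S hS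
  refine ⟨N, l0, hN, hl, fun Y _ _ Good R C hRS hLC ⟨St, ⟨H0, a0, b0, m0, h00, hSt0⟩, hI, hstep⟩ => ?_⟩
  have hN' : (2 : ℝ) ≤ N := by exact_mod_cast hN
  have hl' : (10 : ℝ) * N ≤ l0 := by exact_mod_cast hl
  have l0p : (0 : ℝ) < l0 := by linarith
  set η : ℝ := 1 / (l0 : ℝ) ^ 2 with hη
  have ηp : 0 < η := by positivity
  have hRη : (R : ℝ) / (2 * (l0 : ℝ) ^ 2) = R * η / 2 := by rw [hη]; field_simp
  rw [hRη] at hRS hLC
  have main : ∀ n r : ℕ, r + n = R → ∀ H a b l, St r H a b l →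
      Win (d := d) L Good H (fun G => r * η / 2 * l ≤ ‖G a - G b‖) := by
    intro n
    induction n with
    | zero =>
      intro r hr H a b l h
      obtain rfl : r = R := by omega
      obtain ⟨g1, g2, g3, g4, g5⟩ := hI _ _ _ _ _ le_rfl h
      refine .stop _ _ g1 fun G h1 h2 => ?_
      have e1 := (h2 a g2 b g3).2
      have e2 := mul_le_mul_of_nonneg_left g5 hL
      have e3 := mul_lt_mul_of_pos_right hLC g4
      nlinarith
    | succ n ih =>
      intro r hr H a b l h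
      have hrR : r < R := by omega
      obtain ⟨-, ga, gb, lp, -⟩ := hI _ _ _ _ _ hrR.le h
      obtain ⟨u, rfl⟩ : ∃ u : ℝ, l = l0 * u := ⟨l / l0, by field_simp⟩
      have up : 0 < u := by
        by_contra hc
        have : (l0 : ℝ) * u ≤ 0 := mul_nonpos_of_nonneg_of_nonpos l0p.le (not_lt.1 hc)
        linarith
      obtain ⟨P, Q, M, hPQ⟩ := hstep r H a b u hrR h
      let ι := {p : Fin (N + 1) × Fin (N + 1) // 1 ≤ (p.1 : ℕ) ∧ (p.1 : ℕ) < (p.2 : ℕ)}
      have hex := fun p : ι => (hPQ p.1.1 p.1.2 p.2.1 p.2.2 (Nat.lt_succ_iff.1 p.1.2.2)).2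
      choose H2 hH2 hA hB using hex
      let p0 : ι := ⟨(⟨1, by omega⟩, ⟨2, by omega⟩), by simp⟩
      haveI : Nonempty ι := ⟨p0⟩
      let H1 : Finset Y := H ∪ (Finset.Icc 1 N).image P ∪ (Finset.Icc 1 N).image Q
      have hP1 : ∀ i, 1 ≤ i → i ≤ N → P i ∈ H1 := fun i h1 h2 =>
        Finset.mem_union_left _ (Finset.mem_union_right _
          (Finset.mem_image_of_mem _ (Finset.mem_Icc.2 ⟨h1, h2⟩)))
      have hQ1 : ∀ i, 1 ≤ i → i ≤ N → Q i ∈ H1 := fun i h1 h2 =>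
        Finset.mem_union_right _ (Finset.mem_image_of_mem _ (Finset.mem_Icc.2 ⟨h1, h2⟩))
      have hH1 : H ⊆ H1 := fun x hx => Finset.mem_union_left _ (Finset.mem_union_left _ hx)
      have h12 : ∀ p, H1 ⊆ H2 p := by
        intro p x hx
        rcases Finset.mem_union.1 hx with hx | hx
        · rcases Finset.mem_union.1 hx with hx | hx
          · exact hH2 p hx
          · obtain ⟨i, hi, rfl⟩ := Finset.mem_image.1 hx
            obtain ⟨i1, i2⟩ := Finset.mem_Icc.1 hi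
            exact (hI _ _ _ _ _ hrR (hA p i i1 i2).1).2.2.1
        · obtain ⟨i, hi, rfl⟩ := Finset.mem_image.1 hx
          obtain ⟨i1, i2⟩ := Finset.mem_Icc.1 hi
          exact (hI _ _ _ _ _ hrR (hA p i i1 i2).2.2.1).2.2.1
      let F : ι → Set (Y × Y × ℝ) := fun p =>
        {z | z ∈ Set.range (fun w : Fin (N + 1) × Fin 6 => pc a b P Q M l0 u w.1 w.2) ∧
          St (r + 1) (H2 p) z.1 z.2.1 z.2.2 ∧ u ≤ z.2.2}
      have hmem : ∀ (p : ι) (i : ℕ) (e : Fin 6), i ≤ N →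
          St (r + 1) (H2 p) (pc a b P Q M l0 u i e).1 (pc a b P Q M l0 u i e).2.1
            (pc a b P Q M l0 u i e).2.2 → u ≤ (pc a b P Q M l0 u i e).2.2 →
          pc a b P Q M l0 u i e ∈ F p := fun p i e hi h1 h2 =>
        ⟨⟨(⟨i, by omega⟩, e), rfl⟩, h1, h2⟩
      have lm : ∀ i : ℕ, i ≤ N → u ≤ ((l0 : ℝ) / 2 - i) * u ∧ u ≤ ((l0 : ℝ) / 2 + i) * u := by
        intro i hi
        have : (i : ℝ) ≤ N := by exact_mod_cast hi
        have : (0 : ℝ) ≤ i := Nat.cast_nonneg _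
        constructor <;> nlinarith
      have lm2 : ∀ i : ℕ, 1 ≤ i → u ≤ (i : ℝ) * u := by
        intro i hi
        have : (1 : ℝ) ≤ i := by exact_mod_cast hi
        nlinarith
      have W3 : ∀ p, Win (d := d) L Good (H2 p) (fun G => ∃ z ∈ F p,
          (((r + 1 : ℕ) : ℝ) * η / 2 + η / 8) * z.2.2 ≤ ‖G z.1 - G z.2.1‖) := by
        intro p
        refine wpick (F p) ((Set.finite_range _).subset fun z hz => hz.1)
          ⟨_, hmem p 1 0 (by omega) (hA p 1 le_rfl (by omega)).1 (lm 1 (by omega)).1⟩ _ _ u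
          (by positivity) up fun z hz => ?_
        obtain ⟨-, g2, g3, -⟩ := hI _ _ _ _ _ hrR hz.2.1
        exact ⟨g2, g3, hz.2.2, ih (r + 1) (by omega) _ _ _ _ hz.2.1⟩
      set s1 : ℝ := max 0 (r * η / 2 - η / 4) with hs1
      have s10 : 0 ≤ s1 := le_max_left _ _
      have s11 : r * η / 2 - η / 4 ≤ s1 := le_max_right _ _
      have s1S : s1 ≤ S := by
        refine max_le hS ?_
        have : (r : ℝ) ≤ R := by exact_mod_cast hrR.le
        nlinarith
      have hσ : ((r + 1 : ℕ) : ℝ) * η / 2 + η / 8 + η / 8 ≤ s1 + η := by push_cast; linarith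
      have W2 : Win (d := d) L Good H1 (fun G => s1 * (l0 * u) ≤ ‖G a - G b‖) := by
        refine wstep (ι := ι) H2 _ (min (u / l0) (η * u / 16)) (by positivity) h12 W3
          fun G h1 _ => ?_
        have viol : ∀ (i : ℕ) (e : Fin 6), i ≤ N →
            St (r + 1) (H2 p0) (pc a b P Q M l0 u i e).1 (pc a b P Q M l0 u i e).2.1
              (pc a b P Q M l0 u i e).2.2 → u ≤ (pc a b P Q M l0 u i e).2.2 →
            (pc a b P Q M l0 u i e).1 ∈ H1 → (pc a b P Q M l0 u i e).2.1 ∈ H1 →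
            (s1 + η) * (pc a b P Q M l0 u i e).2.2 <
              dist (G (pc a b P Q M l0 u i e).1) (G (pc a b P Q M l0 u i e).2.1) →
            ∃ c, ∀ G' : Y → Eu d, (∀ y ∈ H1, ‖G' y - G y‖ ≤ min (u / l0) (η * u / 16)) →
              BL L G' (H2 c) → ∃ z ∈ F c,
              (((r + 1 : ℕ) : ℝ) * η / 2 + η / 8) * z.2.2 ≤ ‖G' z.1 - G' z.2.1‖ := by
          intro i e hi g1 g2 g3 g4 g5
          refine ⟨p0, fun G' h3 _ => ⟨_, hmem p0 i e hi g1 g2, ?_⟩⟩
          have e1 := pert ((h3 _ g3).trans (min_le_right _ _)) ((h3 _ g4).trans (min_le_right _ _))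
          rw [dist_eq_norm] at g5
          generalize (pc a b P Q M l0 u i e).2.2 = m at *
          have e2 := mul_le_mul_of_nonneg_left g2 ηp.le
          have e3 := mul_le_mul_of_nonneg_right hσ (up.le.trans g2)
          nlinarith
        by_cases hv : ∀ k : ℕ, 1 ≤ k → k ≤ N →
            dist (G a) (G (P k)) ≤ (s1 + η) * (((l0 : ℝ) / 2 - k) * u) ∧
            dist (G (P k)) (G b) ≤ (s1 + η) * (((l0 : ℝ) / 2 + k) * u) ∧
            dist (G a) (G (Q k)) ≤ (s1 + η) * (((l0 : ℝ) / 2 + k) * u) ∧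
            dist (G (Q k)) (G b) ≤ (s1 + η) * (((l0 : ℝ) / 2 - k) * u)
        · obtain ⟨j, k, j1, jk, kN, hjk⟩ := hround u up s1 (s1 + η) s10 s1S rfl (G a) (G b)
            (fun i => G (P i)) (fun i => G (Q i)) (by rw [dist_eq_norm]; exact h1) hv
          let p : ι := ⟨(⟨j, by omega⟩, ⟨k, by omega⟩), j1, jk⟩
          refine ⟨p, fun G' h3 h4 => ?_⟩
          by_contra hc
          have hb : ∀ (i : ℕ) (e : Fin 6), i ≤ N →
              St (r + 1) (H2 p) (pc a b P Q M l0 u i e).1 (pc a b P Q M l0 u i e).2.1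
                (pc a b P Q M l0 u i e).2.2 → u ≤ (pc a b P Q M l0 u i e).2.2 →
              dist (G' (pc a b P Q M l0 u i e).1) (G' (pc a b P Q M l0 u i e).2.1) ≤
                (s1 + η) * (pc a b P Q M l0 u i e).2.2 := by
            intro i e hi g1 g2
            by_contra hc2
            refine hc ⟨_, hmem p i e hi g1 g2, ?_⟩
            rw [dist_eq_norm, not_le] at hc2
            have e3 := mul_le_mul_of_nonneg_right hσ (up.le.trans g2)
            have e4 := mul_nonneg ηp.le (up.le.trans g2)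
            nlinarith
          have cl : ∀ y ∈ H1, dist (G' y) (G y + 0) ≤ u / l0 := fun y hy => by
            rw [add_zero, dist_eq_norm]; exact (h3 y hy).trans (min_le_left _ _)
          have bj := hB p j (Or.inl rfl)
          have bk := hB p k (Or.inr rfl)
          have fin := hjk 0 (G' (P j)) (G' (Q j)) (G' (P k)) (G' (Q k)) (G' (M j)) (G' (M k))
            (cl _ (hP1 j j1 (by omega))) (cl _ (hQ1 j j1 (by omega)))
            (cl _ (hP1 k (by omega) kN)) (cl _ (hQ1 k (by omega) kN))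
            (hb j 4 (by omega) bj.1 (lm2 j j1)) (hb j 5 (by omega) bj.2 (lm2 j j1))
            (hb k 4 kN bk.1 (lm2 k (by omega))) (hb k 5 kN bk.2 (lm2 k (by omega)))
          have m1 := (hI _ _ _ _ _ hrR bj.2).2.1
          have m2 := (hI _ _ _ _ _ hrR bk.2).2.1
          have e1 := (h4 _ m1 _ m2).1
          have e2 := (hPQ j k j1 jk kN).1
          rw [dist_eq_norm] at fin
          linarith
        · push Not at hv
          obtain ⟨k, k1, kN, hk⟩ := hv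
          obtain ⟨a1, a2, a3, a4⟩ := hA p0 k k1 kN
          by_cases c1 : dist (G a) (G (P k)) ≤ (s1 + η) * (((l0 : ℝ) / 2 - k) * u)
          · by_cases c2 : dist (G (P k)) (G b) ≤ (s1 + η) * (((l0 : ℝ) / 2 + k) * u)
            · by_cases c3 : dist (G a) (G (Q k)) ≤ (s1 + η) * (((l0 : ℝ) / 2 + k) * u)
              · exact viol k 3 kN a4 (lm k kN).1 (hQ1 k k1 kN) (hH1 gb) (hk c1 c2 c3)
              · exact viol k 2 kN a3 (lm k kN).2 (hH1 ga) (hQ1 k k1 kN) (not_le.1 c3)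
            · exact viol k 1 kN a2 (lm k kN).2 (hP1 k k1 kN) (hH1 gb) (not_le.1 c2)
          · exact viol k 0 kN a1 (lm k kN).1 (hH1 ga) (hP1 k k1 kN) (not_le.1 c1)
      refine wstep (ι := Unit) (fun _ => H1) (fun _ G => s1 * (l0 * u) ≤ ‖G a - G b‖)
        (η * (l0 * u) / 8) (by positivity) (fun _ => hH1) (fun _ => W2) fun G h1 _ =>
        ⟨(), fun G' h3 _ => ?_⟩
      have e1 := pert (h3 _ ga) (h3 _ gb)
      show s1 * (l0 * u) ≤ ‖G' a - G' b‖
      rcases le_total 0 (r * η / 2 - η / 4) with c | c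
      · rw [hs1, max_eq_right c]
        have h1' : r * η / 2 * (l0 * u) ≤ ‖G a - G b‖ := h1
        nlinarith
      · rw [hs1, max_eq_left c, zero_mul]; exact norm_nonneg _
  refine wstep (ι := Unit) (fun _ => H0) (fun _ G => ((0 : ℕ) : ℝ) * η / 2 * m0 ≤ ‖G a0 - G b0‖) 1
    one_pos (fun _ => by simpa using h00) (fun _ => main R 0 (by omega) _ _ _ _ hSt0)
    fun G _ _ => ⟨(), fun G' _ _ => by simp⟩

theorem game_of_geo (Λ : ℕ) (Y : Type*) [NormedAddCommGroup Y] [NormedSpace ℝ Y]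
    (h : GeoTask Λ Y) : S.GameProp Λ Y := by
  intro hY d L hL
  obtain ⟨S, hS⟩ := exists_nat_ge (100 * L ^ 2)
  have hS1 : (100 : ℝ) ≤ S := by nlinarith
  obtain ⟨N, l0, hN, hl, hw⟩ := wrap d L (by linarith) S (by linarith)
  have l0p : (0 : ℝ) < l0 := by
    have : 0 < l0 := by omega
    exact_mod_cast this
  have e : ((2 * S * l0 ^ 2 : ℕ) : ℝ) / (2 * (l0 : ℝ) ^ 2) = S := by push_cast; field_simp
  refine hw Y _ (2 * S * l0 ^ 2) (Real.sqrt (1 + 32 * S)) e.le ?_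
    (h hY N l0 _ hN hl _ (Real.sqrt_nonneg _) ?_)
  · rw [e]
    have h1 : Real.sqrt (1 + 32 * S) ^ 2 = 1 + 32 * S := Real.sq_sqrt (by linarith)
    refine lt_of_pow_lt_pow_left₀ 2 (by linarith) ?_
    rw [mul_pow, h1]
    nlinarith
  · rw [Real.sq_sqrt (by linarith)]
    apply le_of_eq
    push_cast; field_simp; ring

end Crest.Agent.R254.G
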